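import Vale.Agent.P064.MathlibUsed
import Vale.Agent.P064.Defs

set_option linter.all false

section

section

set_option linter.unusedSectionVars false

namespace Vale.Agent.P064

open Finset

section Bernoulli

variable {X : Type*} [DecidableEq X]

/-- Weight of `W` in the `p`-random subset of `S`. -/
noncomputable def wtS (p : ℝ) (S W : Finset X) : ℝ := ∏ x ∈ S, if x ∈ W then p else 1 - p

theorem wtS_nonneg {p : ℝ} (h0 : 0 ≤ p) (h1 : p ≤ 1) (S W : Finset X) : 0 ≤ wtS p S W := by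
  unfold wtS
  apply Finset.prod_nonneg
  intro x _
  split_ifs <;> linarith

theorem wtS_insert_left (p : ℝ) {S W : Finset X} {a : X} (ha : a ∉ S) (hW : W ⊆ S) :
    wtS p (insert a S) W = (1 - p) * wtS p S W := by
  unfold wtS
  rw [Finset.prod_insert ha, if_neg (fun h => ha (hW h))]

theorem wtS_insert_insert (p : ℝ) {S W : Finset X} {a : X} (ha : a ∉ S) :
    wtS p (insert a S) (insert a W) = p * wtS p S W := by
  unfold wtS
  rw [Finset.prod_insert ha, if_pos (mem_insert_self a W)]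
  congr 1
  apply Finset.prod_congr rfl
  intro x hx
  have hxa : x ≠ a := fun h => ha (h ▸ hx)
  simp [hxa]

/-- Expectation over the `p`-random subset of `S`. -/
noncomputable def ES (p : ℝ) (S : Finset X) (f : Finset X → ℝ) : ℝ :=
  ∑ W ∈ S.powerset, wtS p S W * f W

theorem ES_insert (p : ℝ) {S : Finset X} {a : X} (ha : a ∉ S) (f : Finset X → ℝ) :
    ES p (insert a S) f = (1 - p) * ES p S f + p * ES p S (fun W => f (insert a W)) := by
  unfold ES
  rw [Finset.sum_powerset_insert ha, Finset.mul_sum, Finset.mul_sum]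
  congr 1
  · apply Finset.sum_congr rfl
    intro W hW
    rw [wtS_insert_left p ha (mem_powerset.1 hW)]
    ring
  · apply Finset.sum_congr rfl
    intro W hW
    rw [wtS_insert_insert p ha]
    ring

theorem ES_add (p : ℝ) (S : Finset X) (f g : Finset X → ℝ) :
    ES p S (fun W => f W + g W) = ES p S f + ES p S g := by
  unfold ES
  rw [← Finset.sum_add_distrib]
  exact Finset.sum_congr rfl (fun _ _ => by ring)

theorem ES_mul (p : ℝ) (S : Finset X) (c : ℝ) (f : Finset X → ℝ) :
    ES p S (fun W => c * f W) = c * ES p S f := by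
  unfold ES
  rw [Finset.mul_sum]
  exact Finset.sum_congr rfl (fun _ _ => by ring)

theorem ES_const (p : ℝ) (S : Finset X) (c : ℝ) : ES p S (fun _ => c) = c := by
  induction S using Finset.induction_on with
  | empty => simp [ES, wtS]
  | insert a S ha ih => rw [ES_insert p ha, ih]; ring

theorem ES_mono {p : ℝ} (h0 : 0 ≤ p) (h1 : p ≤ 1) (S : Finset X) {f g : Finset X → ℝ}
    (h : ∀ W, W ⊆ S → f W ≤ g W) : ES p S f ≤ ES p S g := by
  unfold ES
  apply Finset.sum_le_sum
  intro W hW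
  exact mul_le_mul_of_nonneg_left (h W (mem_powerset.1 hW)) (wtS_nonneg h0 h1 S W)

/-- The union of independent `p`-random and `q`-random sets is `p + q - p q`-random. -/
theorem ES_union (p q : ℝ) (S : Finset X) : ∀ (f : Finset X → ℝ),
    ES p S (fun W => ES q S (fun Z => f (W ∪ Z))) = ES (p + q - p * q) S f := by
  induction S using Finset.induction_on with
  | empty => intro f; simp [ES, wtS]
  | insert a S ha ih =>
    intro f
    have e1 : ∀ W : Finset X, ES q (insert a S) (fun Z => f (W ∪ Z))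
        = (1 - q) * ES q S (fun Z => f (W ∪ Z)) + q * ES q S (fun Z => f (insert a (W ∪ Z))) := by
      intro W
      rw [ES_insert q ha]
      simp only [Finset.union_insert]
    have e2 : ∀ W : Finset X, ES q (insert a S) (fun Z => f (insert a W ∪ Z))
        = ES q S (fun Z => f (insert a (W ∪ Z))) := by
      intro W
      rw [ES_insert q ha]
      simp only [Finset.union_insert, Finset.insert_union, Finset.insert_idem]
      ring
    have e3 : (fun W => ES q (insert a S) (fun Z => f (W ∪ Z)))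
        = fun W => (1 - q) * ES q S (fun Z => f (W ∪ Z))
          + q * ES q S (fun Z => f (insert a (W ∪ Z))) := funext e1
    have e4 : (fun W => ES q (insert a S) (fun Z => f (insert a W ∪ Z)))
        = fun W => ES q S (fun Z => f (insert a (W ∪ Z))) := funext e2
    rw [ES_insert p ha, e4, e3, ES_add, ES_mul, ES_mul, ih f,
      ih (fun W => f (insert a W)), ES_insert _ ha]
    ring

theorem ES_mono_p {p q : ℝ} (h0 : 0 ≤ p) (hpq : p ≤ q) (h1 : q ≤ 1) (S : Finset X)
    {f : Finset X → ℝ} (hf : ∀ W Z, f W ≤ f (W ∪ Z)) : ES p S f ≤ ES q S f := by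
  rcases eq_or_lt_of_le (hpq.trans h1) with h | h
  · have : q = p := by linarith
    rw [this]
  · have hp : 0 < 1 - p := by linarith
    have hs : q = p + (q - p) / (1 - p) - p * ((q - p) / (1 - p)) := by
      field_simp
      ring
    have s0 : 0 ≤ (q - p) / (1 - p) := div_nonneg (by linarith) hp.le
    have s1 : (q - p) / (1 - p) ≤ 1 := by
      rw [div_le_one hp]; linarith
    rw [hs, ← ES_union]
    apply ES_mono h0 (hpq.trans h1)
    intro W _
    calc f W = ES ((q - p) / (1 - p)) S (fun _ => f W) := (ES_const _ _ _).symm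
      _ ≤ _ := ES_mono s0 s1 S (fun Z _ => hf W Z)

end Bernoulli


section Fragment

variable {X ι : Type*} [Fintype X] [DecidableEq X] [DecidableEq ι]

end Fragment

section Main

variable {X ι : Type*} [Fintype X] [DecidableEq X] [DecidableEq ι]

open Classical in
/-- Indicator that some set of the family lies inside `W`. -/
noncomputable def hit (A : Finset ι) (T : ι → Finset X) (W : Finset X) : ℝ :=
  if ∃ i ∈ A, T i ⊆ W then 1 else 0

/-- The density of the union of the first `k` rounds. -/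
noncomputable def qs (q : ℕ → ℝ) : ℕ → ℝ
  | 0 => 0
  | k + 1 => q k + qs q k - q k * qs q k

theorem qs_bounds (q : ℕ → ℝ) (k : ℕ) (h : ∀ j < k, 0 ≤ q j ∧ q j ≤ 1) :
    0 ≤ qs q k ∧ qs q k ≤ 1 ∧ qs q k ≤ ∑ j ∈ range k, q j := by
  induction k with
  | zero => simp [qs]
  | succ k ih =>
    obtain ⟨h0, h1, h2⟩ := ih (fun j hj => h j (Nat.lt_succ_of_lt hj))
    obtain ⟨g0, g1⟩ := h k (Nat.lt_succ_self k)
    simp only [qs]
    refine ⟨?_, ?_, ?_⟩
    · nlinarith
    · nlinarith
    · rw [Finset.sum_range_succ]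
      nlinarith [mul_nonneg g0 h0]

end Main

end Vale.Agent.P064
end
end

section

section

/-!
Multi-level version of the spread theorem: one round of posterior resampling for a kernel,
uniformly over a tree of bases.
-/

namespace Vale.Agent.P064.Multi

open Finset

section Plant

variable {X : Type*} [DecidableEq X]

theorem ES_congr (p : ℝ) (S : Finset X) {f g : Finset X → ℝ} (h : ∀ W, W ⊆ S → f W = g W) :
    ES p S f = ES p S g := by
  unfold ES
  exact Finset.sum_congr rfl (fun W hW => by rw [h W (mem_powerset.1 hW)])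

theorem ES_plant_one (p : ℝ) {S : Finset X} {a : X} (ha : a ∈ S) (f : Finset X → ℝ) :
    p * ES p S (fun W => f (insert a W)) = ES p S (fun W => if a ∈ W then f W else 0) := by
  have hn : a ∉ S.erase a := by simp
  rw [← Finset.insert_erase ha, ES_insert p hn, ES_insert p hn]
  have e1 : ES p (S.erase a) (fun W => if a ∈ W then f W else 0) = 0 := by
    rw [ES_congr p _ (g := fun _ => 0), ES_const]
    intro W hW
    rw [if_neg (fun h => hn (hW h))]
  rw [e1]
  simp only [Finset.insert_idem, mem_insert_self, if_true]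
  ring

theorem ES_plant (p : ℝ) {S : Finset X} : ∀ (T : Finset X) (_ : T ⊆ S) (f : Finset X → ℝ),
    p ^ T.card * ES p S (fun W => f (W ∪ T)) = ES p S (fun W => if T ⊆ W then f W else 0) := by
  intro T
  induction T using Finset.induction_on with
  | empty => intro _ f; simp
  | insert a T ha ih =>
    intro hT f
    have haS : a ∈ S := hT (mem_insert_self a T)
    have hTS : T ⊆ S := fun x hx => hT (mem_insert_of_mem hx)
    have h1 := ih hTS (fun W => f (insert a W))
    have h2 := ES_plant_one p haS (fun W => if T ⊆ W then f W else 0)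
    rw [Finset.card_insert_of_notMem ha, pow_succ]
    have e1 : (fun W : Finset X => f (W ∪ insert a T)) = fun W => f (insert a (W ∪ T)) := by
      funext W; rw [Finset.union_insert]
    have e2 : (fun W : Finset X => if T ⊆ insert a W then f (insert a W) else 0)
        = fun W => if T ⊆ W then f (insert a W) else 0 := by
      funext W
      have : T ⊆ insert a W ↔ T ⊆ W := by
        rw [Finset.subset_insert_iff_of_notMem ha]
      simp only [this]
    have e3 : (fun W : Finset X => if a ∈ W then (if T ⊆ W then f W else 0) else 0)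
        = fun W => if insert a T ⊆ W then f W else 0 := by
      funext W
      by_cases h3 : a ∈ W <;> by_cases h4 : T ⊆ W <;> simp [h3, h4, Finset.insert_subset_iff]
    rw [e1, ← e3, ← h2, e2, ← h1]
    ring

theorem ES_sum (p : ℝ) (S : Finset X) {ι : Type*} (s : Finset ι) (f : ι → Finset X → ℝ) :
    ES p S (fun W => ∑ i ∈ s, f i W) = ∑ i ∈ s, ES p S (f i) := by
  unfold ES
  rw [Finset.sum_comm]
  apply Finset.sum_congr rfl
  intro W _
  rw [Finset.mul_sum]

end Plant

section Level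

variable {X : Type*} [Fintype X] [DecidableEq X]

/-- Existence of a sub-probability kernel at the base `A`: it is supported on sets `D` disjoint
from `A`, leading to good bases `A ∪ D`, with at most `s` missing points (outside `V`), it has
mass at least `m`, and its missing parts are `ρ`-spread. -/
def Lvl (ρ : ℝ) (s : ℕ) (m : ℝ) (G : Finset X → Prop) (V A : Finset X) : Prop :=
  ∃ κ : Finset X → ℝ, (∀ D, 0 ≤ κ D) ∧
    (∀ D, κ D ≠ 0 → Disjoint D A ∧ G (A ∪ D) ∧ (D \ V).card ≤ s) ∧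
    m ≤ ∑ D, κ D ∧
    (∀ J : Finset X, ∑ D, (if J ⊆ D \ V then κ D else 0) ≤ ρ ^ J.card)

theorem Lvl.mono {ρ : ℝ} {s : ℕ} {m m' : ℝ} {G : Finset X → Prop} {V A : Finset X}
    (h : Lvl ρ s m G V A) (hm : m' ≤ m) : Lvl ρ s m' G V A := by
  obtain ⟨κ, h1, h2, h3, h4⟩ := h
  exact ⟨κ, h1, h2, hm.trans h3, h4⟩

theorem Lvl.congr {ρ : ℝ} {s : ℕ} {m : ℝ} {G G2 : Finset X → Prop} {V V2 A : Finset X}
    (h : Lvl ρ s m G V A) (hV : V \ A = V2 \ A) (hG : ∀ D, G (A ∪ D) → G2 (A ∪ D)) :
    Lvl ρ s m G2 V2 A := by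
  obtain ⟨κ, h1, h2, h3, h4⟩ := h
  have key : ∀ D, κ D ≠ 0 → D \ V = D \ V2 := by
    intro D hD
    have hd := (h2 D hD).1
    ext x
    simp only [mem_sdiff]
    constructor
    · rintro ⟨hx, hxV⟩
      refine ⟨hx, fun hx2 => hxV ?_⟩
      have hxA : x ∉ A := Finset.disjoint_left.1 hd hx
      have : x ∈ V2 \ A := mem_sdiff.2 ⟨hx2, hxA⟩
      rw [← hV] at this
      exact (mem_sdiff.1 this).1
    · rintro ⟨hx, hxV⟩
      refine ⟨hx, fun hx2 => hxV ?_⟩
      have hxA : x ∉ A := Finset.disjoint_left.1 hd hx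
      have : x ∈ V \ A := mem_sdiff.2 ⟨hx2, hxA⟩
      rw [hV] at this
      exact (mem_sdiff.1 this).1
  refine ⟨κ, h1, ?_, h3, ?_⟩
  · intro D hD
    obtain ⟨a, b, c⟩ := h2 D hD
    exact ⟨a, hG D b, by rw [← key D hD]; exact c⟩
  · intro J
    refine le_trans (le_of_eq ?_) (h4 J)
    apply Finset.sum_congr rfl
    intro D _
    by_cases hD : κ D = 0
    · simp [hD]
    · rw [key D hD]

/-- Overlap bound. -/
theorem inner_bound {p ρ ε : ℝ} (hp0 : 0 < p) (hρ0 : 0 ≤ ρ) (hε1 : ε ≤ 1)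
    (hρ : ρ ≤ p * ε) (κ : Finset X → ℝ) (hκ : ∀ D, 0 ≤ κ D) (V : Finset X)
    (hsp : ∀ J : Finset X, ∑ D, (if J ⊆ D \ V then κ D else 0) ≤ ρ ^ J.card)
    (s t : ℕ) (T' : Finset X) (hT' : T'.card ≤ s) :
    ∑ D, κ D * (if t ≤ ((D \ V) ∩ T').card then (p⁻¹) ^ ((D \ V) ∩ T').card else 0)
      ≤ 2 ^ s * ε ^ t := by
  have hε0 : 0 ≤ ε := by
    by_contra h
    push Not at h
    have : p * ε < 0 := mul_neg_of_pos_of_neg hp0 h
    linarith
  have hq0 : 0 < p⁻¹ := inv_pos.2 hp0
  have step1 : ∀ D, κ D * (if t ≤ ((D \ V) ∩ T').card then (p⁻¹) ^ ((D \ V) ∩ T').card else 0)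
      ≤ ∑ U ∈ T'.powerset, (if t ≤ U.card then (p⁻¹) ^ U.card *
        (if U ⊆ D \ V then κ D else 0) else 0) := by
    intro D
    have hmem : (D \ V) ∩ T' ∈ T'.powerset := mem_powerset.2 inter_subset_right
    refine le_trans (le_of_eq ?_) (Finset.single_le_sum (f := fun U =>
      (if t ≤ U.card then (p⁻¹) ^ U.card * (if U ⊆ D \ V then κ D else 0) else 0)) ?_ hmem)
    · rw [if_pos (inter_subset_left : (D \ V) ∩ T' ⊆ D \ V)]
      split_ifs
      · ring
      · ring
    · intro U _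
      split_ifs
      · exact mul_nonneg (pow_nonneg hq0.le _) (hκ D)
      · simp
      · exact le_refl _
  calc ∑ D, κ D * (if t ≤ ((D \ V) ∩ T').card then (p⁻¹) ^ ((D \ V) ∩ T').card else 0)
      ≤ ∑ D, ∑ U ∈ T'.powerset, (if t ≤ U.card then (p⁻¹) ^ U.card *
        (if U ⊆ D \ V then κ D else 0) else 0) := Finset.sum_le_sum (fun D _ => step1 D)
    _ = ∑ U ∈ T'.powerset, ∑ D, (if t ≤ U.card then (p⁻¹) ^ U.card *
        (if U ⊆ D \ V then κ D else 0) else 0) := Finset.sum_comm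
    _ ≤ ∑ U ∈ T'.powerset, ε ^ t := by
        apply Finset.sum_le_sum
        intro U _
        by_cases ht : t ≤ U.card
        · simp only [ht, if_true]
          rw [← Finset.mul_sum]
          calc (p⁻¹) ^ U.card * ∑ D, (if U ⊆ D \ V then κ D else 0)
              ≤ (p⁻¹) ^ U.card * ρ ^ U.card :=
                mul_le_mul_of_nonneg_left (hsp U) (pow_nonneg hq0.le _)
            _ = (p⁻¹ * ρ) ^ U.card := by rw [mul_pow]
            _ ≤ ε ^ U.card := by
                apply pow_le_pow_left₀ (mul_nonneg hq0.le hρ0)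
                calc p⁻¹ * ρ ≤ p⁻¹ * (p * ε) := mul_le_mul_of_nonneg_left hρ hq0.le
                  _ = ε := by rw [← mul_assoc, inv_mul_cancel₀ hp0.ne', one_mul]
            _ ≤ ε ^ t := pow_le_pow_of_le_one hε0 hε1 ht
        · simp only [ht, if_false, Finset.sum_const_zero]
          positivity
    _ = (2 ^ T'.card : ℕ) * ε ^ t := by
        rw [Finset.sum_const, Finset.card_powerset, nsmul_eq_mul]
    _ ≤ 2 ^ s * ε ^ t := by
        apply mul_le_mul_of_nonneg_right _ (by positivity)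
        push_cast
        exact pow_le_pow_right₀ (by norm_num) hT'

end Level

section Step

set_option linter.unusedSectionVars false

variable {X : Type*} [Fintype X] [DecidableEq X]

/-- posterior weight -/
noncomputable def pw (p : ℝ) (κ : Finset X → ℝ) (V Y D : Finset X) : ℝ :=
  if D \ V ⊆ Y then κ D * (p⁻¹) ^ (D \ V).card else 0

/-- The partition function. -/
noncomputable def Zf (p : ℝ) (κ : Finset X → ℝ) (V Y : Finset X) : ℝ :=
  ∑ D, pw p κ V Y D

theorem pw_nonneg {p : ℝ} (hp0 : 0 < p) {κ : Finset X → ℝ} (hκ : ∀ D, 0 ≤ κ D)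
    (V Y D : Finset X) : 0 ≤ pw p κ V Y D := by
  unfold pw
  split_ifs
  · exact mul_nonneg (hκ D) (pow_nonneg (inv_pos.2 hp0).le _)
  · exact le_refl _

theorem ES_subset (p : ℝ) (S : Finset X) :
    ES p univ (fun W => if S ⊆ W then (1 : ℝ) else 0) = p ^ S.card := by
  have := ES_plant p (S := univ) S (subset_univ S) (fun _ => (1 : ℝ))
  rw [ES_const, mul_one] at this
  exact this.symm

open Classical in
/-- First loss: the partition function is small. -/
theorem loss1 {p lam : ℝ} (hp0 : 0 < p) (hp1 : p ≤ 1) (hlam : 0 < lam)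
    (κ : Finset X → ℝ) (V : Finset X) :
    ES p univ (fun W => ∑ D, κ D * (if Zf p κ V (W ∪ (D \ V)) < lam then (1 : ℝ) else 0))
      ≤ lam := by
  rw [ES_sum]
  have e1 : ∀ D : Finset X, ES p univ (fun W => κ D *
      (if Zf p κ V (W ∪ (D \ V)) < lam then (1 : ℝ) else 0))
      = ES p univ (fun W => pw p κ V W D * (if Zf p κ V W < lam then (1 : ℝ) else 0)) := by
    intro D
    have h1 := ES_plant p (S := univ) (D \ V) (subset_univ _)
      (fun W => if Zf p κ V W < lam then (1 : ℝ) else 0)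
    have h2 : ES p univ (fun W => pw p κ V W D * (if Zf p κ V W < lam then (1 : ℝ) else 0))
        = (κ D * (p⁻¹) ^ (D \ V).card) * ES p univ (fun W => if D \ V ⊆ W then
          (if Zf p κ V W < lam then (1 : ℝ) else 0) else 0) := by
      rw [← ES_mul]
      apply ES_congr
      intro W _
      unfold pw
      split_ifs <;> ring
    rw [h2, ← h1, ES_mul]
    have h3 : (p⁻¹) ^ (D \ V).card * p ^ (D \ V).card = 1 := by
      rw [← mul_pow, inv_mul_cancel₀ hp0.ne', one_pow]
    calc κ D * ES p univ (fun W => if Zf p κ V (W ∪ (D \ V)) < lam then (1 : ℝ) else 0)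
        = κ D * ((p⁻¹) ^ (D \ V).card * p ^ (D \ V).card) *
          ES p univ (fun W => if Zf p κ V (W ∪ (D \ V)) < lam then (1 : ℝ) else 0) := by
          rw [h3, mul_one]
      _ = _ := by ring
  rw [Finset.sum_congr rfl (fun D _ => e1 D), ← ES_sum]
  calc ES p univ (fun W => ∑ D, pw p κ V W D * (if Zf p κ V W < lam then (1 : ℝ) else 0))
      ≤ ES p univ (fun _ => lam) := by
        apply ES_mono hp0.le hp1
        intro W _
        rw [← Finset.sum_mul]
        change Zf p κ V W * _ ≤ lam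
        split_ifs with h
        · rw [mul_one]; exact h.le
        · rw [mul_zero]; exact hlam.le
    _ = lam := ES_const _ _ _

open Classical in
/-- Second loss: the missing part is too large. -/
theorem loss2 {p ρ ε lam : ℝ} (hp0 : 0 < p) (hp1 : p ≤ 1) (hρ0 : 0 ≤ ρ) (hε1 : ε ≤ 1)
    (hε0 : 0 ≤ ε) (hρ : ρ ≤ p * ε) (hlam : 0 < lam) (κ : Finset X → ℝ) (hκ : ∀ D, 0 ≤ κ D)
    (V : Finset X)
    (hsp : ∀ J : Finset X, ∑ D, (if J ⊆ D \ V then κ D else 0) ≤ ρ ^ J.card)
    (s s' : ℕ) (hs : ∀ D, κ D ≠ 0 → (D \ V).card ≤ s) :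
    ES p univ (fun W => ∑ D', ∑ D, κ D * (lam⁻¹ * (κ D' * (p⁻¹) ^ (D' \ V).card)) *
      (if D' \ V ⊆ W ∪ (D \ V) ∧ s' < ((D' \ V) \ W).card then (1 : ℝ) else 0))
      ≤ lam⁻¹ * (2 ^ s * ε ^ (s' + 1)) := by
  have hq0 : 0 < p⁻¹ := inv_pos.2 hp0
  have hmass : ∑ D, κ D ≤ 1 := by
    have := hsp ∅
    simpa using this
  rw [ES_sum]
  have e1 : ∀ D' : Finset X, ES p univ (fun W => ∑ D, κ D * (lam⁻¹ *
      (κ D' * (p⁻¹) ^ (D' \ V).card)) *
      (if D' \ V ⊆ W ∪ (D \ V) ∧ s' < ((D' \ V) \ W).card then (1 : ℝ) else 0))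
      ≤ κ D' * (lam⁻¹ * (2 ^ s * ε ^ (s' + 1))) := by
    intro D'
    by_cases hD' : κ D' = 0
    · have : (fun W : Finset X => ∑ D, κ D * (lam⁻¹ * (κ D' * (p⁻¹) ^ (D' \ V).card)) *
        (if D' \ V ⊆ W ∪ (D \ V) ∧ s' < ((D' \ V) \ W).card then (1 : ℝ) else 0))
        = fun _ => 0 := by
        funext W
        rw [hD']
        simp
      rw [this, ES_const, hD', zero_mul]
    rw [ES_sum]
    have e2 : ∀ D : Finset X, ES p univ (fun W => κ D * (lam⁻¹ *
        (κ D' * (p⁻¹) ^ (D' \ V).card)) *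
        (if D' \ V ⊆ W ∪ (D \ V) ∧ s' < ((D' \ V) \ W).card then (1 : ℝ) else 0))
        ≤ (lam⁻¹ * κ D') * (κ D * (if s' + 1 ≤ ((D \ V) ∩ (D' \ V)).card then
          (p⁻¹) ^ ((D \ V) ∩ (D' \ V)).card else 0)) := by
      intro D
      rw [ES_mul]
      have h1 : ES p univ (fun W => if D' \ V ⊆ W ∪ (D \ V) ∧ s' < ((D' \ V) \ W).card
          then (1 : ℝ) else 0) ≤ (if s' + 1 ≤ ((D \ V) ∩ (D' \ V)).card then
            p ^ ((D' \ V) \ (D \ V)).card else 0) := by
        split_ifs with h2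
        · rw [← ES_subset]
          apply ES_mono hp0.le hp1
          intro W _
          split_ifs with h3 h4 h4
          · exact le_refl _
          · exfalso; apply h4
            intro x hx
            rw [mem_sdiff] at hx
            have := h3.1 hx.1
            rw [mem_union] at this
            rcases this with h5 | h5
            · exact h5
            · exact absurd h5 hx.2
          · norm_num
          · exact le_refl _
        · refine le_trans (ES_mono hp0.le hp1 _ (g := fun _ => (0 : ℝ)) ?_)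
            (le_of_eq (ES_const _ _ _))
          intro W _
          rw [if_neg]
          rintro ⟨h3, h4⟩
          apply h2
          have h5 : (D' \ V) \ W ⊆ (D \ V) ∩ (D' \ V) := by
            intro x hx
            rw [mem_sdiff] at hx
            have := h3 hx.1
            rw [mem_union] at this
            rcases this with h6 | h6
            · exact absurd h6 hx.2
            · exact mem_inter.2 ⟨h6, hx.1⟩
          have := card_le_card h5
          omega
      have hc : 0 ≤ κ D * (lam⁻¹ * (κ D' * (p⁻¹) ^ (D' \ V).card)) :=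
        mul_nonneg (hκ D) (mul_nonneg (inv_pos.2 hlam).le
          (mul_nonneg (hκ D') (pow_nonneg hq0.le _)))
      refine (mul_le_mul_of_nonneg_left h1 hc).trans (le_of_eq ?_)
      split_ifs with h2
      · have hcard : (D' \ V).card = ((D \ V) ∩ (D' \ V)).card +
            ((D' \ V) \ (D \ V)).card := by
          rw [inter_comm, Finset.card_inter_add_card_sdiff]
        have h3 : (p⁻¹) ^ (D' \ V).card * p ^ ((D' \ V) \ (D \ V)).card
            = (p⁻¹) ^ ((D \ V) ∩ (D' \ V)).card := by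
          rw [hcard, pow_add, mul_assoc, ← mul_pow, inv_mul_cancel₀ hp0.ne', one_pow, mul_one]
        rw [← h3]; ring
      · ring
    calc ∑ D, ES p univ (fun W => κ D * (lam⁻¹ * (κ D' * (p⁻¹) ^ (D' \ V).card)) *
        (if D' \ V ⊆ W ∪ (D \ V) ∧ s' < ((D' \ V) \ W).card then (1 : ℝ) else 0))
        ≤ ∑ D, (lam⁻¹ * κ D') * (κ D * (if s' + 1 ≤ ((D \ V) ∩ (D' \ V)).card then
          (p⁻¹) ^ ((D \ V) ∩ (D' \ V)).card else 0)) := Finset.sum_le_sum (fun D _ => e2 D)
      _ = (lam⁻¹ * κ D') * ∑ D, (κ D * (if s' + 1 ≤ ((D \ V) ∩ (D' \ V)).card then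
          (p⁻¹) ^ ((D \ V) ∩ (D' \ V)).card else 0)) := by rw [Finset.mul_sum]
      _ ≤ (lam⁻¹ * κ D') * (2 ^ s * ε ^ (s' + 1)) := by
          apply mul_le_mul_of_nonneg_left _ (mul_nonneg (inv_pos.2 hlam).le (hκ D'))
          exact inner_bound hp0 hρ0 hε1 hρ κ hκ V hsp s (s' + 1) (D' \ V) (hs D' hD')
      _ = _ := by ring
  calc ∑ D', ES p univ (fun W => ∑ D, κ D * (lam⁻¹ * (κ D' * (p⁻¹) ^ (D' \ V).card)) *
      (if D' \ V ⊆ W ∪ (D \ V) ∧ s' < ((D' \ V) \ W).card then (1 : ℝ) else 0))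
      ≤ ∑ D', κ D' * (lam⁻¹ * (2 ^ s * ε ^ (s' + 1))) := Finset.sum_le_sum (fun D' _ => e1 D')
    _ = (∑ D', κ D') * (lam⁻¹ * (2 ^ s * ε ^ (s' + 1))) := by rw [Finset.sum_mul]
    _ ≤ 1 * (lam⁻¹ * (2 ^ s * ε ^ (s' + 1))) := by
        apply mul_le_mul_of_nonneg_right hmass
        have := (inv_pos.2 hlam).le
        positivity
    _ = _ := one_mul _

open Classical in
/-- Third loss: the base turns bad. -/
theorem loss3 {p ρ ε lam β : ℝ} (hp0 : 0 < p) (hp1 : p ≤ 1) (hρ0 : 0 ≤ ρ) (hε1 : ε ≤ 1)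
    (hρ : ρ ≤ p * ε) (hlam : 0 < lam) (hβ : 0 ≤ β) (κ : Finset X → ℝ) (hκ : ∀ D, 0 ≤ κ D)
    (V A : Finset X)
    (hsp : ∀ J : Finset X, ∑ D, (if J ⊆ D \ V then κ D else 0) ≤ ρ ^ J.card)
    (s : ℕ) (hs : ∀ D, κ D ≠ 0 → (D \ V).card ≤ s)
    (G' : Finset X → Finset X → Prop)
    (hG : ∀ D, κ D ≠ 0 → ES p univ (fun W => if G' W (A ∪ D) then (0 : ℝ) else 1) ≤ β)
    (hinv : ∀ W S A', S ⊆ A' → (G' (W ∪ S) A' ↔ G' W A')) :
    ES p univ (fun W => ∑ D', ∑ D, κ D * (lam⁻¹ * (κ D' * (p⁻¹) ^ (D' \ V).card)) *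
      (if D' \ V ⊆ W ∪ (D \ V) ∧ ¬ G' W (A ∪ D') then (1 : ℝ) else 0))
      ≤ lam⁻¹ * (2 ^ s * β) := by
  have hq0 : 0 < p⁻¹ := inv_pos.2 hp0
  have hmass : ∑ D, κ D ≤ 1 := by
    have := hsp ∅
    simpa using this
  rw [ES_sum]
  have e1 : ∀ D' : Finset X, ES p univ (fun W => ∑ D, κ D * (lam⁻¹ *
      (κ D' * (p⁻¹) ^ (D' \ V).card)) *
      (if D' \ V ⊆ W ∪ (D \ V) ∧ ¬ G' W (A ∪ D') then (1 : ℝ) else 0))
      ≤ κ D' * (lam⁻¹ * (2 ^ s * β)) := by
    intro D'
    by_cases hD' : κ D' = 0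
    · have : (fun W : Finset X => ∑ D, κ D * (lam⁻¹ * (κ D' * (p⁻¹) ^ (D' \ V).card)) *
        (if D' \ V ⊆ W ∪ (D \ V) ∧ ¬ G' W (A ∪ D') then (1 : ℝ) else 0))
        = fun _ => 0 := by
        funext W
        rw [hD']
        simp
      rw [this, ES_const, hD', zero_mul]
    rw [ES_sum]
    have e2 : ∀ D : Finset X, ES p univ (fun W => κ D * (lam⁻¹ *
        (κ D' * (p⁻¹) ^ (D' \ V).card)) *
        (if D' \ V ⊆ W ∪ (D \ V) ∧ ¬ G' W (A ∪ D') then (1 : ℝ) else 0))
        ≤ (lam⁻¹ * κ D' * β) * (κ D * (if 0 ≤ ((D \ V) ∩ (D' \ V)).card then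
          (p⁻¹) ^ ((D \ V) ∩ (D' \ V)).card else 0)) := by
      intro D
      rw [ES_mul]
      have h1 : ES p univ (fun W => if D' \ V ⊆ W ∪ (D \ V) ∧ ¬ G' W (A ∪ D')
          then (1 : ℝ) else 0) ≤ p ^ ((D' \ V) \ (D \ V)).card * β := by
        have h2 := ES_plant p (S := univ) ((D' \ V) \ (D \ V)) (subset_univ _)
          (fun W => if G' W (A ∪ D') then (0 : ℝ) else 1)
        have h3 : (fun W => (if G' (W ∪ ((D' \ V) \ (D \ V))) (A ∪ D') then (0 : ℝ) else 1))
            = fun W => if G' W (A ∪ D') then (0 : ℝ) else 1 := by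
          funext W
          have h4 : (D' \ V) \ (D \ V) ⊆ A ∪ D' := by
            intro x hx
            rw [mem_sdiff, mem_sdiff] at hx
            exact mem_union_right _ hx.1.1
          have h5 := hinv W _ _ h4
          by_cases h6 : G' W (A ∪ D')
          · rw [if_pos h6, if_pos (h5.2 h6)]
          · rw [if_neg h6, if_neg (fun h7 => h6 (h5.1 h7))]
        rw [h3] at h2
        calc ES p univ (fun W => if D' \ V ⊆ W ∪ (D \ V) ∧ ¬ G' W (A ∪ D')
              then (1 : ℝ) else 0)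
            ≤ ES p univ (fun W => if (D' \ V) \ (D \ V) ⊆ W then
              (if G' W (A ∪ D') then (0 : ℝ) else 1) else 0) := by
              apply ES_mono hp0.le hp1
              intro W _
              by_cases h8 : D' \ V ⊆ W ∪ (D \ V) ∧ ¬ G' W (A ∪ D')
              · rw [if_pos h8, if_pos, if_neg h8.2]
                intro x hx
                rw [mem_sdiff] at hx
                have := h8.1 hx.1
                rw [mem_union] at this
                rcases this with h9 | h9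
                · exact h9
                · exact absurd h9 hx.2
              · rw [if_neg h8]
                split_ifs <;> norm_num
          _ = p ^ ((D' \ V) \ (D \ V)).card *
              ES p univ (fun W => if G' W (A ∪ D') then (0 : ℝ) else 1) := h2.symm
          _ ≤ _ := mul_le_mul_of_nonneg_left (hG D' hD') (pow_nonneg hp0.le _)
      have hc : 0 ≤ κ D * (lam⁻¹ * (κ D' * (p⁻¹) ^ (D' \ V).card)) :=
        mul_nonneg (hκ D) (mul_nonneg (inv_pos.2 hlam).le
          (mul_nonneg (hκ D') (pow_nonneg hq0.le _)))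
      refine (mul_le_mul_of_nonneg_left h1 hc).trans (le_of_eq ?_)
      rw [if_pos (Nat.zero_le _)]
      have hcard : (D' \ V).card = ((D \ V) ∩ (D' \ V)).card +
            ((D' \ V) \ (D \ V)).card := by
          rw [inter_comm, Finset.card_inter_add_card_sdiff]
      have h3 : (p⁻¹) ^ (D' \ V).card * p ^ ((D' \ V) \ (D \ V)).card
            = (p⁻¹) ^ ((D \ V) ∩ (D' \ V)).card := by
          rw [hcard, pow_add, mul_assoc, ← mul_pow, inv_mul_cancel₀ hp0.ne', one_pow, mul_one]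
      rw [← h3]; ring
    calc ∑ D, ES p univ (fun W => κ D * (lam⁻¹ * (κ D' * (p⁻¹) ^ (D' \ V).card)) *
        (if D' \ V ⊆ W ∪ (D \ V) ∧ ¬ G' W (A ∪ D') then (1 : ℝ) else 0))
        ≤ ∑ D, (lam⁻¹ * κ D' * β) * (κ D * (if 0 ≤ ((D \ V) ∩ (D' \ V)).card then
          (p⁻¹) ^ ((D \ V) ∩ (D' \ V)).card else 0)) := Finset.sum_le_sum (fun D _ => e2 D)
      _ = (lam⁻¹ * κ D' * β) * ∑ D, (κ D * (if 0 ≤ ((D \ V) ∩ (D' \ V)).card then
          (p⁻¹) ^ ((D \ V) ∩ (D' \ V)).card else 0)) := by rw [Finset.mul_sum]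
      _ ≤ (lam⁻¹ * κ D' * β) * (2 ^ s * ε ^ 0) := by
          apply mul_le_mul_of_nonneg_left _
            (mul_nonneg (mul_nonneg (inv_pos.2 hlam).le (hκ D')) hβ)
          exact inner_bound hp0 hρ0 hε1 hρ κ hκ V hsp s 0 (D' \ V) (hs D' hD')
      _ = _ := by ring
  calc ∑ D', ES p univ (fun W => ∑ D, κ D * (lam⁻¹ * (κ D' * (p⁻¹) ^ (D' \ V).card)) *
      (if D' \ V ⊆ W ∪ (D \ V) ∧ ¬ G' W (A ∪ D') then (1 : ℝ) else 0))
      ≤ ∑ D', κ D' * (lam⁻¹ * (2 ^ s * β)) := Finset.sum_le_sum (fun D' _ => e1 D')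
    _ = (∑ D', κ D') * (lam⁻¹ * (2 ^ s * β)) := by rw [Finset.sum_mul]
    _ ≤ 1 * (lam⁻¹ * (2 ^ s * β)) := by
        apply mul_le_mul_of_nonneg_right hmass
        have := (inv_pos.2 hlam).le
        positivity
    _ = _ := one_mul _

open Classical in
/-- The resampled kernel. -/
noncomputable def newK (p lam : ℝ) (κ : Finset X → ℝ) (V : Finset X)
    (c : Finset X → Finset X → Prop) (W D' : Finset X) : ℝ :=
  ∑ D, κ D * (if lam ≤ Zf p κ V (W ∪ (D \ V)) then
    pw p κ V (W ∪ (D \ V)) D' / Zf p κ V (W ∪ (D \ V)) else 0) * (if c W D' then 1 else 0)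

open Classical in
/-- One round at one base. -/
theorem lvl_step {p ρ ε lam tau β m : ℝ} (hp0 : 0 < p) (hp1 : p ≤ 1) (hρ0 : 0 ≤ ρ)
    (hε1 : ε ≤ 1) (hε0 : 0 ≤ ε) (hρ : ρ ≤ p * ε) (hlam : 0 < lam) (htau : 0 < tau)
    (hβ : 0 ≤ β) {s s' : ℕ} {G : Finset X → Prop} {G' : Finset X → Finset X → Prop}
    {V A : Finset X}
    (hG : ∀ A', G A' → ES p univ (fun W => if G' W A' then (0 : ℝ) else 1) ≤ β)
    (hinv : ∀ W S A', S ⊆ A' → (G' (W ∪ S) A' ↔ G' W A'))
    (h : Lvl ρ s m G V A) :
    ES p univ (fun W => if Lvl ρ s' (m - tau) (G' W) (V ∪ W) A then (0 : ℝ) else 1)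
      ≤ (lam + lam⁻¹ * (2 ^ s * ε ^ (s' + 1)) + lam⁻¹ * (2 ^ s * β)) / tau := by
  obtain ⟨κ, hκ0, hκs, hκm, hκsp⟩ := h
  set c : Finset X → Finset X → Prop := fun W D' =>
    ((D' \ V) \ W).card ≤ s' ∧ G' W (A ∪ D') with hc
  have hq0 : 0 < p⁻¹ := inv_pos.2 hp0
  have hli : 0 ≤ lam⁻¹ := (inv_pos.2 hlam).le
  have hss : ∀ D, κ D ≠ 0 → (D \ V).card ≤ s := fun D hD => (hκs D hD).2.2
  set L1 : Finset X → ℝ := fun W => ∑ D, κ D *
    (if Zf p κ V (W ∪ (D \ V)) < lam then (1 : ℝ) else 0) with hL1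
  set L2 : Finset X → ℝ := fun W => ∑ D', ∑ D, κ D * (lam⁻¹ * (κ D' * (p⁻¹) ^ (D' \ V).card)) *
      (if D' \ V ⊆ W ∪ (D \ V) ∧ s' < ((D' \ V) \ W).card then (1 : ℝ) else 0) with hL2
  set L3 : Finset X → ℝ := fun W => ∑ D', ∑ D, κ D * (lam⁻¹ * (κ D' * (p⁻¹) ^ (D' \ V).card)) *
      (if D' \ V ⊆ W ∪ (D \ V) ∧ ¬ G' W (A ∪ D') then (1 : ℝ) else 0) with hL3
  have hterm : ∀ D D', 0 ≤ κ D * (lam⁻¹ * (κ D' * (p⁻¹) ^ (D' \ V).card)) := fun D D' =>
    mul_nonneg (hκ0 D) (mul_nonneg hli (mul_nonneg (hκ0 D') (pow_nonneg hq0.le _)))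
  have hL1n : ∀ W, 0 ≤ L1 W := by
    intro W
    apply Finset.sum_nonneg
    intro D _
    split_ifs
    · rw [mul_one]; exact hκ0 D
    · rw [mul_zero]
  have hL2n : ∀ W, 0 ≤ L2 W := by
    intro W
    apply Finset.sum_nonneg
    intro D' _
    apply Finset.sum_nonneg
    intro D _
    apply mul_nonneg (hterm D D')
    split_ifs <;> norm_num
  have hL3n : ∀ W, 0 ≤ L3 W := by
    intro W
    apply Finset.sum_nonneg
    intro D' _
    apply Finset.sum_nonneg
    intro D _
    apply mul_nonneg (hterm D D')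
    split_ifs <;> norm_num
  -- nonnegativity of the new kernel
  have hw0 : ∀ W D D', 0 ≤ (if lam ≤ Zf p κ V (W ∪ (D \ V)) then
      pw p κ V (W ∪ (D \ V)) D' / Zf p κ V (W ∪ (D \ V)) else 0) := by
    intro W D D'
    split_ifs with h1
    · exact div_nonneg (pw_nonneg hp0 hκ0 _ _ _) (hlam.le.trans h1)
    · exact le_refl _
  have hK0 : ∀ W D', 0 ≤ newK p lam κ V c W D' := by
    intro W D'
    unfold newK
    apply Finset.sum_nonneg
    intro D _
    apply mul_nonneg (mul_nonneg (hκ0 D) (hw0 W D D'))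
    split_ifs <;> norm_num
  -- total posterior mass
  have hpost : ∀ W D, ∑ D', (if lam ≤ Zf p κ V (W ∪ (D \ V)) then
      pw p κ V (W ∪ (D \ V)) D' / Zf p κ V (W ∪ (D \ V)) else 0) ≤ 1 := by
    intro W D
    by_cases h1 : lam ≤ Zf p κ V (W ∪ (D \ V))
    · simp only [h1, if_true]
      rw [← Finset.sum_div]
      change Zf p κ V (W ∪ (D \ V)) / Zf p κ V (W ∪ (D \ V)) ≤ 1
      rw [div_self (lt_of_lt_of_le hlam h1).ne']
    · simp only [h1, if_false, Finset.sum_const_zero]
      norm_num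
  -- spread of the new kernel
  have hsp' : ∀ W J, ∑ D', (if J ⊆ D' \ (V ∪ W) then newK p lam κ V c W D' else 0)
      ≤ ρ ^ J.card := by
    intro W J
    calc ∑ D', (if J ⊆ D' \ (V ∪ W) then newK p lam κ V c W D' else 0)
        ≤ ∑ D', ∑ D, (if J ⊆ D \ V then κ D else 0) *
          (if lam ≤ Zf p κ V (W ∪ (D \ V)) then
            pw p κ V (W ∪ (D \ V)) D' / Zf p κ V (W ∪ (D \ V)) else 0) := by
          apply Finset.sum_le_sum
          intro D' _
          split_ifs with h1
          · unfold newK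
            apply Finset.sum_le_sum
            intro D _
            by_cases h2 : D' \ V ⊆ W ∪ (D \ V)
            · have h3 : J ⊆ D \ V := by
                intro x hx
                have h4 := h1 hx
                rw [mem_sdiff, mem_union, not_or] at h4
                have h5 := h2 (mem_sdiff.2 ⟨h4.1, h4.2.1⟩)
                rw [mem_union] at h5
                rcases h5 with h6 | h6
                · exact absurd h6 h4.2.2
                · exact h6
              rw [if_pos h3]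
              calc _ ≤ κ D * (if lam ≤ Zf p κ V (W ∪ (D \ V)) then
                    pw p κ V (W ∪ (D \ V)) D' / Zf p κ V (W ∪ (D \ V)) else 0) * 1 := by
                    apply mul_le_mul_of_nonneg_left _ (mul_nonneg (hκ0 D) (hw0 W D D'))
                    split_ifs <;> norm_num
                _ = _ := mul_one _
            · have h3 : pw p κ V (W ∪ (D \ V)) D' = 0 := by
                unfold pw; rw [if_neg h2]
              rw [h3]
              simp
          · apply Finset.sum_nonneg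
            intro D _
            apply mul_nonneg _ (hw0 W D D')
            split_ifs
            · exact hκ0 D
            · exact le_refl _
      _ = ∑ D, (if J ⊆ D \ V then κ D else 0) * ∑ D',
          (if lam ≤ Zf p κ V (W ∪ (D \ V)) then
            pw p κ V (W ∪ (D \ V)) D' / Zf p κ V (W ∪ (D \ V)) else 0) := by
          rw [Finset.sum_comm]
          apply Finset.sum_congr rfl
          intro D _
          rw [Finset.mul_sum]
      _ ≤ ∑ D, (if J ⊆ D \ V then κ D else 0) := by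
          apply Finset.sum_le_sum
          intro D _
          have h1 : 0 ≤ (if J ⊆ D \ V then κ D else 0) := by
            split_ifs
            · exact hκ0 D
            · exact le_refl _
          calc _ ≤ (if J ⊆ D \ V then κ D else 0) * 1 :=
                mul_le_mul_of_nonneg_left (hpost W D) h1
            _ = _ := mul_one _
      _ ≤ ρ ^ J.card := hκsp J
  -- support of the new kernel
  have hsupp : ∀ W D', newK p lam κ V c W D' ≠ 0 →
      Disjoint D' A ∧ G' W (A ∪ D') ∧ (D' \ (V ∪ W)).card ≤ s' := by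
    intro W D' hne
    have h1 : c W D' := by
      by_contra h1
      apply hne
      unfold newK
      simp [h1]
    have h2 : κ D' ≠ 0 := by
      intro h2
      apply hne
      unfold newK
      apply Finset.sum_eq_zero
      intro D _
      have : pw p κ V (W ∪ (D \ V)) D' = 0 := by
        unfold pw; rw [h2]; simp
      rw [this]
      simp
    refine ⟨(hκs D' h2).1, h1.2, ?_⟩
    have h3 : D' \ (V ∪ W) = (D' \ V) \ W := by
      ext x
      simp only [mem_sdiff, mem_union, not_or]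
      tauto
    rw [h3]
    exact h1.1
  -- mass of the new kernel
  have hmass : ∀ W, ∑ D, κ D - ∑ D', newK p lam κ V c W D' ≤ L1 W + L2 W + L3 W := by
    intro W
    have e1 : ∑ D', newK p lam κ V c W D' = ∑ D, κ D * ∑ D',
        (if lam ≤ Zf p κ V (W ∪ (D \ V)) then
            pw p κ V (W ∪ (D \ V)) D' / Zf p κ V (W ∪ (D \ V)) else 0) *
          (if c W D' then 1 else 0) := by
      unfold newK
      rw [Finset.sum_comm]
      apply Finset.sum_congr rfl
      intro D _
      rw [Finset.mul_sum]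
      apply Finset.sum_congr rfl
      intro D' _
      ring
    have e2 : L1 W + L2 W + L3 W = ∑ D, (κ D *
        (if Zf p κ V (W ∪ (D \ V)) < lam then (1 : ℝ) else 0) +
        ∑ D', (κ D * (lam⁻¹ * (κ D' * (p⁻¹) ^ (D' \ V).card)) *
      (if D' \ V ⊆ W ∪ (D \ V) ∧ s' < ((D' \ V) \ W).card then (1 : ℝ) else 0) +
      κ D * (lam⁻¹ * (κ D' * (p⁻¹) ^ (D' \ V).card)) *
      (if D' \ V ⊆ W ∪ (D \ V) ∧ ¬ G' W (A ∪ D') then (1 : ℝ) else 0))) := by
      rw [hL1, hL2, hL3]
      dsimp only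
      rw [Finset.sum_comm (f := fun D' D => κ D * (lam⁻¹ * (κ D' * (p⁻¹) ^ (D' \ V).card)) *
        (if D' \ V ⊆ W ∪ (D \ V) ∧ s' < ((D' \ V) \ W).card then (1 : ℝ) else 0)),
        Finset.sum_comm (f := fun D' D => κ D * (lam⁻¹ * (κ D' * (p⁻¹) ^ (D' \ V).card)) *
        (if D' \ V ⊆ W ∪ (D \ V) ∧ ¬ G' W (A ∪ D') then (1 : ℝ) else 0))]
      rw [← Finset.sum_add_distrib, ← Finset.sum_add_distrib]
      apply Finset.sum_congr rfl
      intro D _
      rw [Finset.sum_add_distrib]
      ring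
    rw [e1, e2, ← Finset.sum_sub_distrib]
    apply Finset.sum_le_sum
    intro D _
    by_cases h1 : lam ≤ Zf p κ V (W ∪ (D \ V))
    · have hZ : 0 < Zf p κ V (W ∪ (D \ V)) := lt_of_lt_of_le hlam h1
      simp only [h1, if_true, not_lt.2 h1, if_false, mul_zero, zero_add]
      have e3 : κ D = κ D * ∑ D', pw p κ V (W ∪ (D \ V)) D' / Zf p κ V (W ∪ (D \ V)) := by
        rw [← Finset.sum_div]
        change κ D = κ D * (Zf p κ V (W ∪ (D \ V)) / Zf p κ V (W ∪ (D \ V)))
        rw [div_self hZ.ne', mul_one]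
      have e4 : κ D - κ D * ∑ D', pw p κ V (W ∪ (D \ V)) D' / Zf p κ V (W ∪ (D \ V)) *
          (if c W D' then 1 else 0)
          = ∑ D', κ D * (pw p κ V (W ∪ (D \ V)) D' / Zf p κ V (W ∪ (D \ V)) *
            (1 - if c W D' then 1 else 0)) := by
        nth_rewrite 1 [e3]
        rw [Finset.mul_sum, Finset.mul_sum, ← Finset.sum_sub_distrib]
        apply Finset.sum_congr rfl
        intro D' _
        ring
      rw [e4]
      apply Finset.sum_le_sum
      intro D' _
      by_cases h2 : D' \ V ⊆ W ∪ (D \ V)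
      · have h3 : pw p κ V (W ∪ (D \ V)) D' = κ D' * (p⁻¹) ^ (D' \ V).card := by
          unfold pw; rw [if_pos h2]
        have h4 : pw p κ V (W ∪ (D \ V)) D' / Zf p κ V (W ∪ (D \ V))
            ≤ lam⁻¹ * (κ D' * (p⁻¹) ^ (D' \ V).card) := by
          rw [h3, div_eq_mul_inv, mul_comm]
          apply mul_le_mul_of_nonneg_right _ (mul_nonneg (hκ0 D') (pow_nonneg hq0.le _))
          exact inv_anti₀ hlam h1
        have h5 : (1 - if c W D' then (1 : ℝ) else 0) ≤
            (if D' \ V ⊆ W ∪ (D \ V) ∧ s' < ((D' \ V) \ W).card then (1 : ℝ) else 0) +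
            (if D' \ V ⊆ W ∪ (D \ V) ∧ ¬ G' W (A ∪ D') then (1 : ℝ) else 0) := by
          by_cases h6 : c W D'
          · rw [if_pos h6]
            have a1 : (0 : ℝ) ≤ (if D' \ V ⊆ W ∪ (D \ V) ∧ s' < ((D' \ V) \ W).card
              then (1 : ℝ) else 0) := by split_ifs <;> norm_num
            have a2 : (0 : ℝ) ≤ (if D' \ V ⊆ W ∪ (D \ V) ∧ ¬ G' W (A ∪ D')
              then (1 : ℝ) else 0) := by split_ifs <;> norm_num
            linarith
          · rw [if_neg h6]
            simp only [hc, not_and_or, not_le] at h6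
            have a1 : (0 : ℝ) ≤ (if D' \ V ⊆ W ∪ (D \ V) ∧ s' < ((D' \ V) \ W).card
              then (1 : ℝ) else 0) := by split_ifs <;> norm_num
            have a2 : (0 : ℝ) ≤ (if D' \ V ⊆ W ∪ (D \ V) ∧ ¬ G' W (A ∪ D')
              then (1 : ℝ) else 0) := by split_ifs <;> norm_num
            rcases h6 with h6 | h6
            · rw [if_pos ⟨h2, h6⟩]; linarith
            · rw [if_pos (show D' \ V ⊆ W ∪ (D \ V) ∧ ¬ G' W (A ∪ D') from ⟨h2, h6⟩)]
              linarith
        have h7 : 0 ≤ (1 - if c W D' then (1 : ℝ) else 0) := by split_ifs <;> norm_num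
        calc κ D * (pw p κ V (W ∪ (D \ V)) D' / Zf p κ V (W ∪ (D \ V)) *
              (1 - if c W D' then 1 else 0))
            ≤ κ D * ((lam⁻¹ * (κ D' * (p⁻¹) ^ (D' \ V).card)) *
              ((if D' \ V ⊆ W ∪ (D \ V) ∧ s' < ((D' \ V) \ W).card then (1 : ℝ) else 0) +
            (if D' \ V ⊆ W ∪ (D \ V) ∧ ¬ G' W (A ∪ D') then (1 : ℝ) else 0))) := by
              apply mul_le_mul_of_nonneg_left _ (hκ0 D)
              apply mul_le_mul h4 h5 h7
              exact mul_nonneg hli (mul_nonneg (hκ0 D') (pow_nonneg hq0.le _))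
          _ = _ := by ring
      · have h3 : pw p κ V (W ∪ (D \ V)) D' = 0 := by
          unfold pw; rw [if_neg h2]
        rw [h3]
        simp only [zero_div, zero_mul, mul_zero]
        apply add_nonneg
        · apply mul_nonneg (hterm D D')
          split_ifs <;> norm_num
        · apply mul_nonneg (hterm D D')
          split_ifs <;> norm_num
    · rw [if_pos (not_le.1 h1)]
      simp only [h1, if_false, zero_mul, Finset.sum_const_zero, mul_zero, sub_zero, mul_one]
      have : 0 ≤ ∑ D', (κ D * (lam⁻¹ * (κ D' * (p⁻¹) ^ (D' \ V).card)) *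
        (if D' \ V ⊆ W ∪ (D \ V) ∧ s' < ((D' \ V) \ W).card then (1 : ℝ) else 0) +
        κ D * (lam⁻¹ * (κ D' * (p⁻¹) ^ (D' \ V).card)) *
        (if D' \ V ⊆ W ∪ (D \ V) ∧ ¬ G' W (A ∪ D') then (1 : ℝ) else 0)) := by
        apply Finset.sum_nonneg
        intro D' _
        apply add_nonneg
        · apply mul_nonneg (hterm D D')
          split_ifs <;> norm_num
        · apply mul_nonneg (hterm D D')
          split_ifs <;> norm_num
      linarith
  -- conclusion
  have hpt : ∀ W, (if Lvl ρ s' (m - tau) (G' W) (V ∪ W) A then (0 : ℝ) else 1)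
      ≤ (L1 W + L2 W + L3 W) * tau⁻¹ := by
    intro W
    have hs : 0 ≤ L1 W + L2 W + L3 W := by
      have := hL1n W
      have := hL2n W
      have := hL3n W
      linarith
    split_ifs with h1
    · exact mul_nonneg hs (inv_pos.2 htau).le
    · by_contra h2
      push Not at h2
      apply h1
      have h3 : L1 W + L2 W + L3 W < tau := by
        calc L1 W + L2 W + L3 W = (L1 W + L2 W + L3 W) * tau⁻¹ * tau := by
              rw [mul_assoc, inv_mul_cancel₀ htau.ne', mul_one]
          _ < 1 * tau := mul_lt_mul_of_pos_right h2 htau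
          _ = tau := one_mul _
      refine ⟨newK p lam κ V c W, hK0 W, hsupp W, ?_, hsp' W⟩
      have := hmass W
      linarith
  have hE : ES p univ (fun W => if Lvl ρ s' (m - tau) (G' W) (V ∪ W) A then (0 : ℝ) else 1)
      ≤ ES p univ (fun W => (L1 W + L2 W + L3 W) * tau⁻¹) :=
    ES_mono hp0.le hp1 _ (fun W _ => hpt W)
  refine hE.trans ?_
  have e5 : (fun W => (L1 W + L2 W + L3 W) * tau⁻¹) = fun W => tau⁻¹ * (L1 W + L2 W + L3 W) := by
    funext W; ring
  rw [e5, ES_mul, ES_add, ES_add, div_eq_inv_mul]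
  apply mul_le_mul_of_nonneg_left _ (inv_pos.2 htau).le
  have b1 := loss1 hp0 hp1 hlam κ V
  have b2 := loss2 hp0 hp1 hρ0 hε1 hε0 hρ hlam κ hκ0 V hκsp s s' hss
  have b3 := loss3 hp0 hp1 hρ0 hε1 hρ hlam hβ κ hκ0 V A hκsp s hss G'
    (fun D hD => hG (A ∪ D) (hκs D hD).2.1) hinv
  exact add_le_add (add_le_add b1 b2) b3

end Step

end Vale.Agent.P064.Multi
end
end

section

section

/-!
Trees of kernels: one round for the whole tree, then the iteration over the rounds.
-/

namespace Vale.Agent.P064.Multi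

open Finset

section Rounds

variable {X : Type*} [Fintype X] [DecidableEq X]

/-- The mass required from a kernel with missing parts of size `s`. -/
noncomputable def Mt (s : ℕ) : ℝ := 1 - (1 / 2 : ℝ) ^ (9 * (s + 1))

/-- `Good B ρ f h i V A`: at time `i`, with the set `V` exposed, the base `A` of level `h` has a
good kernel whose support consists of good bases of the level below (level `0`: of sets with the
property `B`). -/
def Good (B : Finset X → Prop) (ρ : ℝ) (f : ℕ → ℕ) : ℕ → ℕ → Finset X → Finset X → Prop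
  | 0, i, V, A => Lvl ρ (f 0 / 2 ^ i) (Mt (f 0 / 2 ^ i)) B V A
  | h + 1, i, V, A => Lvl ρ (f (h + 1) / 2 ^ i) (Mt (f (h + 1) / 2 ^ i))
      (fun A' => Good B ρ f h i V A') V A

theorem Good.congr {B : Finset X → Prop} {ρ : ℝ} {f : ℕ → ℕ} : ∀ (h : ℕ) {i : ℕ}
    {V V2 A : Finset X}, Good B ρ f h i V A → V \ A = V2 \ A → Good B ρ f h i V2 A := by
  intro h
  induction h with
  | zero =>
    intro i V V2 A hg hV
    exact Lvl.congr (G2 := B) hg hV (fun D hD => hD)
  | succ h ih =>
    intro i V V2 A hg hV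
    refine Lvl.congr (G2 := fun A' => Good B ρ f h i V2 A') hg hV (fun D hD => ih hD ?_)
    ext x
    simp only [mem_sdiff, mem_union, not_or]
    constructor
    · rintro ⟨a, b, c⟩
      have : x ∈ V \ A := mem_sdiff.2 ⟨a, b⟩
      rw [hV] at this
      exact ⟨(mem_sdiff.1 this).1, b, c⟩
    · rintro ⟨a, b, c⟩
      have : x ∈ V2 \ A := mem_sdiff.2 ⟨a, b⟩
      rw [← hV] at this
      exact ⟨(mem_sdiff.1 this).1, b, c⟩

theorem Good.inv {B : Finset X → Prop} {ρ : ℝ} {f : ℕ → ℕ} (h i : ℕ) (V W S A : Finset X)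
    (hS : S ⊆ A) : Good B ρ f h i (V ∪ (W ∪ S)) A ↔ Good B ρ f h i (V ∪ W) A := by
  have e : (V ∪ (W ∪ S)) \ A = (V ∪ W) \ A := by
    ext x
    simp only [mem_sdiff, mem_union]
    constructor
    · rintro ⟨a, b⟩
      rcases a with a | a | a
      · exact ⟨Or.inl a, b⟩
      · exact ⟨Or.inr a, b⟩
      · exact absurd (hS a) b
    · rintro ⟨a, b⟩
      rcases a with a | a
      · exact ⟨Or.inl a, b⟩
      · exact ⟨Or.inr (Or.inl a), b⟩
  exact ⟨fun hg => hg.congr h e, fun hg => hg.congr h e.symm⟩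

/-- The failure probability of one round. -/
noncomputable def bf (s : ℕ) : ℝ := (1 / 2 : ℝ) ^ (8 * s + 7)

theorem bf_anti {s t : ℕ} (h : s ≤ t) : bf t ≤ bf s := by
  unfold bf
  apply pow_le_pow_of_le_one (by norm_num) (by norm_num)
  omega

theorem bf_nonneg (s : ℕ) : 0 ≤ bf s := by unfold bf; positivity

theorem two_half (a b : ℕ) : (2 : ℝ) ^ a * (1 / 2 : ℝ) ^ (a + b) = (1 / 2 : ℝ) ^ b := by
  rw [pow_add, ← mul_assoc, ← mul_pow]
  norm_num

theorem arith_step (s : ℕ) (hs : 1 ≤ s) (β : ℝ) (hβ : β ≤ bf (8 * s)) :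
    (2 ^ s * ((1 / 2 : ℝ) ^ (9 * (s + 1))) ^ 2 +
      (2 ^ s * ((1 / 2 : ℝ) ^ (9 * (s + 1))) ^ 2)⁻¹ *
        (2 ^ s * ((1 / 2 : ℝ) ^ 72) ^ (s / 2 + 1)) +
      (2 ^ s * ((1 / 2 : ℝ) ^ (9 * (s + 1))) ^ 2)⁻¹ * (2 ^ s * β)) /
      ((1 / 2 : ℝ) ^ (9 * (s + 1))) ≤ bf s := by
  set x : ℝ := (1 / 2 : ℝ) ^ (9 * (s + 1)) with hx
  have hx0 : 0 < x := by positivity
  have h2 : (0 : ℝ) < 2 ^ s := by positivity
  have e1 : ((1 / 2 : ℝ) ^ 72) ^ (s / 2 + 1) ≤ x ^ 4 := by
    rw [hx, ← pow_mul, ← pow_mul]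
    apply pow_le_pow_of_le_one (by norm_num) (by norm_num)
    omega
  have e2 : β ≤ 2 * 2 ^ s * x ^ 4 := by
    refine hβ.trans ?_
    unfold bf
    have : (2 : ℝ) * 2 ^ s * x ^ 4 = (1 / 2 : ℝ) ^ (35 * s + 35) := by
      rw [hx, ← pow_mul]
      have h3 : (2 : ℝ) * 2 ^ s = 2 ^ (s + 1) := by rw [pow_succ]; ring
      have h4 : 9 * (s + 1) * 4 = (s + 1) + (35 * s + 35) := by ring
      rw [h3, h4, two_half]
    rw [this]
    apply pow_le_pow_of_le_one (by norm_num) (by norm_num)
    omega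
  have e3 : bf s = 4 * 2 ^ s * x := by
    unfold bf
    rw [hx]
    have h3 : (4 : ℝ) * 2 ^ s = 2 ^ (s + 2) := by rw [pow_add]; ring
    have h4 : 9 * (s + 1) = (s + 2) + (8 * s + 7) := by ring
    rw [h3, h4, two_half]
  rw [div_le_iff₀ hx0, e3]
  have hpos : 0 < 2 ^ s * x ^ 2 := by positivity
  have e4 : (2 ^ s * x ^ 2)⁻¹ * (2 ^ s * ((1 / 2 : ℝ) ^ 72) ^ (s / 2 + 1)) ≤ x ^ 2 := by
    calc (2 ^ s * x ^ 2)⁻¹ * (2 ^ s * ((1 / 2 : ℝ) ^ 72) ^ (s / 2 + 1))
        ≤ (2 ^ s * x ^ 2)⁻¹ * (2 ^ s * x ^ 4) := by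
          apply mul_le_mul_of_nonneg_left _ (inv_pos.2 hpos).le
          exact mul_le_mul_of_nonneg_left e1 h2.le
      _ = x ^ 2 := by field_simp
  have e5 : (2 ^ s * x ^ 2)⁻¹ * (2 ^ s * β) ≤ 2 * 2 ^ s * x ^ 2 := by
    calc (2 ^ s * x ^ 2)⁻¹ * (2 ^ s * β)
        ≤ (2 ^ s * x ^ 2)⁻¹ * (2 ^ s * (2 * 2 ^ s * x ^ 4)) := by
          apply mul_le_mul_of_nonneg_left _ (inv_pos.2 hpos).le
          exact mul_le_mul_of_nonneg_left e2 h2.le
      _ = 2 * 2 ^ s * x ^ 2 := by field_simp
  have e6 : x ^ 2 ≤ 2 ^ s * x ^ 2 := by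
    have : (1 : ℝ) ≤ 2 ^ s := one_le_pow₀ (by norm_num)
    nlinarith [sq_nonneg x]
  calc 2 ^ s * x ^ 2 + (2 ^ s * x ^ 2)⁻¹ * (2 ^ s * ((1 / 2 : ℝ) ^ 72) ^ (s / 2 + 1)) +
      (2 ^ s * x ^ 2)⁻¹ * (2 ^ s * β)
      ≤ 2 ^ s * x ^ 2 + 2 ^ s * x ^ 2 + 2 * 2 ^ s * x ^ 2 :=
        add_le_add (add_le_add le_rfl (e4.trans e6)) e5
    _ = 4 * 2 ^ s * x * x := by ring

theorem Mt_step (s : ℕ) (hs : 1 ≤ s) :
    Mt (s / 2) ≤ Mt s - (1 / 2 : ℝ) ^ (9 * (s + 1)) := by
  unfold Mt
  have h1 : (1 / 2 : ℝ) ^ (9 * (s + 1)) + (1 / 2 : ℝ) ^ (9 * (s + 1)) ≤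
      (1 / 2 : ℝ) ^ (9 * (s / 2 + 1)) := by
    have h2 : (1 / 2 : ℝ) ^ (9 * (s + 1)) ≤ (1 / 2 : ℝ) ^ (9 * (s / 2 + 1) + 1) :=
      pow_le_pow_of_le_one (by norm_num) (by norm_num) (by omega)
    rw [pow_succ] at h2
    linarith
  linarith

open Classical in
/-- One round: a good base stays good (for the next time) with high probability. -/
theorem good_step {B : Finset X → Prop} {ρ p : ℝ} {f : ℕ → ℕ} (hp0 : 0 < p) (hp1 : p ≤ 1)
    (hρ0 : 0 ≤ ρ) (hρ : ρ ≤ p * (1 / 2 : ℝ) ^ 72) (i : ℕ) : ∀ h : ℕ, 1 ≤ f h / 2 ^ i →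
    (∀ j < h, 8 * f (j + 1) ≤ f j) → ∀ V A, Good B ρ f h i V A →
    ES p univ (fun W => if Good B ρ f h (i + 1) (V ∪ W) A then (0 : ℝ) else 1)
      ≤ bf (f h / 2 ^ i) := by
  have hε1 : (1 / 2 : ℝ) ^ 72 ≤ 1 := by norm_num
  have hε0 : (0 : ℝ) ≤ (1 / 2 : ℝ) ^ 72 := by positivity
  intro h
  induction h with
  | zero =>
    intro hs _ V A hg
    have hstep := lvl_step (p := p) (ρ := ρ) (ε := (1 / 2 : ℝ) ^ 72)
      (lam := 2 ^ (f 0 / 2 ^ i) * ((1 / 2 : ℝ) ^ (9 * (f 0 / 2 ^ i + 1))) ^ 2)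
      (tau := (1 / 2 : ℝ) ^ (9 * (f 0 / 2 ^ i + 1))) (β := 0) (m := Mt (f 0 / 2 ^ i))
      hp0 hp1 hρ0 hε1 hε0 hρ (by positivity) (by positivity) le_rfl
      (s := f 0 / 2 ^ i) (s' := f 0 / 2 ^ i / 2) (G := B) (G' := fun _ A' => B A')
      (V := V) (A := A) ?_ (fun W S A' _ => Iff.rfl) hg
    · refine le_trans (ES_mono hp0.le hp1 _ ?_) (hstep.trans
        (arith_step _ hs 0 (bf_nonneg _)))
      intro W _
      split_ifs with h1 h2 h2
      · exact le_rfl
      · norm_num
      · exfalso; apply h1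
        have h3 : f 0 / 2 ^ (i + 1) = f 0 / 2 ^ i / 2 := by
          rw [pow_succ, Nat.div_div_eq_div_mul]
        change Lvl ρ (f 0 / 2 ^ (i + 1)) (Mt (f 0 / 2 ^ (i + 1))) B (V ∪ W) A
        rw [h3]
        exact h2.mono (Mt_step _ hs)
      · exact le_rfl
    · intro A' hA'
      have : (fun _ : Finset X => if B A' then (0 : ℝ) else 1) = fun _ => 0 := by
        funext W; rw [if_pos hA']
      rw [this, ES_const]
  | succ h ih =>
    intro hs hf V A hg
    have hfh : 8 * f (h + 1) ≤ f h := hf h (Nat.lt_succ_self h)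
    have hsz : 8 * (f (h + 1) / 2 ^ i) ≤ f h / 2 ^ i := by
      rw [Nat.le_div_iff_mul_le (by positivity)]
      calc 8 * (f (h + 1) / 2 ^ i) * 2 ^ i = 8 * (f (h + 1) / 2 ^ i * 2 ^ i) := by ring
        _ ≤ 8 * f (h + 1) := Nat.mul_le_mul_left _ (Nat.div_mul_le_self _ _)
        _ ≤ f h := hfh
    have hstep := lvl_step (p := p) (ρ := ρ) (ε := (1 / 2 : ℝ) ^ 72)
      (lam := 2 ^ (f (h + 1) / 2 ^ i) * ((1 / 2 : ℝ) ^ (9 * (f (h + 1) / 2 ^ i + 1))) ^ 2)
      (tau := (1 / 2 : ℝ) ^ (9 * (f (h + 1) / 2 ^ i + 1))) (β := bf (f h / 2 ^ i))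
      (m := Mt (f (h + 1) / 2 ^ i))
      hp0 hp1 hρ0 hε1 hε0 hρ (by positivity) (by positivity) (bf_nonneg _)
      (s := f (h + 1) / 2 ^ i) (s' := f (h + 1) / 2 ^ i / 2)
      (G := fun A' => Good B ρ f h i V A')
      (G' := fun W A' => Good B ρ f h (i + 1) (V ∪ W) A')
      (V := V) (A := A) ?_ (fun W S A' hS => Good.inv h (i + 1) V W S A' hS) hg
    · refine le_trans (ES_mono hp0.le hp1 _ ?_) (hstep.trans
        (arith_step _ hs _ (bf_anti hsz)))
      intro W _
      split_ifs with h1 h2 h2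
      · exact le_rfl
      · norm_num
      · exfalso; apply h1
        have h3 : f (h + 1) / 2 ^ (i + 1) = f (h + 1) / 2 ^ i / 2 := by
          rw [pow_succ, Nat.div_div_eq_div_mul]
        change Lvl ρ (f (h + 1) / 2 ^ (i + 1)) (Mt (f (h + 1) / 2 ^ (i + 1)))
          (fun A' => Good B ρ f h (i + 1) (V ∪ W) A') (V ∪ W) A
        rw [h3]
        exact h2.mono (Mt_step _ hs)
      · exact le_rfl
    · intro A' hA'
      exact ih (by omega) (fun j hj => hf j (by omega)) V A' hA'

open Classical in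
/-- The probability that, after `N` more rounds, the exposed set contains no set of `B`. -/
noncomputable def Fl (B : Finset X → Prop) (p : ℝ) : ℕ → Finset X → ℝ
  | 0, V => if ∃ D, B D ∧ D ⊆ V then 0 else 1
  | N + 1, V => ES p univ (fun W => Fl B p N (V ∪ W))

theorem Fl_le_one {B : Finset X → Prop} {p : ℝ} (hp0 : 0 ≤ p) (hp1 : p ≤ 1) :
    ∀ (N : ℕ) (V : Finset X), Fl B p N V ≤ 1 := by
  intro N
  induction N with
  | zero => intro V; simp only [Fl]; split_ifs <;> norm_num
  | succ N ih =>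
    intro V
    simp only [Fl]
    calc ES p univ (fun W => Fl B p N (V ∪ W)) ≤ ES p univ (fun _ => (1 : ℝ)) :=
          ES_mono hp0 hp1 _ (fun W _ => ih _)
      _ = 1 := ES_const _ _ _

theorem Fl_anti {B : Finset X → Prop} {p : ℝ} (hp0 : 0 ≤ p) (hp1 : p ≤ 1) :
    ∀ (N : ℕ) (V V' : Finset X), V ⊆ V' → Fl B p N V' ≤ Fl B p N V := by
  intro N
  induction N with
  | zero =>
    intro V V' h
    simp only [Fl]
    split_ifs with h1 h2 h2
    · exact le_rfl
    · norm_num
    · obtain ⟨D, hD, hs⟩ := h2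
      exact absurd ⟨D, hD, hs.trans h⟩ h1
    · exact le_rfl
  | succ N ih =>
    intro V V' h
    simp only [Fl]
    exact ES_mono hp0 hp1 _ (fun W _ => ih _ _ (union_subset_union h (Subset.refl _)))

theorem Fl_zero_of {B : Finset X → Prop} {p : ℝ} (hp0 : 0 ≤ p) (hp1 : p ≤ 1) (N : ℕ)
    (V : Finset X) (h : ∃ D, B D ∧ D ⊆ V) : Fl B p N V ≤ 0 := by
  induction N generalizing V with
  | zero => simp only [Fl]; rw [if_pos h]
  | succ N ih =>
    simp only [Fl]
    calc ES p univ (fun W => Fl B p N (V ∪ W)) ≤ ES p univ (fun _ => (0 : ℝ)) := by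
          apply ES_mono hp0 hp1
          intro W _
          apply ih
          obtain ⟨D, hD, hs⟩ := h
          exact ⟨D, hD, hs.trans subset_union_left⟩
      _ = 0 := ES_const _ _ _

theorem Mt_pos (s : ℕ) : 0 < Mt s := by
  unfold Mt
  have : (1 / 2 : ℝ) ^ (9 * (s + 1)) ≤ (1 / 2 : ℝ) ^ 9 :=
    pow_le_pow_of_le_one (by norm_num) (by norm_num) (by omega)
  have h2 : (1 / 2 : ℝ) ^ 9 < 1 := by norm_num
  linarith

theorem Lvl.exists_zero {ρ m : ℝ} {G : Finset X → Prop} {V A : Finset X}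
    (h : Lvl ρ 0 m G V A) (hm : 0 < m) (hA : A ⊆ V) : ∃ D, G (A ∪ D) ∧ A ∪ D ⊆ V := by
  obtain ⟨κ, h1, h2, h3, h4⟩ := h
  have : ∃ D ∈ (univ : Finset (Finset X)), κ D ≠ 0 := by
    apply Finset.exists_ne_zero_of_sum_ne_zero
    exact (lt_of_lt_of_le hm h3).ne'
  obtain ⟨D, _, hD⟩ := this
  obtain ⟨_, b, c⟩ := h2 D hD
  refine ⟨D, b, union_subset hA ?_⟩
  have : D \ V = ∅ := by
    rw [← Finset.card_eq_zero]; omega
  exact Finset.sdiff_eq_empty_iff_subset.1 this

/-- Pop the finished levels: either the exposed set contains a set of `B`, or there is a good base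
with missing parts of positive size. -/
theorem pop {B : Finset X → Prop} {ρ : ℝ} {f : ℕ → ℕ} (i : ℕ) (V : Finset X) : ∀ (h : ℕ)
    (A : Finset X), Good B ρ f h i V A → A ⊆ V →
    (∃ D, B D ∧ D ⊆ V) ∨ ∃ h' ≤ h, ∃ A', Good B ρ f h' i V A' ∧ A' ⊆ V ∧ 1 ≤ f h' / 2 ^ i := by
  intro h
  induction h with
  | zero =>
    intro A hg hA
    rcases Nat.eq_zero_or_pos (f 0 / 2 ^ i) with h0 | h0
    · left
      have hg2 : Lvl ρ (f 0 / 2 ^ i) (Mt (f 0 / 2 ^ i)) B V A := hg
      rw [h0] at hg2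
      obtain ⟨D, h1, h2⟩ := hg2.exists_zero (Mt_pos 0) hA
      exact ⟨A ∪ D, h1, h2⟩
    · right
      exact ⟨0, le_rfl, A, hg, hA, h0⟩
  | succ h ih =>
    intro A hg hA
    rcases Nat.eq_zero_or_pos (f (h + 1) / 2 ^ i) with h0 | h0
    · have hg2 : Lvl ρ (f (h + 1) / 2 ^ i) (Mt (f (h + 1) / 2 ^ i))
        (fun A' => Good B ρ f h i V A') V A := hg
      rw [h0] at hg2
      obtain ⟨D, h1, h2⟩ := hg2.exists_zero (Mt_pos 0) hA
      rcases ih (A ∪ D) h1 h2 with h3 | ⟨h', hle, rest⟩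
      · exact Or.inl h3
      · exact Or.inr ⟨h', by omega, rest⟩
    · right
      exact ⟨h + 1, le_rfl, A, hg, hA, h0⟩

theorem f_anti {f : ℕ → ℕ} {k : ℕ} (hf : ∀ j < k, 8 * f (j + 1) ≤ f j) :
    ∀ h ≤ k, f h ≤ f 0 := by
  intro h
  induction h with
  | zero => intro _; exact le_rfl
  | succ h ih =>
    intro hk
    have := ih (by omega)
    have := hf h (by omega)
    omega

/-- The iteration. -/
theorem Fl_bound {B : Finset X → Prop} {ρ p : ℝ} {f : ℕ → ℕ} (hp0 : 0 < p) (hp1 : p ≤ 1)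
    (hρ0 : 0 ≤ ρ) (hρ : ρ ≤ p * (1 / 2 : ℝ) ^ 72) (k : ℕ)
    (hf : ∀ j < k, 8 * f (j + 1) ≤ f j) : ∀ (N r i h : ℕ) (V A : Finset X), h ≤ k →
    f 0 / 2 ^ (i + r) = 0 → Good B ρ f h i V A → A ⊆ V →
    Fl B p N V ≤ 4 ^ r * (3 / 10 : ℝ) ^ N := by
  intro N
  induction N with
  | zero =>
    intro r i h V A _ _ _ _
    have h1 := Fl_le_one (B := B) hp0.le hp1 0 V
    have h2 : (1 : ℝ) ≤ 4 ^ r := one_le_pow₀ (by norm_num)
    simpa using h1.trans h2
  | succ N ih =>
    intro r i h V A hhk hr hg hA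
    rcases pop i V h A hg hA with h0 | ⟨h', hle, A', hg', hA', hs⟩
    · have := Fl_zero_of (B := B) hp0.le hp1 (N + 1) V h0
      have : (0 : ℝ) ≤ 4 ^ r * (3 / 10 : ℝ) ^ (N + 1) := by positivity
      linarith
    · have hr1 : 1 ≤ r := by
        by_contra hr0
        have : r = 0 := by omega
        subst this
        have h1 := f_anti hf h' (by omega)
        have h2 : f h' / 2 ^ i ≤ f 0 / 2 ^ i := Nat.div_le_div_right h1
        rw [Nat.add_zero] at hr
        omega
      obtain ⟨r', rfl⟩ : ∃ r', r = r' + 1 := ⟨r - 1, by omega⟩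
      have hstep := good_step hp0 hp1 hρ0 hρ i h' hs (fun j hj => hf j (by omega)) V A' hg'
      have hb : bf (f h' / 2 ^ i) ≤ 1 / 20 := by
        refine (bf_anti hs).trans ?_
        unfold bf
        norm_num
      classical
      set a : ℝ := 4 ^ r' * (3 / 10 : ℝ) ^ N with ha
      have ha0 : 0 ≤ a := by positivity
      have hpt : ∀ W, Fl B p N (V ∪ W) ≤
          a + (4 * a) * (if Good B ρ f h' (i + 1) (V ∪ W) A' then (0 : ℝ) else 1) := by
        intro W
        split_ifs with h1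
        · have := ih r' (i + 1) h' (V ∪ W) A' (by omega)
            (by rw [← hr]; congr 2; ring) h1 (hA'.trans subset_union_left)
          linarith
        · have h2 := ih (r' + 1) i h' V A' (by omega) hr hg' hA'
          have h3 := Fl_anti (B := B) hp0.le hp1 N V (V ∪ W) subset_union_left
          have h4 : (4 : ℝ) ^ (r' + 1) * (3 / 10 : ℝ) ^ N = 4 * a := by
            rw [ha, pow_succ]; ring
          rw [h4] at h2
          linarith
      calc Fl B p (N + 1) V = ES p univ (fun W => Fl B p N (V ∪ W)) := rfl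
        _ ≤ ES p univ (fun W => a + (4 * a) *
            (if Good B ρ f h' (i + 1) (V ∪ W) A' then (0 : ℝ) else 1)) :=
            ES_mono hp0.le hp1 _ (fun W _ => hpt W)
        _ = a + (4 * a) * ES p univ (fun W =>
            if Good B ρ f h' (i + 1) (V ∪ W) A' then (0 : ℝ) else 1) := by
            rw [ES_add, ES_const, ES_mul]
        _ ≤ a + (4 * a) * (1 / 20) := by
            have := mul_le_mul_of_nonneg_left (hstep.trans hb) (show 0 ≤ 4 * a by positivity)
            linarith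
        _ = 4 ^ (r' + 1) * (3 / 10 : ℝ) ^ (N + 1) := by
            rw [ha, pow_succ, pow_succ]; ring

theorem Fl_eq (B : Finset X → Prop) (p : ℝ) : ∀ (N : ℕ) (V : Finset X),
    Fl B p N V = ES (qs (fun _ => p) N) univ (fun W => Fl B p 0 (V ∪ W)) := by
  intro N
  induction N with
  | zero =>
    intro V
    have h0 : ∀ g : Finset X → ℝ, ES 0 univ g = g ∅ := by
      intro g
      have h1 := ES_union (0 : ℝ) 0 (univ : Finset X) g
      unfold ES
      rw [Finset.sum_eq_single ∅]
      · unfold wtS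
        simp
      · intro W _ hW
        obtain ⟨x, hx⟩ := Finset.nonempty_iff_ne_empty.2 hW
        have : wtS 0 (univ : Finset X) W = 0 := by
          unfold wtS
          exact Finset.prod_eq_zero (mem_univ x) (by rw [if_pos hx])
        rw [this, zero_mul]
      · intro h; exact absurd (mem_powerset.2 (empty_subset _)) h
    have h1 : qs (fun _ => p) 0 = 0 := rfl
    rw [h1, h0, Finset.union_empty]
  | succ N ih =>
    intro V
    have h1 : qs (fun _ => p) (N + 1) = p + qs (fun _ => p) N - p * qs (fun _ => p) N := rfl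
    rw [h1, ← ES_union]
    change ES p univ (fun W => Fl B p N (V ∪ W)) = _
    apply ES_congr
    intro W _
    rw [ih (V ∪ W)]
    apply ES_congr
    intro Z _
    rw [Finset.union_assoc]

open Classical in
/-- **Main iteration theorem.** If the empty base is good at time `0`, then a random set of
density `2 R p` contains a set of `B` with probability at least one half. -/
theorem good_main {B : Finset X → Prop} {ρ p P : ℝ} {f : ℕ → ℕ} (hp0 : 0 < p) (hp1 : p ≤ 1)
    (hρ0 : 0 ≤ ρ) (hρ : ρ ≤ p * (1 / 2 : ℝ) ^ 72) (k : ℕ)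
    (hf : ∀ j < k, 8 * f (j + 1) ≤ f j) (hg : Good B ρ f k 0 ∅ ∅)
    (hP : 2 * ((Nat.log 2 (f 0) + 1 : ℕ) : ℝ) * p ≤ P) (hP1 : P ≤ 1) :
    1 / 2 ≤ ES P univ (fun W => if ∃ D, B D ∧ D ⊆ W then (1 : ℝ) else 0) := by
  set R := Nat.log 2 (f 0) + 1 with hR
  have h0 : f 0 / 2 ^ (0 + R) = 0 := by
    rw [Nat.zero_add]
    apply Nat.div_eq_of_lt
    exact Nat.lt_pow_succ_log_self (by norm_num) _
  have h1 := Fl_bound hp0 hp1 hρ0 hρ k hf (2 * R) R 0 k ∅ ∅ le_rfl h0 hg (Subset.refl _)
  have h2 : (4 : ℝ) ^ R * (3 / 10 : ℝ) ^ (2 * R) ≤ 1 / 2 := by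
    rw [pow_mul, ← mul_pow]
    have : ((4 : ℝ) * (3 / 10) ^ 2) ^ R ≤ ((4 : ℝ) * (3 / 10) ^ 2) ^ 1 :=
      pow_le_pow_of_le_one (by norm_num) (by norm_num) (by omega)
    refine this.trans ?_
    norm_num
  have hq := qs_bounds (fun _ => p) (2 * R) (fun j _ => ⟨hp0.le, hp1⟩)
  obtain ⟨q0, q1, q2⟩ := hq
  rw [Finset.sum_const, Finset.card_range, nsmul_eq_mul] at q2
  have q3 : qs (fun _ => p) (2 * R) ≤ P := by
    refine q2.trans (le_trans (le_of_eq ?_) hP)
    push_cast
    ring
  rw [Fl_eq] at h1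
  have h3 : ES (qs (fun _ => p) (2 * R)) univ (fun W : Finset X => Fl B p 0 (∅ ∪ W)) =
      1 - ES (qs (fun _ => p) (2 * R)) univ
        (fun W => if ∃ D, B D ∧ D ⊆ W then (1 : ℝ) else 0) := by
    have e : (fun W : Finset X => Fl B p 0 (∅ ∪ W)) = fun W =>
        1 + (-1) * (if ∃ D, B D ∧ D ⊆ W then (1 : ℝ) else 0) := by
      funext W
      simp only [Fl, Finset.empty_union]
      split_ifs <;> norm_num
    rw [e, ES_add, ES_const, ES_mul]
    ring
  rw [h3] at h1
  have h4 : ES (qs (fun _ => p) (2 * R)) univ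
      (fun W : Finset X => if ∃ D, B D ∧ D ⊆ W then (1 : ℝ) else 0) ≤
      ES P univ (fun W => if ∃ D, B D ∧ D ⊆ W then (1 : ℝ) else 0) := by
    apply ES_mono_p q0 q3 hP1
    intro W Z
    split_ifs with a b b
    · exact le_rfl
    · obtain ⟨D, hD, hs⟩ := a
      exact absurd ⟨D, hD, hs.trans subset_union_left⟩ b
    · norm_num
    · exact le_rfl
  linarith

end Rounds

end Vale.Agent.P064.Multi
end
end

section

section

/-!
From the chain of subsets with spread kernels to the containment theorem.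
-/

namespace Vale.Agent.P064.Multi

open Finset
open scoped Pointwise

section FromChain

variable {X G : Type*} [Fintype X] [DecidableEq X] [Group G] [MulAction G X]

theorem good_init (F : ℕ → Finset X) (ρ : ℝ)
    (hker : ∀ h A, (∃ g : G, g • F (h + 1) = A) → ∃ κ : Finset X → ℝ, (∀ D, 0 ≤ κ D) ∧
      (∀ D, κ D ≠ 0 → Disjoint D A ∧ ∃ g : G, g • F h = A ∪ D) ∧ ∑ D, κ D = 1 ∧
      ∀ J : Finset X, ∑ D, (if J ⊆ D then κ D else 0) ≤ ρ ^ J.card) :
    ∀ h A, (∃ g : G, g • F (h + 1) = A) →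
      Good (fun D => ∃ g : G, g • F 0 = D) ρ (fun j => (F j).card) h 0 ∅ A := by
  have hM : ∀ s, Mt s ≤ 1 := by
    intro s
    unfold Mt
    have : (0 : ℝ) < (1 / 2 : ℝ) ^ (9 * (s + 1)) := by positivity
    linarith
  intro h
  induction h with
  | zero =>
    intro A hA
    obtain ⟨κ, h1, h2, h3, h4⟩ := hker 0 A hA
    refine ⟨κ, h1, ?_, ?_, ?_⟩
    · intro D hD
      obtain ⟨a, g, hg⟩ := h2 D hD
      refine ⟨a, ⟨g, hg⟩, ?_⟩
      rw [pow_zero, Nat.div_one, Finset.sdiff_empty]
      calc D.card ≤ (A ∪ D).card := card_le_card subset_union_right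
        _ = (F 0).card := by rw [← hg, Finset.card_smul_finset]
    · rw [h3]; exact hM _
    · intro J
      simpa using h4 J
  | succ h ih =>
    intro A hA
    obtain ⟨κ, h1, h2, h3, h4⟩ := hker (h + 1) A hA
    refine ⟨κ, h1, ?_, ?_, ?_⟩
    · intro D hD
      obtain ⟨a, g, hg⟩ := h2 D hD
      refine ⟨a, ih (A ∪ D) ⟨g, hg⟩, ?_⟩
      rw [pow_zero, Nat.div_one, Finset.sdiff_empty]
      calc D.card ≤ (A ∪ D).card := card_le_card subset_union_right
        _ = (F (h + 1)).card := by rw [← hg, Finset.card_smul_finset]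
    · rw [h3]; exact hM _
    · intro J
      simpa using h4 J

open Classical in
theorem from_chain (H : Finset X) (ρ P : ℝ) (hρ : 0 < ρ) (F : ℕ → Finset X) (hF0 : F 0 = H)
    (hF : ∀ h, 8 * (F (h + 1)).card ≤ (F h).card)
    (hker : ∀ h A, (∃ g : G, g • F (h + 1) = A) → ∃ κ : Finset X → ℝ, (∀ D, 0 ≤ κ D) ∧
      (∀ D, κ D ≠ 0 → Disjoint D A ∧ ∃ g : G, g • F h = A ∪ D) ∧ ∑ D, κ D = 1 ∧
      ∀ J : Finset X, ∑ D, (if J ⊆ D then κ D else 0) ≤ ρ ^ J.card)
    (hP : 2 * ((Nat.log 2 H.card + 1 : ℕ) : ℝ) * (2 ^ 72 * ρ) ≤ P) (hP1 : P ≤ 1) :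
    1 / 2 ≤ ES P univ (fun W => if ∃ g : G, g • H ⊆ W then (1 : ℝ) else 0) := by
  -- the chain reaches the empty set
  have hpow : ∀ h, 8 ^ h * (F h).card ≤ H.card := by
    intro h
    induction h with
    | zero => rw [hF0]; simp
    | succ h ih =>
      calc 8 ^ (h + 1) * (F (h + 1)).card = 8 ^ h * (8 * (F (h + 1)).card) := by ring
        _ ≤ 8 ^ h * (F h).card := Nat.mul_le_mul_left _ (hF h)
        _ ≤ H.card := ih
  have hk : F (H.card + 1) = ∅ := by
    rw [← Finset.card_eq_zero]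
    by_contra h0
    have h1 := hpow (H.card + 1)
    have h2 : H.card + 1 < 8 ^ (H.card + 1) := Nat.lt_pow_self (by norm_num)
    have h3 : 8 ^ (H.card + 1) * 1 ≤ 8 ^ (H.card + 1) * (F (H.card + 1)).card :=
      Nat.mul_le_mul_left _ (Nat.pos_of_ne_zero h0)
    omega
  have hg : Good (fun D => ∃ g : G, g • F 0 = D) ρ (fun j => (F j).card) H.card 0 ∅ ∅ := by
    apply good_init F ρ hker
    exact ⟨1, by rw [hk]; simp⟩
  have hR : (1 : ℝ) ≤ ((Nat.log 2 H.card + 1 : ℕ) : ℝ) := by
    push_cast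
    have : (0 : ℝ) ≤ (Nat.log 2 H.card : ℝ) := Nat.cast_nonneg _
    linarith
  have hp0 : 0 < 2 ^ 72 * ρ := by positivity
  have hp1 : 2 ^ 72 * ρ ≤ 1 := by
    have : 2 ^ 72 * ρ ≤ 2 * ((Nat.log 2 H.card + 1 : ℕ) : ℝ) * (2 ^ 72 * ρ) := by
      nlinarith
    linarith
  have hmain := good_main (B := fun D => ∃ g : G, g • F 0 = D) (ρ := ρ) (p := 2 ^ 72 * ρ) (P := P)
    (f := fun j => (F j).card) hp0 hp1 hρ.le
    (by rw [mul_comm (2 ^ 72 : ℝ) ρ, mul_assoc, ← mul_pow]; norm_num)
    H.card (fun j _ => hF j) hg (by simpa [hF0] using hP) hP1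
  refine hmain.trans (le_of_eq ?_)
  apply ES_congr
  intro W _
  have : (∃ D : Finset X, (∃ g : G, g • F 0 = D) ∧ D ⊆ W) ↔ ∃ g : G, g • H ⊆ W := by
    constructor
    · rintro ⟨D, ⟨g, rfl⟩, h⟩
      exact ⟨g, by rw [← hF0]; exact h⟩
    · rintro ⟨g, h⟩
      exact ⟨g • F 0, ⟨g, rfl⟩, by rw [hF0]; exact h⟩
  simp only [this]

end FromChain

end Vale.Agent.P064.Multi
end
end

section

section

set_option linter.unusedSectionVars false

namespace Vale.Agent.P064

open Finset
open scoped Pointwise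

section Chain

variable {X G : Type*} [Fintype X] [DecidableEq X] [Group G] [Fintype G] [MulAction G X]

/-- Number of group elements `g` such that `g • F` contains `U`. -/
noncomputable def cntG (G : Type*) [Group G] [Fintype G] [MulAction G X] (F U : Finset X) : ℕ :=
  (univ.filter fun g : G => U ⊆ g • F).card

theorem cntG_smul (F U : Finset X) (g : G) : cntG G F (g • U) = cntG G F U := by
  unfold cntG
  refine Finset.card_bij' (fun a _ => g⁻¹ * a) (fun a _ => g * a) ?_ ?_ ?_ ?_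
  · intro a ha
    simp only [mem_filter, mem_univ, true_and] at ha ⊢
    rw [mul_smul]
    rw [← Finset.smul_finset_subset_smul_finset_iff (a := g), smul_inv_smul]
    exact ha
  · intro a ha
    simp only [mem_filter, mem_univ, true_and] at ha ⊢
    rw [mul_smul]
    exact Finset.smul_finset_subset_smul_finset_iff.2 ha
  · intro a _
    simp
  · intro a _
    simp

theorem cntG_empty (F : Finset X) : cntG G F ∅ = Fintype.card G := by
  unfold cntG
  simp [Finset.card_univ]

theorem cntG_pos_of_subset {F U : Finset X} (h : U ⊆ F) : 0 < cntG G F U := by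
  unfold cntG
  rw [Finset.card_pos]
  exact ⟨1, by simpa using h⟩

/-- The number of `g` with `g⁻¹ • U = B` is at most the number of elements fixing `U`. -/
theorem card_transport_le (U B : Finset X) :
    (univ.filter fun g : G => g⁻¹ • U = B).card ≤ (univ.filter fun g : G => g • U = U).card := by
  by_cases h : ∃ g₀ : G, g₀⁻¹ • U = B
  · obtain ⟨g₀, hg₀⟩ := h
    refine Finset.card_le_card_of_injOn (fun g => g * g₀⁻¹) ?_ ?_
    · intro g hg
      simp only [coe_filter, mem_univ, true_and, Set.mem_ofPred_eq] at hg ⊢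
      rw [mul_smul, hg₀, ← hg, smul_inv_smul]
    · intro a _ b _ hab
      exact mul_right_cancel hab
  · push Not at h
    rw [Finset.filter_false_of_mem (fun g _ => h g)]
    simp

theorem cntG_le (F U : Finset X) (c : ℝ)
    (hc : ((univ.filter fun g : G => g • U = U).card : ℝ) ≤ c) :
    (cntG G F U : ℝ) ≤ (F.card.choose U.card : ℝ) * c := by
  have : DecidableEq G := Classical.decEq G
  have h1 : (univ.filter fun g : G => U ⊆ g • F)
      ⊆ (F.powersetCard U.card).biUnion fun B => univ.filter fun g : G => g⁻¹ • U = B := by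
    intro g hg
    simp only [mem_filter, mem_univ, true_and] at hg
    simp only [mem_biUnion, mem_powersetCard, mem_filter, mem_univ, true_and]
    refine ⟨g⁻¹ • U, ⟨?_, ?_⟩, rfl⟩
    · rw [← Finset.smul_finset_subset_smul_finset_iff (a := g), smul_inv_smul]
      exact hg
    · exact Finset.card_smul_finset _ _
  have h2 : cntG G F U ≤ ∑ B ∈ F.powersetCard U.card,
      (univ.filter fun g : G => g⁻¹ • U = B).card := by
    unfold cntG
    exact (Finset.card_le_card h1).trans Finset.card_biUnion_le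
  have h3 : ∑ B ∈ F.powersetCard U.card, (univ.filter fun g : G => g⁻¹ • U = B).card
      ≤ (F.card.choose U.card) * (univ.filter fun g : G => g • U = U).card := by
    calc _ ≤ ∑ B ∈ F.powersetCard U.card, (univ.filter fun g : G => g • U = U).card :=
          Finset.sum_le_sum fun B _ => card_transport_le U B
      _ = _ := by rw [Finset.sum_const, Finset.card_powersetCard, smul_eq_mul]
  calc (cntG G F U : ℝ) ≤ ((F.card.choose U.card) * (univ.filter fun g : G => g • U = U).card : ℕ) := by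
        exact_mod_cast h2.trans h3
    _ = (F.card.choose U.card : ℝ) * ((univ.filter fun g : G => g • U = U).card : ℝ) := by
        push_cast; ring
    _ ≤ _ := by
        apply mul_le_mul_of_nonneg_left hc
        positivity

theorem pow_self_le (u : ℕ) : (u : ℝ) ^ u ≤ 3 ^ u * (u.factorial : ℝ) := by
  have h := Real.pow_div_factorial_le_exp (u : ℝ) (by positivity) u
  have hf : (0 : ℝ) < (u.factorial : ℝ) := by exact_mod_cast Nat.factorial_pos u
  rw [div_le_iff₀ hf] at h
  refine h.trans ?_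
  apply mul_le_mul_of_nonneg_right _ hf.le
  have h3 : Real.exp 1 ≤ 3 := by
    have := Real.exp_one_lt_d9
    linarith
  calc Real.exp (u : ℝ) = Real.exp 1 ^ u := by rw [← Real.exp_nat_mul, mul_one]
    _ ≤ 3 ^ u := pow_le_pow_left₀ (Real.exp_pos 1).le h3 u

theorem size_bound {f u r : ℕ} (h : (3 * (r : ℝ)) ^ u ≤ (f.choose u : ℝ)) : r * u ≤ f := by
  rcases Nat.eq_zero_or_pos u with hu | hu
  · simp [hu]
  have hf : (0 : ℝ) < (u.factorial : ℝ) := by exact_mod_cast Nat.factorial_pos u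
  have h1 : (f.choose u : ℝ) ≤ (f : ℝ) ^ u / (u.factorial : ℝ) := Nat.choose_le_pow_div u f
  have h2 : (3 * (r : ℝ)) ^ u * (u.factorial : ℝ) ≤ (f : ℝ) ^ u := by
    have := h.trans h1
    rwa [le_div_iff₀ hf] at this
  have h3 := pow_self_le u
  have h4 : ((r : ℝ) * u) ^ u ≤ (f : ℝ) ^ u := by
    calc ((r : ℝ) * u) ^ u = (r : ℝ) ^ u * (u : ℝ) ^ u := by rw [mul_pow]
      _ ≤ (r : ℝ) ^ u * (3 ^ u * (u.factorial : ℝ)) := by
          apply mul_le_mul_of_nonneg_left h3
          positivity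
      _ = (3 * (r : ℝ)) ^ u * (u.factorial : ℝ) := by rw [mul_pow]; ring
      _ ≤ _ := h2
  have h5 : (r : ℝ) * u ≤ f := le_of_pow_le_pow_left₀ (by omega) (by positivity) h4
  exact_mod_cast h5

theorem chain_step (H : Finset X) (q : ℝ) (hq0 : 0 < q) (r : ℕ) (hr : 2 ≤ r)
    (hq : ∀ F ⊆ H, F.Nonempty →
      ((univ.filter fun g : G => g • F = F).card : ℝ) ≤ Fintype.card G * q ^ F.card)
    (F : Finset X) (hF : F ⊆ H) :
    ∃ U : Finset X, U ⊆ F ∧ r * U.card ≤ F.card ∧
      ∀ A : Finset X, (∃ g : G, g • U = A) → ∃ κ : Finset X → ℝ, (∀ D, 0 ≤ κ D) ∧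
        (∀ D, κ D ≠ 0 → Disjoint D A ∧ (∃ g : G, g • F = A ∪ D)) ∧ ∑ D, κ D = 1 ∧
        ∀ J : Finset X, ∑ D, (if J ⊆ D then κ D else 0) ≤ (3 * r * q) ^ J.card := by
  have : DecidableEq G := Classical.decEq G
  set L : ℝ := 3 * r * q with hL
  have hr0 : (0 : ℝ) < r := by
    have : 0 < r := by omega
    exact_mod_cast this
  have hLpos : 0 < L := by rw [hL]; positivity
  obtain ⟨U, hUmem, hUmax⟩ := Finset.exists_max_image F.powerset
    (fun U => (cntG G F U : ℝ) / L ^ U.card) ⟨∅, by simp⟩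
  rw [Finset.mem_powerset] at hUmem
  have hpos : ∀ n : ℕ, 0 < L ^ n := fun n => pow_pos hLpos n
  -- maximality for arbitrary sets
  have hmax : ∀ V : Finset X, (cntG G F V : ℝ) ≤ (cntG G F U : ℝ) / L ^ U.card * L ^ V.card := by
    intro V
    by_cases hV : ∃ g : G, V ⊆ g • F
    · obtain ⟨g, hg⟩ := hV
      have h1 : g⁻¹ • V ⊆ F := by
        rw [← Finset.smul_finset_subset_smul_finset_iff (a := g), smul_inv_smul]
        exact hg
      have h2 := hUmax (g⁻¹ • V) (Finset.mem_powerset.2 h1)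
      rw [cntG_smul, Finset.card_smul_finset, div_le_iff₀ (hpos _)] at h2
      exact h2
    · push Not at hV
      have : cntG G F V = 0 := by
        unfold cntG
        rw [Finset.card_eq_zero, Finset.filter_eq_empty_iff]
        exact fun g _ => hV g
      rw [this]
      push_cast
      have := hpos U.card
      have := hpos V.card
      positivity
  refine ⟨U, hUmem, ?_, ?_⟩
  · -- size
    rcases Finset.eq_empty_or_nonempty U with hUe | hUne
    · simp [hUe]
    apply size_bound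
    have h1 := hUmax ∅ (by simp)
    simp only [Finset.card_empty, pow_zero, div_one, cntG_empty] at h1
    rw [le_div_iff₀ (hpos _)] at h1
    have h2 := cntG_le (G := G) F U _ (hq U (hUmem.trans hF) hUne)
    have hG : (0 : ℝ) < Fintype.card G := by exact_mod_cast Fintype.card_pos
    have h3 : (Fintype.card G : ℝ) * ((3 * (r : ℝ)) ^ U.card * q ^ U.card)
        ≤ (Fintype.card G : ℝ) * ((F.card.choose U.card : ℝ) * q ^ U.card) := by
      calc (Fintype.card G : ℝ) * ((3 * (r : ℝ)) ^ U.card * q ^ U.card)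
          = Fintype.card G * L ^ U.card := by rw [hL, mul_pow (3 * (r:ℝ)) q]
        _ ≤ cntG G F U := h1
        _ ≤ (F.card.choose U.card : ℝ) * (Fintype.card G * q ^ U.card) := h2
        _ = _ := by ring
    have h4 := le_of_mul_le_mul_left h3 hG
    exact le_of_mul_le_mul_right h4 (pow_pos hq0 _)
  · rintro A ⟨g₀, hg₀⟩
    have hcA : cntG G F A = cntG G F U := by rw [← hg₀, cntG_smul]
    have hcApos : 0 < (cntG G F A : ℝ) := by
      rw [hcA]
      exact_mod_cast cntG_pos_of_subset hUmem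
    have hAcard : A.card = U.card := by rw [← hg₀, Finset.card_smul_finset]
    refine ⟨fun D => ((univ.filter fun g : G => A ⊆ g • F ∧ (g • F) \ A = D).card : ℝ)
      / cntG G F A, ?_, ?_, ?_, ?_⟩
    · intro D
      positivity
    · intro D hD
      have : (univ.filter fun g : G => A ⊆ g • F ∧ (g • F) \ A = D).Nonempty := by
        by_contra hne
        rw [Finset.not_nonempty_iff_eq_empty] at hne
        apply hD
        simp [hne]
      obtain ⟨g, hg⟩ := this
      simp only [mem_filter, mem_univ, true_and] at hg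
      obtain ⟨h1, h2⟩ := hg
      refine ⟨?_, g, ?_⟩
      · rw [← h2]
        exact Finset.sdiff_disjoint
      · rw [← h2]
        exact (Finset.union_sdiff_of_subset h1).symm
    · rw [← Finset.sum_div, div_eq_one_iff_eq hcApos.ne']
      unfold cntG
      rw [← Nat.cast_sum]
      congr 1
      rw [Finset.card_eq_sum_card_fiberwise (f := fun g : G => (g • F) \ A) (t := univ)
        (fun _ _ => Finset.mem_coe.2 (mem_univ _))]
      apply Finset.sum_congr rfl
      intro D _
      rw [Finset.filter_filter]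
    · intro J
      by_cases hJA : Disjoint J A
      · have hle : ∑ D : Finset X, (if J ⊆ D then
            ((univ.filter fun g : G => A ⊆ g • F ∧ (g • F) \ A = D).card : ℝ)
              / cntG G F A else 0) ≤ (cntG G F (A ∪ J) : ℝ) / cntG G F A := by
          rw [← Finset.sum_filter, ← Finset.sum_div]
          apply div_le_div_of_nonneg_right _ hcApos.le
          rw [← Nat.cast_sum]
          rw [Nat.cast_le]
          have hdisj : ∑ D ∈ univ.filter (fun D : Finset X => J ⊆ D),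
              (univ.filter fun g : G => A ⊆ g • F ∧ (g • F) \ A = D).card
              = ((univ.filter (fun D : Finset X => J ⊆ D)).biUnion fun D =>
                  univ.filter fun g : G => A ⊆ g • F ∧ (g • F) \ A = D).card := by
            rw [Finset.card_biUnion]
            intro D₁ _ D₂ _ hne
            rw [Function.onFun, Finset.disjoint_left]
            intro g hg1 hg2
            simp only [mem_filter, mem_univ, true_and] at hg1 hg2
            exact hne (hg1.2.symm.trans hg2.2)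
          rw [hdisj]
          unfold cntG
          apply Finset.card_le_card
          intro g hg
          simp only [mem_biUnion, mem_filter, mem_univ, true_and] at hg ⊢
          obtain ⟨D, hJD, hA, hD⟩ := hg
          apply Finset.union_subset hA
          rw [← hD] at hJD
          exact hJD.trans Finset.sdiff_subset
        refine hle.trans ?_
        rw [div_le_iff₀ hcApos]
        refine (hmax (A ∪ J)).trans ?_
        rw [Finset.card_union_of_disjoint hJA.symm, hcA, pow_add, hAcard]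
        have := hpos U.card
        apply le_of_eq
        field_simp
      · apply le_trans _ (pow_pos hLpos J.card).le
        apply le_of_eq
        apply Finset.sum_eq_zero
        intro D _
        split_ifs with hJD
        · show ((univ.filter fun g : G => A ⊆ g • F ∧ (g • F) \ A = D).card : ℝ)
              / cntG G F A = 0
          have : (univ.filter fun g : G => A ⊆ g • F ∧ (g • F) \ A = D) = ∅ := by
            rw [Finset.filter_eq_empty_iff]
            rintro g _ ⟨_, h2⟩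
            apply hJA
            rw [Finset.disjoint_left]
            intro x hxJ hxA
            have hxD := hJD hxJ
            rw [← h2, Finset.mem_sdiff] at hxD
            exact hxD.2 hxA
          rw [this]
          simp
        · rfl

/-- The chain of maximisers together with its conditionally spread kernels. -/
theorem chain_kernel (H : Finset X) (q : ℝ) (hq0 : 0 < q) (r : ℕ) (hr : 2 ≤ r)
    (hq : ∀ F ⊆ H, F.Nonempty →
      ((univ.filter fun g : G => g • F = F).card : ℝ) ≤ Fintype.card G * q ^ F.card) :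
    ∃ F : ℕ → Finset X, F 0 = H ∧ (∀ h, r * (F (h+1)).card ≤ (F h).card) ∧
      ∀ h (A : Finset X), (∃ g : G, g • F (h+1) = A) → ∃ κ : Finset X → ℝ, (∀ D, 0 ≤ κ D) ∧
        (∀ D, κ D ≠ 0 → Disjoint D A ∧ (∃ g : G, g • F h = A ∪ D)) ∧ ∑ D, κ D = 1 ∧
        ∀ J : Finset X, ∑ D, (if J ⊆ D then κ D else 0) ≤ (3 * r * q) ^ J.card := by
  choose! nxt hn1 hn2 hn3 using chain_step (G := G) H q hq0 r hr hq
  let F : ℕ → Finset X := fun n => Nat.rec H (fun _ F => nxt F) n
  have hF0 : F 0 = H := rfl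
  have hFs : ∀ n, F (n+1) = nxt (F n) := fun n => rfl
  have hsub : ∀ n, F n ⊆ H := by
    intro n
    induction n with
    | zero => exact subset_rfl
    | succ n ih => rw [hFs]; exact (hn1 _ ih).trans ih
  refine ⟨F, hF0, ?_, ?_⟩
  · intro h
    rw [hFs]
    exact hn2 _ (hsub h)
  · intro h A hA
    rw [hFs] at hA
    exact hn3 _ (hsub h) A hA

end Chain

end Vale.Agent.P064
end
end

section

section

namespace Vale.Agent.P064.Ctx

open Finset
open scoped Pointwise

/-- Probability of level `j` when the top level is `J`. -/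
noncomputable def lv (q : ℝ) (J j : ℕ) : ℝ :=
  if j < J then 2 ^ 47 * 128 ^ j * q else 1 - ∑ i ∈ range J, 2 ^ 47 * 128 ^ i * q

/-- All level assignments. -/
def Om (X : Type*) [Fintype X] [DecidableEq X] (J : ℕ) : Finset (X → ℕ) :=
  Fintype.piFinset (fun _ => range (J + 1))

/-- Weight of a level assignment. -/
noncomputable def wgt {X : Type*} [Fintype X] (q : ℝ) (J : ℕ) (φ : X → ℕ) : ℝ :=
  ∏ x, lv q J (φ x)

/-- Exponent used for the allowed size of an index. -/
def al (b j m : ℕ) : ℕ := (b + Nat.log 2 m) / 2 + j + 6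

/-- Slack of step `b`. -/
noncomputable def eps (lam : ℕ → ℝ) (J b : ℕ) : ℝ :=
  ∑ j ∈ range J, ∑ m ∈ Finset.Icc (1 : ℕ) (2 ^ (b + 2)), lam (2 ^ al b j m)

/-- Failure bound of step `b`. -/
noncomputable def fl (b : ℕ) : ℝ :=
  ∑ n ∈ Finset.Icc (1 : ℕ) (2 ^ (b + 2)), ((n : ℝ) / (16 * 2 ^ b)) ^ n

variable {X G : Type*} [Fintype X] [DecidableEq X] [Group G] [Fintype G] [MulAction G X]

/-- The event `E` for the index set `U`, subgroup `Γ` and budget `τ`. -/
def Ev {N : ℕ} (h : Fin N → X) (lam : ℕ → ℝ) (U : Finset (Fin N)) (Γ : Subgroup G) (τ : ℝ)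
    (φ : X → ℕ) (g : G) : Prop :=
  ∃ γ ∈ Γ, ∑ i ∈ Uᶜ, lam i * φ ((g * γ) • h i) ≤ τ

/-- Property (P2) of a context. -/
def P2 {N : ℕ} (h : Fin N → X) (q : ℝ) (b : ℕ) (U : Finset (Fin N)) (Γ : Subgroup G) : Prop :=
  ∀ Q : Finset (Fin N), Disjoint Q U →
    (Nat.card (Γ ⊓ MulAction.stabilizer G (Q.image h) : Subgroup G) : ℝ) ≤
      Nat.card Γ * q ^ Q.card * ∏ i ∈ Q, ((32 : ℝ) ^ Nat.size i / 32 ^ b)

end Vale.Agent.P064.Ctx
end
end

section

section

namespace Vale.Agent.P064.Ctx

open Finset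
open scoped Pointwise

namespace C2

variable {X G : Type*} [Fintype X] [DecidableEq X] [Group G] [Fintype G] [MulAction G X]

/-- weight of an index set at step `b` -/
noncomputable def wt {N : ℕ} (b : ℕ) (U : Finset (Fin N)) : ℝ :=
  ∏ i ∈ U, ((32 : ℝ) ^ b / 32 ^ Nat.size (i : ℕ))

/-- The functional maximised at step `b`. -/
noncomputable def Fn {N : ℕ} (h : Fin N → X) (q : ℝ) (b : ℕ) (Γ : Subgroup G)
    (U : Finset (Fin N)) : ℝ :=
  (Nat.card (Γ ⊓ MulAction.stabilizer G (U.image h) : Subgroup G) : ℝ) * (q ^ U.card)⁻¹ * wt b U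

theorem wt_pos {N : ℕ} (b : ℕ) (U : Finset (Fin N)) : 0 < wt b U :=
  prod_pos fun _ _ => by positivity

theorem wt_mono {N : ℕ} (b : ℕ) (U : Finset (Fin N)) : wt b U ≤ wt (b + 1) U := by
  refine prod_le_prod (fun _ _ => by positivity) fun i _ => ?_
  gcongr
  · norm_num
  · omega

theorem exists_next {N : ℕ} (h : Fin N → X) (q : ℝ) (b : ℕ) (Γ : Subgroup G)
    (U₀ : Finset (Fin N)) :
    ∃ U : Finset (Fin N), U₀ ⊆ U ∧ ∀ V, U₀ ⊆ V → Fn h q b Γ V ≤ Fn h q b Γ U := by
  obtain ⟨U, hU, hmax⟩ := exists_max_image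
    ((univ : Finset (Finset (Fin N))).filter fun V => U₀ ⊆ V) (Fn h q b Γ)
    ⟨U₀, by simp⟩
  refine ⟨U, (mem_filter.1 hU).2, fun V hV => hmax V (by simp [hV])⟩

/-- The chain, before the last step. -/
noncomputable def sq {N : ℕ} (h : Fin N → X) (q : ℝ) : ℕ → Finset (Fin N) × Subgroup G
  | 0 => (∅, ⊤)
  | b + 1 =>
    let s := sq h q b
    let U := (exists_next h q (b + 1) s.2 s.1).choose
    (U, s.2 ⊓ MulAction.stabilizer G (U.image h))

theorem sq_sub {N : ℕ} (h : Fin N → X) (q : ℝ) (b : ℕ) :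
    (sq (G := G) h q b).1 ⊆ (sq (G := G) h q (b + 1)).1 :=
  (exists_next h q (b + 1) (sq (G := G) h q b).2 (sq (G := G) h q b).1).choose_spec.1

theorem sq_max {N : ℕ} (h : Fin N → X) (q : ℝ) (b : ℕ) (V : Finset (Fin N))
    (hV : (sq (G := G) h q b).1 ⊆ V) :
    Fn h q (b + 1) (sq (G := G) h q b).2 V ≤
      Fn h q (b + 1) (sq (G := G) h q b).2 (sq (G := G) h q (b + 1)).1 :=
  (exists_next h q (b + 1) (sq (G := G) h q b).2 (sq (G := G) h q b).1).choose_spec.2 V hV

theorem sq_snd {N : ℕ} (h : Fin N → X) (q : ℝ) (b : ℕ) :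
    (sq (G := G) h q (b + 1)).2 =
      (sq (G := G) h q b).2 ⊓ MulAction.stabilizer G ((sq (G := G) h q (b + 1)).1.image h) := rfl

theorem sq_stab {N : ℕ} (h : Fin N → X) (q : ℝ) (b : ℕ) :
    (sq (G := G) h q b).2 ≤ MulAction.stabilizer G ((sq (G := G) h q b).1.image h) := by
  cases b with
  | zero =>
    intro g _
    rw [MulAction.mem_stabilizer_iff]
    simp [sq]
  | succ b => rw [sq_snd]; exact inf_le_right

theorem stab_inf {N : ℕ} (h : Fin N → X) (U Q : Finset (Fin N)) :
    MulAction.stabilizer G (U.image h) ⊓ MulAction.stabilizer G (Q.image h) ≤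
      MulAction.stabilizer G ((U ∪ Q).image h) := by
  intro g hg
  rw [Subgroup.mem_inf, MulAction.mem_stabilizer_iff, MulAction.mem_stabilizer_iff] at hg
  rw [MulAction.mem_stabilizer_iff, image_union, smul_finset_union, hg.1, hg.2]

theorem wt_union {N : ℕ} (b : ℕ) (U Q : Finset (Fin N)) (hd : Disjoint U Q) :
    wt b (U ∪ Q) = wt b U * wt b Q := prod_union hd

theorem card_mono' {A B : Subgroup G} (h : A ≤ B) : (Nat.card A : ℝ) ≤ Nat.card B := by
  have : Finite B := inferInstance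
  exact_mod_cast Nat.card_le_card_of_injective _ (Subgroup.inclusion_injective h)

theorem inv_wt {N : ℕ} (b : ℕ) (Q : Finset (Fin N)) :
    (wt b Q)⁻¹ = ∏ i ∈ Q, ((32 : ℝ) ^ Nat.size (i : ℕ) / 32 ^ b) := by
  rw [wt, ← prod_inv_distrib]
  exact prod_congr rfl fun i _ => inv_div _ _

theorem sq_P2 {N : ℕ} (h : Fin N → X) (q : ℝ) (hq : 0 < q)
    (star : ∀ Q : Finset (Fin N), (Nat.card (MulAction.stabilizer G (Q.image h)) : ℝ) ≤
      Nat.card G * q ^ Q.card) (b : ℕ) :
    P2 h q b (sq (G := G) h q b).1 (sq (G := G) h q b).2 := by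
  intro Q hQ
  cases b with
  | zero =>
    have h1 := star Q
    have h2 : (1 : ℝ) ≤ ∏ i ∈ Q, ((32 : ℝ) ^ Nat.size (i : ℕ) / 32 ^ 0) := by
      calc (1 : ℝ) = ∏ _i ∈ Q, (1 : ℝ) := by simp
        _ ≤ _ := prod_le_prod (fun _ _ => zero_le_one) fun i _ => by
          rw [pow_zero, div_one]
          exact one_le_pow₀ (by norm_num)
    have h3 : (0 : ℝ) ≤ Nat.card G * q ^ Q.card := by positivity
    have h4 : (Nat.card ((⊤ : Subgroup G)) : ℝ) = Nat.card G := by
      rw [Subgroup.card_top]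
    have h5 : ((sq (G := G) h q 0).2 : Subgroup G) = ⊤ := rfl
    rw [h5, h4, top_inf_eq]
    nlinarith [mul_le_mul_of_nonneg_left h2 h3]
  | succ b =>
    set U := (sq (G := G) h q (b + 1)).1 with hU
    set Γ := (sq (G := G) h q (b + 1)).2 with hΓ
    set Γ₀ := (sq (G := G) h q b).2 with hΓ₀
    have hsnd : Γ = Γ₀ ⊓ MulAction.stabilizer G (U.image h) := sq_snd h q b
    have hmax := sq_max (G := G) h q b (U ∪ Q) ((sq_sub h q b).trans subset_union_left)
    rw [Fn, Fn, ← hU, ← hΓ₀, ← hsnd, wt_union _ _ _ hQ.symm,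
      card_union_of_disjoint hQ.symm, pow_add, mul_inv] at hmax
    have hle : Γ ⊓ MulAction.stabilizer G (Q.image h) ≤
        Γ₀ ⊓ MulAction.stabilizer G ((U ∪ Q).image h) := by
      rw [hsnd]
      refine le_inf (inf_le_left.trans inf_le_left) ?_
      refine le_trans ?_ (stab_inf h U Q)
      exact le_inf (inf_le_left.trans inf_le_right) inf_le_right
    have hc := card_mono' hle
    have w1 := wt_pos (b + 1) U
    have w2 := wt_pos (b + 1) Q
    have q1 : 0 < q ^ U.card := by positivity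
    have q2 : 0 < q ^ Q.card := by positivity
    rw [← inv_wt]
    have key : (Nat.card (Γ ⊓ MulAction.stabilizer G (Q.image h) : Subgroup G) : ℝ) *
        ((q ^ U.card)⁻¹ * (q ^ Q.card)⁻¹) * (wt (b + 1) U * wt (b + 1) Q) ≤
        (Nat.card Γ : ℝ) * (q ^ U.card)⁻¹ * wt (b + 1) U := by
      refine le_trans ?_ hmax
      gcongr
    have e1 : (Nat.card (Γ ⊓ MulAction.stabilizer G (Q.image h) : Subgroup G) : ℝ) =
        ((Nat.card (Γ ⊓ MulAction.stabilizer G (Q.image h) : Subgroup G) : ℝ) *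
        ((q ^ U.card)⁻¹ * (q ^ Q.card)⁻¹) * (wt (b + 1) U * wt (b + 1) Q)) *
        (q ^ U.card * q ^ Q.card * (wt (b + 1) U)⁻¹ * (wt (b + 1) Q)⁻¹) := by
      field_simp
    have e2 : (Nat.card Γ : ℝ) * q ^ Q.card * (wt (b + 1) Q)⁻¹ =
        ((Nat.card Γ : ℝ) * (q ^ U.card)⁻¹ * wt (b + 1) U) *
        (q ^ U.card * q ^ Q.card * (wt (b + 1) U)⁻¹ * (wt (b + 1) Q)⁻¹) := by
      field_simp
    rw [e1, e2]
    exact mul_le_mul_of_nonneg_right key (by positivity)

theorem sq_ge {N : ℕ} (h : Fin N → X) (q : ℝ) (hq : 0 < q) (b : ℕ) :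
    (Nat.card G : ℝ) ≤ Nat.card (sq (G := G) h q b).2 *
      (q ^ (sq (G := G) h q b).1.card)⁻¹ * wt b (sq (G := G) h q b).1 := by
  induction b with
  | zero =>
    have h5 : ((sq (G := G) h q 0).2 : Subgroup G) = ⊤ := rfl
    have h6 : (sq (G := G) h q 0).1 = ∅ := rfl
    rw [h5, h6, Subgroup.card_top]
    simp [wt]
  | succ b ih =>
    have hmax := sq_max (G := G) h q b _ (Subset.refl _)
    rw [Fn, Fn, ← sq_snd, inf_eq_left.2 (sq_stab h q b)] at hmax
    refine ih.trans (le_trans ?_ hmax)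
    gcongr
    exact wt_mono _ _

theorem one_le_wt {N : ℕ} (h : Fin N → X) (q : ℝ) (hq : 0 < q)
    (star : ∀ Q : Finset (Fin N), (Nat.card (MulAction.stabilizer G (Q.image h)) : ℝ) ≤
      Nat.card G * q ^ Q.card) (b : ℕ) : 1 ≤ wt b (sq (G := G) h q b).1 := by
  have h1 := sq_ge (G := G) h q hq b
  have h2 := (card_mono' (sq_stab (G := G) h q b)).trans (star _)
  have h3 : (0 : ℝ) < Nat.card G := by exact_mod_cast Nat.card_pos
  have q1 : 0 < q ^ (sq (G := G) h q b).1.card := by positivity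
  have w1 := wt_pos b (sq (G := G) h q b).1
  have h4 : (Nat.card (sq (G := G) h q b).2 : ℝ) * (q ^ (sq (G := G) h q b).1.card)⁻¹ ≤
      Nat.card G := by
    rw [← div_eq_mul_inv, div_le_iff₀ q1]; exact h2
  have h5 : (Nat.card G : ℝ) ≤ Nat.card G * wt b (sq (G := G) h q b).1 :=
    h1.trans (mul_le_mul_of_nonneg_right h4 w1.le)
  by_contra hlt
  rw [not_le] at hlt
  nlinarith

theorem sum_size (b : ℕ) : ∑ i ∈ range (2 ^ b), (b - Nat.size i) = 2 ^ b - 1 := by
  induction b with
  | zero => simp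
  | succ b ih =>
    rw [pow_succ, mul_two, sum_range_add]
    have h1 : ∑ i ∈ range (2 ^ b), (b + 1 - Nat.size i) =
        ∑ i ∈ range (2 ^ b), (b - Nat.size i) + 2 ^ b := by
      have h0 : ∑ i ∈ range (2 ^ b), (b + 1 - Nat.size i) =
          ∑ i ∈ range (2 ^ b), ((b - Nat.size i) + 1) := by
        refine sum_congr rfl fun i hi => ?_
        have : Nat.size i ≤ b := Nat.size_le.2 (mem_range.1 hi)
        omega
      rw [h0, sum_add_distrib]
      simp
    have h2 : ∑ i ∈ range (2 ^ b), (b + 1 - Nat.size (2 ^ b + i)) = 0 := by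
      refine sum_eq_zero fun i _ => ?_
      have : b < Nat.size (2 ^ b + i) := Nat.lt_size.2 (by omega)
      omega
    rw [h1, h2, ih]
    have : 1 ≤ 2 ^ b := Nat.one_le_two_pow
    omega

theorem card_le_of_wt {N : ℕ} (b : ℕ) (U : Finset (Fin N)) (hw : 1 ≤ wt b U) :
    U.card ≤ 2 ^ (b + 1) := by
  have h1 : ∑ i ∈ U, Nat.size (i : ℕ) ≤ b * U.card := by
    rw [wt, prod_div_distrib, prod_const, ← pow_mul, prod_pow_eq_pow_sum,
      one_le_div (by positivity)] at hw
    exact (pow_le_pow_iff_right₀ (by norm_num : (1 : ℝ) < 32)).1 hw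
  set A := U.filter fun i : Fin N => Nat.size (i : ℕ) ≤ b with hA
  set B := U.filter fun i : Fin N => ¬ Nat.size (i : ℕ) ≤ b with hB
  have hcard : A.card + B.card = U.card := card_filter_add_card_filter_not _
  have hsum : ∑ i ∈ A, Nat.size (i : ℕ) + ∑ i ∈ B, Nat.size (i : ℕ) = ∑ i ∈ U, Nat.size (i : ℕ) :=
    sum_filter_add_sum_filter_not _ _ _
  have hBs : (b + 1) * B.card ≤ ∑ i ∈ B, Nat.size (i : ℕ) := by
    rw [mul_comm, ← smul_eq_mul]
    refine card_nsmul_le_sum _ _ _ fun i hi => ?_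
    have := (mem_filter.1 hi).2
    omega
  have hAs : ∑ i ∈ A, (b - Nat.size (i : ℕ)) + ∑ i ∈ A, Nat.size (i : ℕ) = b * A.card := by
    rw [← sum_add_distrib, mul_comm, ← smul_eq_mul, ← sum_const]
    refine sum_congr rfl fun i hi => ?_
    have := (mem_filter.1 hi).2
    omega
  have hsub : A.map Fin.valEmbedding ⊆ range (2 ^ b) := by
    intro i hi
    obtain ⟨j, hj, rfl⟩ := mem_map.1 hi
    exact mem_range.2 (Nat.size_le.1 (mem_filter.1 hj).2)
  have hA1 : A.card ≤ 2 ^ b := by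
    have := card_le_card hsub
    simpa using this
  have hA2 : ∑ i ∈ A, (b - Nat.size (i : ℕ)) ≤ 2 ^ b - 1 := by
    rw [← sum_size b]
    have : ∑ i ∈ A, (b - Nat.size (i : ℕ)) = ∑ i ∈ A.map Fin.valEmbedding, (b - Nat.size i) := by
      rw [sum_map]; rfl
    rw [this]
    exact sum_le_sum_of_subset hsub
  have hB1 : B.card ≤ 2 ^ b - 1 := by
    have e1 : b * U.card = b * A.card + b * B.card := by rw [← hcard]; ring
    have e2 : (b + 1) * B.card = b * B.card + B.card := by ring
    omega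
  rw [pow_succ]
  omega

end C2

variable {X G : Type*} [Fintype X] [DecidableEq X] [Group G] [Fintype G] [MulAction G X]

/-- M2 -/
theorem chain (N k : ℕ) (hk : N ≤ 2 ^ k) (h : Fin N → X) (hinj : Function.Injective h) (q : ℝ)
    (hq : 0 < q)
    (star : ∀ Q : Finset (Fin N), (Nat.card (MulAction.stabilizer G (Q.image h)) : ℝ) ≤
      Nat.card G * q ^ Q.card) :
    ∃ (U : ℕ → Finset (Fin N)) (Γ : ℕ → Subgroup G), U 0 = ∅ ∧ Γ 0 = ⊤ ∧ U (k + 1) = univ ∧
      ∀ b ≤ k, U b ⊆ U (b + 1) ∧ Γ (b + 1) ≤ Γ b ∧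
        Γ b ≤ MulAction.stabilizer G ((U b).image h) ∧
        Γ (b + 1) ≤ MulAction.stabilizer G ((U (b + 1)).image h) ∧
        (U (b + 1)).card ≤ 2 ^ (b + 2) ∧ P2 h q b (U b) (Γ b) := by
  classical
  refine ⟨fun b => if b ≤ k then (C2.sq (G := G) h q b).1 else univ,
    fun b => if b ≤ k then (C2.sq (G := G) h q b).2 else
      (C2.sq (G := G) h q k).2 ⊓ MulAction.stabilizer G ((univ : Finset (Fin N)).image h),
    ?_, ?_, ?_, ?_⟩
  · simp [C2.sq]
  · simp [C2.sq]
  · simp
  · intro b hb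
    by_cases hb' : b + 1 ≤ k
    · simp only [hb, hb', if_true]
      refine ⟨C2.sq_sub h q b, ?_, C2.sq_stab h q b, C2.sq_stab h q (b + 1), ?_,
        C2.sq_P2 h q hq star b⟩
      · rw [C2.sq_snd]; exact inf_le_left
      · exact C2.card_le_of_wt _ _ (C2.one_le_wt h q hq star (b + 1))
    · have hbk : b = k := by omega
      subst hbk
      simp only [le_refl, if_true, hb', if_false]
      refine ⟨subset_univ _, inf_le_left, C2.sq_stab h q b, inf_le_right, ?_,
        C2.sq_P2 h q hq star b⟩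
      rw [card_univ, Fintype.card_fin]
      exact hk.trans (Nat.pow_le_pow_right (by norm_num) (by omega))

end Vale.Agent.P064.Ctx
end
end

section

section

set_option linter.unusedSectionVars false

namespace Vale.Agent.P064.Ctx

open Finset
open scoped Pointwise

section Weights

variable {X : Type*} [Fintype X] [DecidableEq X]

theorem sum_lv (q : ℝ) (J : ℕ) : ∑ j ∈ range (J + 1), lv q J j = 1 := by
  rw [Finset.sum_range_succ]
  have h1 : ∑ j ∈ range J, lv q J j = ∑ i ∈ range J, 2 ^ 47 * 128 ^ i * q := by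
    apply Finset.sum_congr rfl
    intro j hj
    rw [mem_range] at hj
    simp [lv, hj]
  rw [h1]
  simp [lv]

theorem lv_nonneg {q : ℝ} (hq : 0 ≤ q) {J : ℕ} (hJ : ∑ i ∈ range J, 2 ^ 47 * 128 ^ i * q ≤ 1)
    (j : ℕ) : 0 ≤ lv q J j := by
  unfold lv
  split_ifs
  · positivity
  · linarith

theorem wgt_nonneg {q : ℝ} (hq : 0 ≤ q) {J : ℕ}
    (hJ : ∑ i ∈ range J, 2 ^ 47 * 128 ^ i * q ≤ 1) (φ : X → ℕ) : 0 ≤ wgt q J φ :=
  Finset.prod_nonneg (fun _ _ => lv_nonneg hq hJ _)

theorem sum_wgt (q : ℝ) (J : ℕ) : ∑ φ ∈ Om X J, wgt q J φ = 1 := by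
  unfold Om wgt
  rw [← Finset.prod_univ_sum (fun _ : X => range (J + 1)) (fun _ j => lv q J j)]
  simp [sum_lv]

theorem mem_Om {J : ℕ} {φ : X → ℕ} : φ ∈ Om X J ↔ ∀ x, φ x ≤ J := by
  unfold Om
  rw [Fintype.mem_piFinset]
  simp

/-- Normalised inverse weight. -/
noncomputable def wl (j : ℕ) : ℝ := 1 / (2 ^ 47 * 128 ^ j)

theorem wl_pos (j : ℕ) : 0 < wl j := by unfold wl; positivity

theorem lv_mul_wl {q : ℝ} {J j : ℕ} (hj : j < J) : lv q J j * wl j = q := by
  unfold lv wl
  rw [if_pos hj]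
  field_simp

/-- Places where `ψ` is below `φ`. -/
def dif (φ ψ : X → ℕ) : Finset X := univ.filter (fun x => ψ x < φ x)

theorem mem_dif {φ ψ : X → ℕ} {x : X} : x ∈ dif φ ψ ↔ ψ x < φ x := by
  simp [dif]

theorem inner_sum {q : ℝ} (hq : 0 < q) {J : ℕ}
    (hJ : ∑ i ∈ range J, 2 ^ 47 * 128 ^ i * q ≤ 1)
    (ψ : X → ℕ) (T : Finset X) (hT : ∀ x ∈ T, ψ x < J)
    (S : Finset (X → ℕ)) (hS : ∀ φ ∈ S, (∀ x, ψ x ≤ φ x) ∧ (∀ x, φ x ≤ J) ∧ dif φ ψ = T) :
    ∑ φ ∈ S, wgt q J φ ≤ wgt q J ψ * ∏ x ∈ T, (wl (ψ x) / q) := by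
  have hlv := lv_nonneg hq.le hJ
  have h2 : ∑ φ ∈ S, wgt q J φ ≤
      ∑ φ ∈ Fintype.piFinset (fun x => if x ∈ T then range (J + 1) else {ψ x}),
        wgt q J φ := by
    apply Finset.sum_le_sum_of_subset_of_nonneg
    · intro φ hφ
      obtain ⟨a, b, c⟩ := hS φ hφ
      rw [Fintype.mem_piFinset]
      intro x
      split_ifs with hx
      · rw [mem_range]; have := b x; omega
      · rw [mem_singleton]
        have : ¬ ψ x < φ x := by
          rw [← mem_dif, c]; exact hx
        have := a x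
        omega
    · intro φ _ _
      exact wgt_nonneg hq.le hJ φ
  have h3 : ∑ φ ∈ Fintype.piFinset (fun x => if x ∈ T then range (J + 1) else {ψ x}),
        wgt q J φ = ∏ x, (if x ∈ T then 1 else lv q J (ψ x)) := by
    unfold wgt
    rw [← Finset.prod_univ_sum (fun x => if x ∈ T then range (J + 1) else {ψ x})
      (fun _ j => lv q J j)]
    apply Finset.prod_congr rfl
    intro x _
    split_ifs
    · exact sum_lv q J
    · simp
  have h4 : ∏ x, (if x ∈ T then 1 else lv q J (ψ x))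
      = wgt q J ψ * ∏ x ∈ T, (wl (ψ x) / q) := by
    have h6 : ∏ x ∈ T, (wl (ψ x) / q) = ∏ x, (if x ∈ T then wl (ψ x) / q else 1) := by
      rw [Finset.prod_ite_mem]; simp
    unfold wgt
    rw [h6, ← Finset.prod_mul_distrib]
    apply Finset.prod_congr rfl
    intro x _
    split_ifs with hx
    · rw [← mul_div_assoc, lv_mul_wl (hT x hx), div_self hq.ne']
    · rw [mul_one]
  rw [← h4, ← h3]
  exact h2

end Weights

section Esymm

variable {ι : Type*} [DecidableEq ι]

theorem pow_succ_bound {A u : ℝ} (hA : 0 ≤ A) (hu : 0 ≤ u) (n : ℕ) :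
    A ^ (n + 1) + (n + 1) * u * A ^ n ≤ (A + u) ^ (n + 1) := by
  induction n with
  | zero => simp
  | succ n ih =>
    have h1 : (A + u) ^ (n + 2) = (A + u) ^ (n + 1) * (A + u) := pow_succ _ _
    have h2 : (A ^ (n + 1) + (n + 1) * u * A ^ n) * (A + u) ≤ (A + u) ^ (n + 1) * (A + u) :=
      mul_le_mul_of_nonneg_right ih (by positivity)
    have h3 : (A ^ (n + 1) + (n + 1) * u * A ^ n) * (A + u)
        = A ^ (n + 1 + 1) + ((n : ℝ) + 1 + 1) * u * A ^ (n + 1) + (n + 1) * u ^ 2 * A ^ n := by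
      ring
    have h4 : 0 ≤ ((n : ℝ) + 1) * u ^ 2 * A ^ n := by positivity
    push_cast
    linarith

theorem esymm_le (u : ι → ℝ) (hu : ∀ i, 0 ≤ u i) (s : Finset ι) : ∀ n : ℕ,
    ∑ Q ∈ s.powersetCard n, ∏ i ∈ Q, u i ≤ (∑ i ∈ s, u i) ^ n / (n.factorial : ℝ) := by
  induction s using Finset.induction_on with
  | empty =>
    intro n
    rcases n with _ | n
    · simp
    · rw [Finset.powersetCard_eq_empty.2 (by simp)]
      simp
  | insert a s ha ih =>
    intro n
    rcases n with _ | n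
    · simp
    · rw [Finset.powersetCard_succ_insert ha, Finset.sum_union, Finset.sum_image,
        Finset.sum_insert ha]
      · have h1 : ∑ Q ∈ s.powersetCard n, ∏ i ∈ insert a Q, u i
            = u a * ∑ Q ∈ s.powersetCard n, ∏ i ∈ Q, u i := by
          rw [Finset.mul_sum]
          apply Finset.sum_congr rfl
          intro Q hQ
          rw [Finset.prod_insert]
          intro h
          exact ha ((mem_powersetCard.1 hQ).1 h)
        rw [h1]
        have h2 := ih (n + 1)
        have h3 := mul_le_mul_of_nonneg_left (ih n) (hu a)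
        have hA : 0 ≤ ∑ i ∈ s, u i := Finset.sum_nonneg (fun i _ => hu i)
        have h4 := pow_succ_bound hA (hu a) n
        have hf : (0 : ℝ) < ((n + 1).factorial : ℝ) := by positivity
        have hf2 : (((n + 1).factorial : ℕ) : ℝ) = (n + 1) * (n.factorial : ℝ) := by
          rw [Nat.factorial_succ]; push_cast; ring
        have hfn : (0 : ℝ) < (n.factorial : ℝ) := by positivity
        have h5 : (∑ i ∈ s, u i) ^ (n + 1) / ((n + 1).factorial : ℝ)
            + u a * ((∑ i ∈ s, u i) ^ n / (n.factorial : ℝ))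
            = ((∑ i ∈ s, u i) ^ (n + 1) + (n + 1) * u a * (∑ i ∈ s, u i) ^ n)
              / ((n + 1).factorial : ℝ) := by
          rw [hf2]
          field_simp
        have h6 : ((∑ i ∈ s, u i) ^ (n + 1) + (n + 1) * u a * (∑ i ∈ s, u i) ^ n)
              / ((n + 1).factorial : ℝ)
            ≤ (u a + ∑ i ∈ s, u i) ^ (n + 1) / ((n + 1).factorial : ℝ) := by
          apply div_le_div_of_nonneg_right _ hf.le
          rw [add_comm (u a)]
          exact h4
        linarith
      · intro Q hQ R hR hQR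
        have hQa : a ∉ Q := fun h => ha ((mem_powersetCard.1 hQ).1 h)
        have hRa : a ∉ R := fun h => ha ((mem_powersetCard.1 hR).1 h)
        rw [← Finset.erase_insert hQa, ← Finset.erase_insert hRa, hQR]
      · rw [Finset.disjoint_left]
        intro Q hQ hQ'
        rw [mem_image] at hQ'
        obtain ⟨R, _, hR⟩ := hQ'
        have : a ∈ Q := by rw [← hR]; exact mem_insert_self a R
        exact ha ((mem_powersetCard.1 hQ).1 this)

end Esymm

section Numerics

theorem sum_size_le (f : ℕ → ℝ) (hf : ∀ a, 0 ≤ f a) (N A : ℕ) (hN : N ≤ 2 ^ A) :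
    ∑ i : Fin N, f (Nat.size i) ≤ ∑ a ∈ range (A + 1), 2 ^ a * f a := by
  have h1 : ∑ i : Fin N, f (Nat.size i) = ∑ i ∈ range N, f (Nat.size i) :=
    Fin.sum_univ_eq_sum_range (fun i => f (Nat.size i)) N
  rw [h1, ← Finset.sum_fiberwise_of_maps_to (s := range N) (t := range (A + 1))
    (g := fun i => Nat.size i)]
  · apply Finset.sum_le_sum
    intro a _
    have h2 : ∑ i ∈ (range N).filter (fun i => Nat.size i = a), f (Nat.size i)
        = ((range N).filter (fun i => Nat.size i = a)).card * f a := by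
      rw [Finset.sum_congr rfl (g := fun _ => f a), Finset.sum_const, nsmul_eq_mul]
      intro i hi
      rw [(mem_filter.1 hi).2]
    rw [h2]
    apply mul_le_mul_of_nonneg_right _ (hf a)
    have h3 : (range N).filter (fun i => Nat.size i = a) ⊆ range (2 ^ a) := by
      intro i hi
      rw [mem_filter] at hi
      rw [mem_range, ← hi.2]
      exact Nat.lt_size_self i
    have h4 := card_le_card h3
    rw [card_range] at h4
    exact_mod_cast h4
  · intro i hi
    rw [mem_range] at hi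
    rw [mem_range, Nat.lt_succ_iff, Nat.size_le]
    omega

/-- Bound for the weight of an index. -/
noncomputable def uu (b n i : ℕ) : ℝ :=
  (1 / 2 ^ 47) * (1 / 128) ^ (Nat.size i - ((b + Nat.log 2 n) / 2 + 6)) *
    (32 ^ Nat.size i / 32 ^ b)

theorem uu_nonneg (b n i : ℕ) : 0 ≤ uu b n i := by unfold uu; positivity

theorem geo1 (A : ℕ) : ∑ a ∈ range (A + 1), (64 : ℝ) ^ a ≤ 2 * 64 ^ A := by
  induction A with
  | zero => norm_num
  | succ A ih =>
    rw [Finset.sum_range_succ]
    have : (64 : ℝ) ^ (A + 1) = 64 * 64 ^ A := by rw [pow_succ]; ring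
    have h0 : (0 : ℝ) < 64 ^ A := by positivity
    linarith

theorem geo_term (β a : ℕ) : (2 : ℝ) ^ a * ((1 / 128) ^ (a - β) * 32 ^ a)
    = 64 ^ a * (1 / 128) ^ (a - β) := by
  have : (64 : ℝ) ^ a = 2 ^ a * 32 ^ a := by
    rw [← mul_pow]; norm_num
  rw [this]; ring

theorem geo2 (β t : ℕ) :
    ∑ a ∈ range (β + t + 1), (2 : ℝ) ^ a * ((1 / 128) ^ (a - β) * 32 ^ a) ≤
      3 * 64 ^ β - 64 ^ β * (1 / 2) ^ t := by
  induction t with
  | zero =>
    have h1 : ∑ a ∈ range (β + 0 + 1), (2 : ℝ) ^ a * ((1 / 128) ^ (a - β) * 32 ^ a)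
        = ∑ a ∈ range (β + 1), (64 : ℝ) ^ a := by
      rw [add_zero]
      apply Finset.sum_congr rfl
      intro a ha
      rw [mem_range] at ha
      rw [geo_term, Nat.sub_eq_zero_of_le (by omega), pow_zero, mul_one]
    rw [h1]
    have := geo1 β
    simp only [pow_zero, mul_one]
    linarith
  | succ t ih =>
    rw [← add_assoc, Finset.sum_range_succ, geo_term]
    have h1 : β + t + 1 - β = t + 1 := by omega
    have h2 : (64 : ℝ) ^ (β + t + 1) * (1 / 128) ^ (t + 1) = 64 ^ β * (1 / 2) ^ (t + 1) := by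
      have : (64 : ℝ) ^ (β + t + 1) = 64 ^ β * 64 ^ (t + 1) := by rw [← pow_add]; congr 1
      rw [this, mul_assoc, ← mul_pow]
      norm_num
    rw [h1, h2]
    have h3 : (64 : ℝ) ^ β * (1 / 2) ^ t = 2 * (64 ^ β * (1 / 2) ^ (t + 1)) := by
      rw [pow_succ]; ring
    linarith

theorem geo_le (β A : ℕ) :
    ∑ a ∈ range (A + 1), (2 : ℝ) ^ a * ((1 / 128) ^ (a - β) * 32 ^ a) ≤ 3 * 64 ^ β := by
  have hsub : range (A + 1) ⊆ range (β + A + 1) := by
    intro a ha
    rw [mem_range] at ha ⊢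
    omega
  refine (Finset.sum_le_sum_of_subset_of_nonneg hsub (fun a _ _ => by positivity)).trans ?_
  refine (geo2 β A).trans ?_
  have : (0 : ℝ) ≤ 64 ^ β * (1 / 2) ^ A := by positivity
  linarith

theorem sum_uu_le (b n N : ℕ) (hn : 1 ≤ n) :
    ∑ i : Fin N, uu b n i ≤ 3 * (n : ℝ) ^ 3 / (2 ^ 11 * 4 ^ b) := by
  obtain ⟨A, hA⟩ : ∃ A, N ≤ 2 ^ A := ⟨N, Nat.lt_two_pow_self.le⟩
  set β := (b + Nat.log 2 n) / 2 + 6 with hβ
  have h1 : ∑ i : Fin N, uu b n i ≤ ∑ a ∈ range (A + 1), 2 ^ a *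
      ((1 / 2 ^ 47) * (1 / 128) ^ (a - β) * (32 ^ a / 32 ^ b)) :=
    sum_size_le (fun a => (1 / 2 ^ 47) * (1 / 128) ^ (a - β) * (32 ^ a / 32 ^ b))
      (fun a => by positivity) N A hA
  have h2 : ∑ a ∈ range (A + 1), (2 : ℝ) ^ a *
      ((1 / 2 ^ 47) * (1 / 128) ^ (a - β) * (32 ^ a / 32 ^ b))
      = (1 / (2 ^ 47 * 32 ^ b)) *
        ∑ a ∈ range (A + 1), (2 : ℝ) ^ a * ((1 / 128) ^ (a - β) * 32 ^ a) := by
    rw [Finset.mul_sum]
    apply Finset.sum_congr rfl
    intro a _
    field_simp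
  have h3 := geo_le β A
  have h4 : (64 : ℝ) ^ β ≤ 2 ^ 36 * (8 ^ b * (n : ℝ) ^ 3) := by
    have e1 : (64 : ℝ) ^ β = 2 ^ 36 * 64 ^ ((b + Nat.log 2 n) / 2) := by
      rw [hβ, pow_add]; norm_num; ring
    have e2 : (64 : ℝ) ^ ((b + Nat.log 2 n) / 2) ≤ 8 ^ (b + Nat.log 2 n) := by
      have : (64 : ℝ) = 8 ^ 2 := by norm_num
      rw [this, ← pow_mul]
      exact pow_le_pow_right₀ (by norm_num) (by omega)
    have e3 : (8 : ℝ) ^ (Nat.log 2 n) ≤ (n : ℝ) ^ 3 := by
      have : (8 : ℝ) = 2 ^ 3 := by norm_num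
      rw [this, ← pow_mul, mul_comm, pow_mul]
      apply pow_le_pow_left₀ (by positivity)
      exact_mod_cast Nat.pow_log_le_self 2 (by omega)
    rw [e1]
    apply mul_le_mul_of_nonneg_left _ (by positivity)
    refine e2.trans ?_
    rw [pow_add]
    exact mul_le_mul_of_nonneg_left e3 (by positivity)
  calc ∑ i : Fin N, uu b n i ≤ (1 / (2 ^ 47 * 32 ^ b)) *
        ∑ a ∈ range (A + 1), (2 : ℝ) ^ a * ((1 / 128) ^ (a - β) * 32 ^ a) := h1.trans h2.le
    _ ≤ (1 / (2 ^ 47 * 32 ^ b)) * (3 * (2 ^ 36 * (8 ^ b * (n : ℝ) ^ 3))) := by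
        apply mul_le_mul_of_nonneg_left _ (by positivity)
        linarith
    _ = 3 * (n : ℝ) ^ 3 / (2 ^ 11 * 4 ^ b) := by
        have e : (32 : ℝ) ^ b = 8 ^ b * 4 ^ b := by rw [← mul_pow]; norm_num
        rw [e]
        field_simp

theorem fact_ge (n : ℕ) : (n : ℝ) ^ n ≤ 3 ^ n * (n.factorial : ℝ) := by
  have h1 : (n : ℝ) ^ n / (n.factorial : ℝ) ≤ Real.exp n :=
    Real.pow_div_factorial_le_exp (n : ℝ) (by positivity) n
  have h2 : Real.exp n ≤ 3 ^ n := by
    have : Real.exp n = Real.exp 1 ^ n := by rw [← Real.exp_nat_mul]; simp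
    rw [this]
    apply pow_le_pow_left₀ (Real.exp_pos _).le
    have := Real.exp_one_lt_d9
    linarith
  have hf : (0 : ℝ) < (n.factorial : ℝ) := by positivity
  rw [div_le_iff₀ hf] at h1
  exact h1.trans (mul_le_mul_of_nonneg_right h2 hf.le)

/-- The number of choices times the weight bound. -/
theorem term_le (b n N : ℕ) (hn : 1 ≤ n) :
    ((2 ^ (b + 2)).choose n : ℝ) * ((∑ i : Fin N, uu b n i) ^ n / (n.factorial : ℝ))
      ≤ ((n : ℝ) / (16 * 2 ^ b)) ^ n := by
  have hS := sum_uu_le b n N hn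
  have hS0 : 0 ≤ ∑ i : Fin N, uu b n i := Finset.sum_nonneg (fun i _ => uu_nonneg b n i)
  have hf : (0 : ℝ) < (n.factorial : ℝ) := by positivity
  have hn0 : (0 : ℝ) < (n : ℝ) := by exact_mod_cast hn
  have h1 : ((2 ^ (b + 2)).choose n : ℝ) ≤ (2 ^ (b + 2)) ^ n / (n.factorial : ℝ) := by
    have := Nat.choose_le_pow_div (α := ℝ) n (2 ^ (b + 2))
    push_cast at this
    exact this
  have h2 : (∑ i : Fin N, uu b n i) ^ n ≤ (3 * (n : ℝ) ^ 3 / (2 ^ 11 * 4 ^ b)) ^ n :=
    pow_le_pow_left₀ hS0 hS n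
  have h3 := fact_ge n
  have h4 : 1 / (n.factorial : ℝ) ≤ 3 ^ n / (n : ℝ) ^ n := by
    rw [div_le_div_iff₀ hf (by positivity)]
    linarith
  calc ((2 ^ (b + 2)).choose n : ℝ) * ((∑ i : Fin N, uu b n i) ^ n / (n.factorial : ℝ))
      ≤ ((2 ^ (b + 2)) ^ n / (n.factorial : ℝ)) *
        ((3 * (n : ℝ) ^ 3 / (2 ^ 11 * 4 ^ b)) ^ n / (n.factorial : ℝ)) := by
        apply mul_le_mul h1 _ (by positivity) (by positivity)
        exact div_le_div_of_nonneg_right h2 hf.le
    _ = (2 ^ (b + 2)) ^ n * (3 * (n : ℝ) ^ 3 / (2 ^ 11 * 4 ^ b)) ^ n *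
        ((1 / (n.factorial : ℝ)) * (1 / (n.factorial : ℝ))) := by ring
    _ ≤ (2 ^ (b + 2)) ^ n * (3 * (n : ℝ) ^ 3 / (2 ^ 11 * 4 ^ b)) ^ n *
        ((3 ^ n / (n : ℝ) ^ n) * (3 ^ n / (n : ℝ) ^ n)) := by
        apply mul_le_mul_of_nonneg_left _ (by positivity)
        exact mul_le_mul h4 h4 (by positivity) (by positivity)
    _ = (2 ^ (b + 2) * (3 * (n : ℝ) ^ 3 / (2 ^ 11 * 4 ^ b)) * ((3 / (n : ℝ)) * (3 / (n : ℝ)))) ^ n := by
        rw [mul_pow, mul_pow, mul_pow, div_pow 3 (n : ℝ)]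
    _ ≤ ((n : ℝ) / (16 * 2 ^ b)) ^ n := by
        apply pow_le_pow_left₀ (by positivity)
        have e : (4 : ℝ) ^ b = 2 ^ b * 2 ^ b := by rw [← mul_pow]; norm_num
        have e2 : (2 : ℝ) ^ (b + 2) = 4 * 2 ^ b := by rw [pow_add]; ring
        have hb : (0 : ℝ) < 2 ^ b := by positivity
        have h5 : 2 ^ (b + 2) * (3 * (n : ℝ) ^ 3 / (2 ^ 11 * 4 ^ b)) *
            ((3 / (n : ℝ)) * (3 / (n : ℝ))) = (108 / 2048) * ((n : ℝ) / 2 ^ b) := by
          rw [e, e2]
          field_simp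
          norm_num
        rw [h5]
        have h6 : (n : ℝ) / (16 * 2 ^ b) = (1 / 16) * ((n : ℝ) / 2 ^ b) := by
          field_simp
        rw [h6]
        apply mul_le_mul_of_nonneg_right (by norm_num) (by positivity)

end Numerics

end Vale.Agent.P064.Ctx
end
end

section

section

set_option linter.unusedSectionVars false

namespace Vale.Agent.P064.Ctx

open Finset
open scoped Pointwise

section Witness

variable {X G : Type*} [Fintype X] [DecidableEq X] [Group G] [Fintype G] [MulAction G X]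

/-- Number of changed places of level at most `j`. -/
def cnt (φ ψ : X → ℕ) (j : ℕ) : ℕ := ((dif φ ψ).filter (fun x => ψ x ≤ j)).card

/-- Penalty. -/
noncomputable def pen (lam : ℕ → ℝ) (J b : ℕ) (φ ψ : X → ℕ) : ℝ :=
  ∑ j ∈ range J, ∑ m ∈ Finset.Icc (1 : ℕ) (cnt φ ψ j), lam (2 ^ al b j m)

/-- Cost of a group element. -/
noncomputable def cst {N : ℕ} (h : Fin N → X) (lam : ℕ → ℝ) (U : Finset (Fin N)) (ψ : X → ℕ)
    (g : G) : ℝ := ∑ i ∈ Uᶜ, lam i * ψ (g • h i)

theorem exists_gh {N : ℕ} (h : Fin N → X) (lam : ℕ → ℝ) (U : Finset (Fin N))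
    (Γ : Subgroup G) :
    ∃ gh : (G ⧸ Γ) → (X → ℕ) → G, ∀ C ψ, (gh C ψ : G ⧸ Γ) = C ∧
      ∀ g' : G, (g' : G ⧸ Γ) = C → cst h lam U ψ (gh C ψ) ≤ cst h lam U ψ g' := by
  classical
  have key : ∀ (C : G ⧸ Γ) (ψ : X → ℕ), ∃ g0 : G, (g0 : G ⧸ Γ) = C ∧
      ∀ g' : G, (g' : G ⧸ Γ) = C → cst h lam U ψ g0 ≤ cst h lam U ψ g' := by
    intro C ψ
    obtain ⟨g0, hg0, hmin⟩ := Finset.exists_min_image
      (univ.filter (fun g' : G => (g' : G ⧸ Γ) = C)) (fun g' => cst h lam U ψ g')
      ⟨C.out, by simp⟩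
    rw [mem_filter] at hg0
    exact ⟨g0, hg0.2, fun g' hg' => hmin g' (mem_filter.2 ⟨mem_univ _, hg'⟩)⟩
  choose gh hgh using key
  exact ⟨gh, fun C ψ => hgh C ψ⟩

theorem pen_nonneg (lam : ℕ → ℝ) (h0 : ∀ i, 0 ≤ lam i) (J b : ℕ) (φ ψ : X → ℕ) :
    0 ≤ pen lam J b φ ψ :=
  Finset.sum_nonneg (fun _ _ => Finset.sum_nonneg (fun _ _ => h0 _))

theorem pen_le_eps (lam : ℕ → ℝ) (h0 : ∀ i, 0 ≤ lam i) (J b : ℕ) (φ ψ : X → ℕ)
    (hc : (dif φ ψ).card ≤ 2 ^ (b + 2)) : pen lam J b φ ψ ≤ eps lam J b := by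
  unfold pen eps
  apply Finset.sum_le_sum
  intro j _
  apply Finset.sum_le_sum_of_subset_of_nonneg
  · apply Finset.Icc_subset_Icc le_rfl
    exact (card_filter_le _ _).trans hc
  · intro _ _ _; exact h0 _

theorem pen_step (lam : ℕ → ℝ) (h0 : ∀ i, 0 ≤ lam i) (J b : ℕ) (φ ψ : X → ℕ) (x : X)
    (hx : x ∈ dif φ ψ) (hJ : ψ x < J) :
    pen lam J b φ (Function.update ψ x (ψ x + 1)) + lam (2 ^ al b (ψ x) (cnt φ ψ (ψ x)))
      ≤ pen lam J b φ ψ := by
  have hsub : ∀ j, (dif φ (Function.update ψ x (ψ x + 1))).filter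
      (fun y => Function.update ψ x (ψ x + 1) y ≤ j) ⊆ (dif φ ψ).filter (fun y => ψ y ≤ j) := by
    intro j y hy
    rw [mem_filter, mem_dif] at hy ⊢
    by_cases hyx : y = x
    · subst hyx
      simp only [Function.update_self] at hy
      exact ⟨by omega, by omega⟩
    · rw [Function.update_of_ne hyx] at hy
      exact hy
  have hle : ∀ j, cnt φ (Function.update ψ x (ψ x + 1)) j ≤ cnt φ ψ j := fun j =>
    card_le_card (hsub j)
  have hlt : cnt φ (Function.update ψ x (ψ x + 1)) (ψ x) + 1 ≤ cnt φ ψ (ψ x) := by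
    unfold cnt
    have h1 : (dif φ (Function.update ψ x (ψ x + 1))).filter
        (fun y => Function.update ψ x (ψ x + 1) y ≤ ψ x) ⊆
        ((dif φ ψ).filter (fun y => ψ y ≤ ψ x)).erase x := by
      intro y hy
      rw [mem_erase]
      refine ⟨?_, hsub _ hy⟩
      rintro rfl
      rw [mem_filter] at hy
      simp only [Function.update_self] at hy
      omega
    have h2 := card_le_card h1
    have hxm : x ∈ (dif φ ψ).filter (fun y => ψ y ≤ ψ x) := mem_filter.2 ⟨hx, le_rfl⟩
    rw [card_erase_of_mem hxm] at h2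
    have h3 : 0 < ((dif φ ψ).filter (fun y => ψ y ≤ ψ x)).card := card_pos.2 ⟨x, hxm⟩
    omega
  unfold pen
  have hmem : ψ x ∈ range J := mem_range.2 hJ
  rw [← Finset.add_sum_erase _ _ hmem, ← Finset.add_sum_erase (range J) _ hmem]
  have h1 : ∑ m ∈ Finset.Icc (1 : ℕ) (cnt φ (Function.update ψ x (ψ x + 1)) (ψ x)),
      lam (2 ^ al b (ψ x) m) + lam (2 ^ al b (ψ x) (cnt φ ψ (ψ x)))
      ≤ ∑ m ∈ Finset.Icc (1 : ℕ) (cnt φ ψ (ψ x)), lam (2 ^ al b (ψ x) m) := by
    have hc : cnt φ ψ (ψ x) ∉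
        Finset.Icc (1 : ℕ) (cnt φ (Function.update ψ x (ψ x + 1)) (ψ x)) := by
      rw [mem_Icc]; omega
    rw [add_comm, ← Finset.sum_insert hc (f := fun m => lam (2 ^ al b (ψ x) m))]
    apply Finset.sum_le_sum_of_subset_of_nonneg
    · intro m hm
      rw [mem_insert, mem_Icc] at hm
      rw [mem_Icc]
      omega
    · intro _ _ _; exact h0 _
  have h2 : ∑ j ∈ (range J).erase (ψ x),
      ∑ m ∈ Finset.Icc (1 : ℕ) (cnt φ (Function.update ψ x (ψ x + 1)) j), lam (2 ^ al b j m)
      ≤ ∑ j ∈ (range J).erase (ψ x),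
      ∑ m ∈ Finset.Icc (1 : ℕ) (cnt φ ψ j), lam (2 ^ al b j m) := by
    apply Finset.sum_le_sum
    intro j _
    apply Finset.sum_le_sum_of_subset_of_nonneg
    · exact Finset.Icc_subset_Icc le_rfl (hle j)
    · intro _ _ _; exact h0 _
  linarith

theorem cst_step {N : ℕ} (h : Fin N → X) (hinj : Function.Injective h) (lam : ℕ → ℝ)
    (h0 : ∀ i, 0 ≤ lam i) (hanti : Antitone lam) (U : Finset (Fin N)) (ψ : X → ℕ) (g : G) (x : X)
    (α : ℕ) (hα : ∀ i ∈ Uᶜ, g • h i = x → 2 ^ α ≤ (i : ℕ)) :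
    cst h lam U (Function.update ψ x (ψ x + 1)) g ≤ cst h lam U ψ g + lam (2 ^ α) := by
  have h1 : cst h lam U (Function.update ψ x (ψ x + 1)) g
      = cst h lam U ψ g + ∑ i ∈ Uᶜ, if g • h i = x then lam i else 0 := by
    unfold cst
    rw [← Finset.sum_add_distrib]
    apply Finset.sum_congr rfl
    intro i _
    by_cases hix : g • h i = x
    · rw [hix, if_pos rfl, Function.update_self]; push_cast; ring
    · rw [if_neg hix, Function.update_of_ne hix, add_zero]
  rw [h1, ← Finset.sum_filter]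
  have h2 : ∑ i ∈ Uᶜ.filter (fun i => g • h i = x), lam i ≤ lam (2 ^ α) := by
    rcases (Uᶜ.filter (fun i => g • h i = x)).eq_empty_or_nonempty with he | ⟨i0, hi0⟩
    · rw [he, sum_empty]; exact h0 _
    · have hs : Uᶜ.filter (fun i => g • h i = x) = {i0} := by
        apply Finset.eq_singleton_iff_unique_mem.2
        refine ⟨hi0, ?_⟩
        intro i hi
        rw [mem_filter] at hi hi0
        apply hinj
        apply MulAction.injective g
        show g • h i = g • h i0
        rw [hi.2, hi0.2]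
      rw [hs, sum_singleton]
      rw [mem_filter] at hi0
      exact hanti (hα i0 hi0.1 hi0.2)
  linarith

theorem witness {N : ℕ} (h : Fin N → X) (hinj : Function.Injective h)
    (J : ℕ) (lam : ℕ → ℝ) (h0 : ∀ i, 0 ≤ lam i)
    (hanti : Antitone lam) (b : ℕ) (U V : Finset (Fin N)) (Γ Δ : Subgroup G) (hUV : U ⊆ V)
    (hΔ : Δ ≤ Γ) (hU : Γ ≤ MulAction.stabilizer G (U.image h))
    (hV : Δ ≤ MulAction.stabilizer G (V.image h)) (hVc : V.card ≤ 2 ^ (b + 2)) (τ : ℝ)
    (gh : (G ⧸ Γ) → (X → ℕ) → G)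
    (hgh : ∀ C ψ, (gh C ψ : G ⧸ Γ) = C ∧
      ∀ g' : G, (g' : G ⧸ Γ) = C → cst h lam U ψ (gh C ψ) ≤ cst h lam U ψ g')
    (g : G) (φ : X → ℕ) (hφ : ∀ x, φ x ≤ J) (hE : Ev h lam V Δ τ φ g)
    (hnE : ¬ Ev h lam U Γ (τ + eps lam J b) φ g) :
    ∃ ψ ∈ Om X J, ∃ Q ∈ (V \ U).powerset, ∃ Q' ∈ Uᶜ.powerset, (Q'.card = Q.card ∧ 1 ≤ Q.card ∧
      g • Q.image h = gh g ψ • Q'.image h ∧
      ∀ i ∈ Q', ψ (gh g ψ • h i) < J ∧ Nat.size i ≤ al b (ψ (gh g ψ • h i)) Q.card) ∧
      (∀ x, ψ x ≤ φ x) ∧ dif φ ψ = gh g ψ • Q'.image h := by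
  classical
  -- admissible functions
  let Adm : (X → ℕ) → Prop := fun ψ => (∀ x, ψ x ≤ φ x) ∧ dif φ ψ ⊆ g • (V \ U).image h ∧
    ∃ γ ∈ Γ, cst h lam U ψ (g * γ) + pen lam J b φ ψ ≤ τ + eps lam J b
  -- the initial one
  have hadm0 : Adm (fun x => if x ∈ g • (V \ U).image h then 0 else φ x) := by
    have hdif : dif φ (fun x => if x ∈ g • (V \ U).image h then 0 else φ x) ⊆
        g • (V \ U).image h := by
      intro x hx
      rw [mem_dif] at hx
      by_contra hcon
      rw [if_neg hcon] at hx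
      exact lt_irrefl _ hx
    refine ⟨?_, hdif, ?_⟩
    · intro x
      dsimp only
      split_ifs <;> omega
    · obtain ⟨γ, hγ, hle⟩ := hE
      refine ⟨γ, hΔ hγ, ?_⟩
      apply add_le_add
      · refine le_trans ?_ hle
        unfold cst
        have hsplit : Uᶜ = Vᶜ ∪ (V \ U) := by
          ext i
          simp only [mem_compl, mem_union, mem_sdiff]
          constructor
          · intro hi
            by_cases hiV : i ∈ V
            · exact Or.inr ⟨hiV, hi⟩
            · exact Or.inl hiV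
          · rintro (hi | hi)
            · exact fun h' => hi (hUV h')
            · exact hi.2
        have hdisj : Disjoint (Vᶜ) (V \ U) := by
          rw [Finset.disjoint_left]
          intro i hi hi'
          rw [mem_compl] at hi
          rw [mem_sdiff] at hi'
          exact hi hi'.1
        rw [hsplit, Finset.sum_union hdisj]
        have hz : ∑ i ∈ V \ U, lam i * ((if (g * γ) • h i ∈ g • (V \ U).image h then 0
            else φ ((g * γ) • h i) : ℕ) : ℝ) = 0 := by
          apply Finset.sum_eq_zero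
          intro i hi
          rw [mem_sdiff] at hi
          have hm : (g * γ) • h i ∈ g • (V \ U).image h := by
            rw [mul_smul]
            apply Finset.smul_mem_smul_finset
            have hVm : γ • h i ∈ V.image h := by
              have h1 : γ • V.image h = V.image h := hV hγ
              rw [← h1]
              exact Finset.smul_mem_smul_finset (mem_image_of_mem h hi.1)
            have hUm : γ • h i ∉ U.image h := by
              intro hcon
              have h1 : γ • U.image h = U.image h := hU (hΔ hγ)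
              rw [← h1, Finset.smul_mem_smul_finset_iff, mem_image] at hcon
              obtain ⟨i', hi', hii⟩ := hcon
              rw [hinj hii] at hi'
              exact hi.2 hi'
            rw [mem_image] at hVm
            obtain ⟨i', hi', hii⟩ := hVm
            rw [mem_image]
            refine ⟨i', ?_, hii⟩
            rw [mem_sdiff]
            refine ⟨hi', ?_⟩
            intro hcon
            apply hUm
            rw [← hii]
            exact mem_image_of_mem h hcon
          rw [if_pos hm]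
          simp
        rw [hz, add_zero]
        apply Finset.sum_le_sum
        intro i _
        apply mul_le_mul_of_nonneg_left _ (h0 _)
        dsimp only
        split_ifs
        · simp
        · exact le_rfl
      · apply pen_le_eps lam h0
        refine (card_le_card hdif).trans ?_
        rw [Finset.card_smul_finset]
        refine card_image_le.trans ((card_le_card sdiff_subset).trans hVc)
  have hOm : ∀ ψ, (∀ x, ψ x ≤ φ x) → ψ ∈ Om X J := by
    intro ψ hψ
    rw [mem_Om]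
    exact fun x => (hψ x).trans (hφ x)
  -- a maximal one
  obtain ⟨ψ, hψm, hmax⟩ := Finset.exists_max_image ((Om X J).filter Adm)
    (fun ψ => ∑ x, ψ x) ⟨_, mem_filter.2 ⟨hOm _ hadm0.1, hadm0⟩⟩
  rw [mem_filter] at hψm
  obtain ⟨hψO, hψle, hψdif, γ, hγ, hcost⟩ := hψm
  set C : G ⧸ Γ := (g : G ⧸ Γ) with hC
  set gt : G := gh C ψ with hgt
  obtain ⟨hgC, hgmin⟩ := hgh C ψ
  have hgγ : ((g * γ : G) : G ⧸ Γ) = C := by
    rw [hC, QuotientGroup.eq]
    simpa using Γ.inv_mem hγ
  have hcost' : cst h lam U ψ gt + pen lam J b φ ψ ≤ τ + eps lam J b := by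
    have := hgmin (g * γ) hgγ
    linarith
  -- key structural claim
  have hkey : ∀ x ∈ dif φ ψ, ∃ i ∈ Uᶜ, gt • h i = x ∧
      Nat.size i ≤ al b (ψ x) (cnt φ ψ (ψ x)) := by
    intro x hx
    by_contra hcon
    push Not at hcon
    have hx' := mem_dif.1 hx
    have hxJ : ψ x < J := lt_of_lt_of_le hx' (hφ x)
    have h1 := cst_step h hinj lam h0 hanti U ψ gt x (al b (ψ x) (cnt φ ψ (ψ x)))
      (fun i hi hix => Nat.lt_size.1 (hcon i hi hix))
    have h2 := pen_step lam h0 J b φ ψ x hx hxJ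
    have hle' : ∀ y, Function.update ψ x (ψ x + 1) y ≤ φ y := by
      intro y
      by_cases hyx : y = x
      · subst hyx; rw [Function.update_self]; omega
      · rw [Function.update_of_ne hyx]; exact hψle y
    have hadm : Adm (Function.update ψ x (ψ x + 1)) := by
      refine ⟨hle', ?_, ?_⟩
      · refine Finset.Subset.trans ?_ hψdif
        intro y hy
        rw [mem_dif] at hy ⊢
        by_cases hyx : y = x
        · subst hyx; exact hx'
        · rw [Function.update_of_ne hyx] at hy; exact hy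
      · refine ⟨g⁻¹ * gt, ?_, ?_⟩
        · rw [← QuotientGroup.eq, ← hC]; exact hgC.symm
        · rw [mul_inv_cancel_left]
          linarith
    have h3 := hmax _ (mem_filter.2 ⟨hOm _ hle', hadm⟩)
    have h4 : ∑ y, Function.update ψ x (ψ x + 1) y = ∑ y, ψ y + 1 := by
      rw [Finset.sum_update_of_mem (mem_univ x)]
      rw [← Finset.add_sum_erase univ ψ (mem_univ x), Finset.sdiff_singleton_eq_erase]
      ring
    omega
  -- nonempty
  have hne : (dif φ ψ).Nonempty := by
    rw [Finset.nonempty_iff_ne_empty]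
    intro hempty
    have heq : ψ = φ := by
      funext x
      have h1 := hψle x
      have h2 : x ∉ dif φ ψ := by rw [hempty]; simp
      rw [mem_dif] at h2
      omega
    apply hnE
    refine ⟨γ, hγ, ?_⟩
    have h1 := pen_nonneg lam h0 J b φ ψ
    have h2 : cst h lam U ψ (g * γ) = ∑ i ∈ Uᶜ, lam i * φ ((g * γ) • h i) := by
      rw [heq]; rfl
    rw [← h2]
    linarith
  have hgtinj : Function.Injective (fun i : Fin N => gt • h i) := by
    intro i j hij
    exact hinj (MulAction.injective gt hij)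
  have hginj : Function.Injective (fun i : Fin N => g • h i) := by
    intro i j hij
    exact hinj (MulAction.injective g hij)
  -- the sets
  have hQ'im : gt • (Uᶜ.filter (fun i => gt • h i ∈ dif φ ψ)).image h = dif φ ψ := by
    ext x
    rw [Finset.mem_smul_finset]
    constructor
    · rintro ⟨y, hy, rfl⟩
      rw [mem_image] at hy
      obtain ⟨i, hi, rfl⟩ := hy
      exact (mem_filter.1 hi).2
    · intro hx
      obtain ⟨i, hi, hix, _⟩ := hkey x hx
      exact ⟨h i, mem_image_of_mem h (mem_filter.2 ⟨hi, by rw [hix]; exact hx⟩), hix⟩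
  have hQim : g • ((V \ U).filter (fun i => g • h i ∈ dif φ ψ)).image h = dif φ ψ := by
    ext x
    rw [Finset.mem_smul_finset]
    constructor
    · rintro ⟨y, hy, rfl⟩
      rw [mem_image] at hy
      obtain ⟨i, hi, rfl⟩ := hy
      exact (mem_filter.1 hi).2
    · intro hx
      have hx2 := hψdif hx
      rw [Finset.mem_smul_finset] at hx2
      obtain ⟨y, hy, hyx⟩ := hx2
      rw [mem_image] at hy
      obtain ⟨i, hi, rfl⟩ := hy
      exact ⟨h i, mem_image_of_mem h (mem_filter.2 ⟨hi, by rw [hyx]; exact hx⟩), hyx⟩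
  have hc1 : (Uᶜ.filter (fun i => gt • h i ∈ dif φ ψ)).card = (dif φ ψ).card := by
    rw [← hQ'im, Finset.card_smul_finset, Finset.card_image_of_injective _ hinj, hQ'im]
  have hc2 : ((V \ U).filter (fun i => g • h i ∈ dif φ ψ)).card = (dif φ ψ).card := by
    rw [← hQim, Finset.card_smul_finset, Finset.card_image_of_injective _ hinj, hQim]
  refine ⟨ψ, hψO, (V \ U).filter (fun i => g • h i ∈ dif φ ψ),
    mem_powerset.2 (filter_subset _ _), Uᶜ.filter (fun i => gt • h i ∈ dif φ ψ),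
    mem_powerset.2 (filter_subset _ _), ⟨?_, ?_, ?_, ?_⟩, hψle, ?_⟩
  · rw [hc1, hc2]
  · rw [hc2]; exact card_pos.2 hne
  · rw [hQim, hQ'im]
  · intro i hi
    have hiT := (mem_filter.1 hi).2
    refine ⟨lt_of_lt_of_le (mem_dif.1 hiT) (hφ _), ?_⟩
    obtain ⟨i', hi', hii, hsz⟩ := hkey _ hiT
    have : i' = i := hgtinj hii
    rw [this] at hsz
    refine hsz.trans ?_
    rw [hc2]
    change al b (ψ (gt • h i)) (cnt φ ψ (ψ (gt • h i))) ≤ al b (ψ (gt • h i)) (dif φ ψ).card
    unfold al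
    have hcn : cnt φ ψ (ψ (gt • h i)) ≤ (dif φ ψ).card := card_filter_le _ _
    have := Nat.log_mono_right (b := 2) hcn
    omega
  · rw [hQ'im]

end Witness

end Vale.Agent.P064.Ctx
end
end

section

section

set_option linter.unusedSectionVars false

namespace Vale.Agent.P064.Ctx

open Finset
open scoped Pointwise

section Step

variable {X G : Type*} [Fintype X] [DecidableEq X] [Group G] [Fintype G] [MulAction G X]

theorem prod_smul_image {N : ℕ} (h : Fin N → X) (hinj : Function.Injective h) (g : G)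
    (Q : Finset (Fin N)) (f : X → ℝ) :
    ∏ x ∈ g • Q.image h, f x = ∏ i ∈ Q, f (g • h i) := by
  classical
  have h1 : g • Q.image h = Q.image (fun i => g • h i) := by
    ext x
    rw [Finset.mem_smul_finset, mem_image]
    constructor
    · rintro ⟨y, hy, rfl⟩
      rw [mem_image] at hy
      obtain ⟨i, hi, rfl⟩ := hy
      exact ⟨i, hi, rfl⟩
    · rintro ⟨i, hi, rfl⟩
      exact ⟨h i, mem_image_of_mem h hi, rfl⟩
  rw [h1, Finset.prod_image]
  intro i _ j _ hij
  exact hinj (MulAction.injective g hij)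

open Classical in
theorem fiber_card {N : ℕ} (h : Fin N → X) (Γ : Subgroup G) (C : G ⧸ Γ) (gt : G)
    (hgt : (gt : G ⧸ Γ) = C) (Q Q' : Finset (Fin N)) :
    (((univ.filter (fun g : G => (g : G ⧸ Γ) = C)).filter
      (fun g => g • Q.image h = gt • Q'.image h)).card : ℝ) ≤
    (Nat.card (Γ ⊓ MulAction.stabilizer G (Q'.image h) : Subgroup G) : ℝ) := by
  set A := (univ.filter (fun g : G => (g : G ⧸ Γ) = C)).filter
      (fun g => g • Q.image h = gt • Q'.image h) with hA
  rcases A.eq_empty_or_nonempty with he | ⟨g1, hg1⟩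
  · rw [he]; simp
  · rw [hA, mem_filter, mem_filter] at hg1
    have hmem : ∀ g ∈ A, gt⁻¹ * g * (g1⁻¹ * gt) ∈
        (Γ ⊓ MulAction.stabilizer G (Q'.image h) : Subgroup G) := by
      intro g hg
      rw [hA, mem_filter, mem_filter] at hg
      refine ⟨?_, ?_⟩
      · have h1 : gt⁻¹ * g ∈ Γ := by
          rw [← QuotientGroup.eq, hgt, hg.1.2]
        have h2 : g1⁻¹ * gt ∈ Γ := by
          rw [← QuotientGroup.eq, hgt, hg1.1.2]
        exact Γ.mul_mem h1 h2
      · have h1 : (gt⁻¹ * g * (g1⁻¹ * gt)) • Q'.image h = Q'.image h := by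
          rw [mul_smul, mul_smul, mul_smul, ← hg1.2, inv_smul_smul, hg.2, inv_smul_smul]
        exact h1
    have e : Nat.card (Γ ⊓ MulAction.stabilizer G (Q'.image h) : Subgroup G) =
        (univ.filter (fun g : G => g ∈ (Γ ⊓ MulAction.stabilizer G (Q'.image h) :
          Subgroup G))).card := by
      rw [Nat.card_eq_fintype_card]
      exact Fintype.card_subtype _
    rw [e]
    have hcard : A.card ≤ (univ.filter (fun g : G => g ∈ (Γ ⊓ MulAction.stabilizer G
        (Q'.image h) : Subgroup G))).card := by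
      apply Finset.card_le_card_of_injOn (fun g => gt⁻¹ * g * (g1⁻¹ * gt))
      · intro g hg
        simp only [coe_filter, mem_univ, true_and, Set.mem_ofPred_eq]
        exact hmem g hg
      · intro g _ g' _ hgg
        simp only [mul_left_inj, mul_right_inj] at hgg
        exact hgg
    exact_mod_cast hcard

/-- Relation used in the union bound. -/
def Rel {N : ℕ} (h : Fin N → X) (J b : ℕ) (Γ : Subgroup G) (gh : (G ⧸ Γ) → (X → ℕ) → G)
    (g : G) (ψ : X → ℕ) (Q Q' : Finset (Fin N)) : Prop :=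
  Q'.card = Q.card ∧ 1 ≤ Q.card ∧ g • Q.image h = gh g ψ • Q'.image h ∧
    ∀ i ∈ Q', ψ (gh g ψ • h i) < J ∧ Nat.size i ≤ al b (ψ (gh g ψ • h i)) Q.card

theorem wl_le (b n i k : ℕ) (hk : Nat.size i ≤ al b k n) :
    wl k * (32 ^ Nat.size i / 32 ^ b) ≤ uu b n i := by
  unfold wl uu
  apply mul_le_mul_of_nonneg_right _ (by positivity)
  have h1 : Nat.size i - ((b + Nat.log 2 n) / 2 + 6) ≤ k := by
    unfold al at hk
    omega
  have h2 : (1 / 128 : ℝ) ^ k ≤ (1 / 128) ^ (Nat.size i - ((b + Nat.log 2 n) / 2 + 6)) :=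
    pow_le_pow_of_le_one (by norm_num) (by norm_num) h1
  calc 1 / (2 ^ 47 * 128 ^ k : ℝ) = (1 / 2 ^ 47) * (1 / 128) ^ k := by
        rw [one_div_pow]; field_simp
    _ ≤ _ := mul_le_mul_of_nonneg_left h2 (by positivity)

open Classical in
/-- The inner count for a fixed `ψ` and a fixed coset. -/
theorem coset_bound {N : ℕ} (h : Fin N → X) (hinj : Function.Injective h) {q : ℝ} (hq : 0 < q)
    (J b : ℕ) (U V : Finset (Fin N)) (Γ : Subgroup G) (hVc : V.card ≤ 2 ^ (b + 2))
    (hP : P2 h q b U Γ) (gh : (G ⧸ Γ) → (X → ℕ) → G)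
    (hgh : ∀ C ψ, (gh C ψ : G ⧸ Γ) = C) (ψ : X → ℕ) (C : G ⧸ Γ) :
    ∑ g ∈ univ.filter (fun g : G => (g : G ⧸ Γ) = C), ∑ Q ∈ (V \ U).powerset,
      ∑ Q' ∈ Uᶜ.powerset, (if Rel h J b Γ gh g ψ Q Q' then
        ∏ i ∈ Q', (wl (ψ (gh g ψ • h i)) / q) else 0) ≤ Nat.card Γ * fl b := by
  have hΓ0 : (0 : ℝ) ≤ Nat.card Γ := by positivity
  -- step 1: fixed Q, Q'
  have h1 : ∀ Q ∈ (V \ U).powerset, ∀ Q' ∈ Uᶜ.powerset,
      ∑ g ∈ univ.filter (fun g : G => (g : G ⧸ Γ) = C), (if Rel h J b Γ gh g ψ Q Q' then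
        ∏ i ∈ Q', (wl (ψ (gh g ψ • h i)) / q) else 0) ≤
      Nat.card Γ * (if Q'.card = Q.card ∧ 1 ≤ Q.card then ∏ i ∈ Q', uu b Q.card i else 0) := by
    intro Q _ Q' hQ'
    by_cases hc : Q'.card = Q.card ∧ 1 ≤ Q.card ∧
        ∀ i ∈ Q', ψ (gh C ψ • h i) < J ∧ Nat.size i ≤ al b (ψ (gh C ψ • h i)) Q.card
    · obtain ⟨hc1, hc2, hc3⟩ := hc
      rw [if_pos ⟨hc1, hc2⟩]
      have h2 : ∑ g ∈ univ.filter (fun g : G => (g : G ⧸ Γ) = C),
          (if Rel h J b Γ gh g ψ Q Q' then ∏ i ∈ Q', (wl (ψ (gh g ψ • h i)) / q) else 0)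
          ≤ ∑ g ∈ (univ.filter (fun g : G => (g : G ⧸ Γ) = C)).filter
            (fun g => g • Q.image h = gh C ψ • Q'.image h),
            ∏ i ∈ Q', (wl (ψ (gh C ψ • h i)) / q) := by
        rw [Finset.sum_filter (s := univ.filter (fun g : G => (g : G ⧸ Γ) = C))]
        apply Finset.sum_le_sum
        intro g hg
        have hgC := (mem_filter.1 hg).2
        by_cases hR : Rel h J b Γ gh g ψ Q Q'
        · have hR2 := hR.2.2.1
          rw [hgC] at hR2
          rw [if_pos hR, if_pos hR2, hgC]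
        · rw [if_neg hR]
          split_ifs
          · exact Finset.prod_nonneg (fun i _ => div_nonneg (wl_pos _).le hq.le)
          · exact le_rfl
      refine h2.trans ?_
      rw [Finset.sum_const, nsmul_eq_mul]
      have h3 := fiber_card h Γ C (gh C ψ) (hgh C ψ) Q Q'
      have h4 := hP Q' (by
        rw [Finset.disjoint_left]
        intro i hi hiU
        have := mem_powerset.1 hQ' hi
        rw [mem_compl] at this
        exact this hiU)
      have hprod0 : 0 ≤ ∏ i ∈ Q', (wl (ψ (gh C ψ • h i)) / q) :=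
        Finset.prod_nonneg (fun i _ => div_nonneg (wl_pos _).le hq.le)
      refine (mul_le_mul_of_nonneg_right (h3.trans h4) hprod0).trans ?_
      have h5 : (Nat.card Γ : ℝ) * q ^ Q'.card * (∏ i ∈ Q', ((32 : ℝ) ^ Nat.size i / 32 ^ b)) *
          ∏ i ∈ Q', (wl (ψ (gh C ψ • h i)) / q)
          = Nat.card Γ * ∏ i ∈ Q', (wl (ψ (gh C ψ • h i)) * (32 ^ Nat.size i / 32 ^ b)) := by
        rw [← Finset.prod_const, mul_assoc, mul_assoc, ← Finset.prod_mul_distrib,
          ← Finset.prod_mul_distrib]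
        congr 1
        apply Finset.prod_congr rfl
        intro i _
        field_simp
      rw [h5]
      apply mul_le_mul_of_nonneg_left _ hΓ0
      apply Finset.prod_le_prod
      · intro i _
        exact mul_nonneg (wl_pos _).le (by positivity)
      · intro i hi
        exact wl_le b Q.card i _ (hc3 i hi).2
    · have h2 : ∑ g ∈ univ.filter (fun g : G => (g : G ⧸ Γ) = C),
          (if Rel h J b Γ gh g ψ Q Q' then ∏ i ∈ Q', (wl (ψ (gh g ψ • h i)) / q) else 0) = 0 := by
        apply Finset.sum_eq_zero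
        intro g hg
        have hgC := (mem_filter.1 hg).2
        rw [if_neg]
        intro hR
        apply hc
        refine ⟨hR.1, hR.2.1, ?_⟩
        have := hR.2.2.2
        rw [hgC] at this
        exact this
      rw [h2]
      apply mul_nonneg hΓ0
      split_ifs
      · exact Finset.prod_nonneg (fun i _ => uu_nonneg _ _ _)
      · exact le_rfl
  -- step 2: exchange and sum
  have h6 : ∑ g ∈ univ.filter (fun g : G => (g : G ⧸ Γ) = C), ∑ Q ∈ (V \ U).powerset,
      ∑ Q' ∈ Uᶜ.powerset, (if Rel h J b Γ gh g ψ Q Q' then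
        ∏ i ∈ Q', (wl (ψ (gh g ψ • h i)) / q) else 0) ≤
      ∑ Q ∈ (V \ U).powerset, ∑ Q' ∈ Uᶜ.powerset, Nat.card Γ *
        (if Q'.card = Q.card ∧ 1 ≤ Q.card then ∏ i ∈ Q', uu b Q.card i else 0) := by
    rw [Finset.sum_comm]
    apply Finset.sum_le_sum
    intro Q hQ
    rw [Finset.sum_comm]
    apply Finset.sum_le_sum
    intro Q' hQ'
    exact h1 Q hQ Q' hQ'
  refine h6.trans ?_
  have h7 : ∀ Q ∈ (V \ U).powerset, ∑ Q' ∈ Uᶜ.powerset, (Nat.card Γ : ℝ) *
        (if Q'.card = Q.card ∧ 1 ≤ Q.card then ∏ i ∈ Q', uu b Q.card i else 0)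
      ≤ Nat.card Γ * (if 1 ≤ Q.card then
        (∑ i : Fin N, uu b Q.card i) ^ Q.card / (Q.card.factorial : ℝ) else 0) := by
    intro Q _
    rw [← Finset.mul_sum]
    apply mul_le_mul_of_nonneg_left _ hΓ0
    by_cases hQ1 : 1 ≤ Q.card
    · rw [if_pos hQ1]
      have h8 := esymm_le (fun i : Fin N => uu b Q.card i) (fun i => uu_nonneg _ _ _)
        (univ : Finset (Fin N)) Q.card
      refine le_trans ?_ h8
      rw [← Finset.sum_filter]
      apply Finset.sum_le_sum_of_subset_of_nonneg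
      · intro Q' hQ'
        rw [mem_filter] at hQ'
        rw [mem_powersetCard]
        exact ⟨subset_univ _, hQ'.2.1⟩
      · intro Q' _ _
        exact Finset.prod_nonneg (fun i _ => uu_nonneg _ _ _)
    · rw [if_neg hQ1]
      apply le_of_eq
      apply Finset.sum_eq_zero
      intro Q' _
      rw [if_neg]
      exact fun hcon => hQ1 hcon.2
  refine (Finset.sum_le_sum h7).trans ?_
  rw [← Finset.mul_sum]
  apply mul_le_mul_of_nonneg_left _ hΓ0
  rw [Finset.sum_powerset_apply_card (fun n => if 1 ≤ n then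
        (∑ i : Fin N, uu b n i) ^ n / (n.factorial : ℝ) else 0)]
  have hVU : (V \ U).card ≤ 2 ^ (b + 2) := (card_le_card sdiff_subset).trans hVc
  unfold fl
  have h9 : ∑ n ∈ range ((V \ U).card + 1), (V \ U).card.choose n • (if 1 ≤ n then
        (∑ i : Fin N, uu b n i) ^ n / (n.factorial : ℝ) else 0)
      ≤ ∑ n ∈ range (2 ^ (b + 2) + 1), (if 1 ≤ n then
        ((2 ^ (b + 2)).choose n : ℝ) * ((∑ i : Fin N, uu b n i) ^ n / (n.factorial : ℝ))
          else 0) := by
    refine le_trans (Finset.sum_le_sum (g := fun n => if 1 ≤ n then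
        ((2 ^ (b + 2)).choose n : ℝ) * ((∑ i : Fin N, uu b n i) ^ n / (n.factorial : ℝ))
          else 0) ?_) (Finset.sum_le_sum_of_subset_of_nonneg ?_ ?_)
    · intro n _
      rw [nsmul_eq_mul]
      by_cases hn : 1 ≤ n
      · rw [if_pos hn, if_pos hn]
        apply mul_le_mul_of_nonneg_right
        · exact_mod_cast Nat.choose_le_choose n hVU
        · have : 0 ≤ ∑ i : Fin N, uu b n i := Finset.sum_nonneg (fun i _ => uu_nonneg _ _ _)
          positivity
      · rw [if_neg hn, if_neg hn, mul_zero]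
    · intro n hn
      rw [mem_range] at hn ⊢
      omega
    · intro n _ _
      split_ifs
      · have : 0 ≤ ∑ i : Fin N, uu b n i := Finset.sum_nonneg (fun i _ => uu_nonneg _ _ _)
        positivity
      · exact le_rfl
  refine h9.trans ?_
  rw [← Finset.sum_filter]
  have h10 : (range (2 ^ (b + 2) + 1)).filter (fun n => 1 ≤ n) =
      Finset.Icc (1 : ℕ) (2 ^ (b + 2)) := by
    ext n
    rw [mem_filter, mem_range, mem_Icc]
    omega
  rw [h10]
  apply Finset.sum_le_sum
  intro n hn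
  exact term_le b n N (mem_Icc.1 hn).1

open Classical in
/-- One step of the chain. -/
theorem step {N : ℕ} (h : Fin N → X) (hinj : Function.Injective h) (q : ℝ) (hq : 0 < q)
    (J : ℕ) (hJ : ∑ i ∈ range J, 2 ^ 47 * 128 ^ i * q ≤ 1) (lam : ℕ → ℝ) (h0 : ∀ i, 0 ≤ lam i)
    (hanti : Antitone lam) (b : ℕ) (U V : Finset (Fin N)) (Γ Δ : Subgroup G) (hUV : U ⊆ V)
    (hΔ : Δ ≤ Γ) (hU : Γ ≤ MulAction.stabilizer G (U.image h))
    (hV : Δ ≤ MulAction.stabilizer G (V.image h)) (hVc : V.card ≤ 2 ^ (b + 2))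
    (hP : P2 h q b U Γ) (τ : ℝ) :
    ∑ g : G, ∑ φ ∈ (Om X J).filter (fun φ => Ev h lam V Δ τ φ g ∧
      ¬ Ev h lam U Γ (τ + eps lam J b) φ g), wgt q J φ ≤ Nat.card G * fl b := by
  obtain ⟨gh, hgh⟩ := exists_gh h lam U Γ
  have hwn : ∀ φ : X → ℕ, 0 ≤ wgt q J φ := wgt_nonneg hq.le hJ
  -- union bound for fixed g
  have h1 : ∀ g : G, ∑ φ ∈ (Om X J).filter (fun φ => Ev h lam V Δ τ φ g ∧
      ¬ Ev h lam U Γ (τ + eps lam J b) φ g), wgt q J φ ≤
      ∑ ψ ∈ Om X J, wgt q J ψ * ∑ Q ∈ (V \ U).powerset, ∑ Q' ∈ Uᶜ.powerset,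
        (if Rel h J b Γ gh g ψ Q Q' then ∏ i ∈ Q', (wl (ψ (gh g ψ • h i)) / q) else 0) := by
    intro g
    set A := (Om X J).filter (fun φ => Ev h lam V Δ τ φ g ∧
      ¬ Ev h lam U Γ (τ + eps lam J b) φ g) with hA
    have h2 : ∑ φ ∈ A, wgt q J φ ≤ ∑ φ ∈ A, ∑ ψ ∈ Om X J, ∑ Q ∈ (V \ U).powerset,
        ∑ Q' ∈ Uᶜ.powerset, (if Rel h J b Γ gh g ψ Q Q' ∧ (∀ x, ψ x ≤ φ x) ∧
          dif φ ψ = gh g ψ • Q'.image h then wgt q J φ else 0) := by
      apply Finset.sum_le_sum
      intro φ hφ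
      rw [hA, mem_filter, mem_Om] at hφ
      obtain ⟨ψ, hψ, Q, hQ, Q', hQ', hR, hle, hdif⟩ := witness h hinj J lam h0 hanti b U V Γ Δ
        hUV hΔ hU hV hVc τ gh hgh g φ hφ.1 hφ.2.1 hφ.2.2
      have hnn : ∀ (ψ : X → ℕ) (Q Q' : Finset (Fin N)), 0 ≤ (if Rel h J b Γ gh g ψ Q Q' ∧
          (∀ x, ψ x ≤ φ x) ∧ dif φ ψ = gh g ψ • Q'.image h then wgt q J φ else 0) := by
        intro ψ Q Q'
        split_ifs
        · exact hwn φ
        · exact le_rfl
      calc wgt q J φ = (if Rel h J b Γ gh g ψ Q Q' ∧ (∀ x, ψ x ≤ φ x) ∧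
          dif φ ψ = gh g ψ • Q'.image h then wgt q J φ else 0) := by
            rw [if_pos]
            exact ⟨hR, hle, hdif⟩
        _ ≤ ∑ Q' ∈ Uᶜ.powerset, (if Rel h J b Γ gh g ψ Q Q' ∧ (∀ x, ψ x ≤ φ x) ∧
          dif φ ψ = gh g ψ • Q'.image h then wgt q J φ else 0) :=
            Finset.single_le_sum (f := fun Q' => if Rel h J b Γ gh g ψ Q Q' ∧
              (∀ x, ψ x ≤ φ x) ∧ dif φ ψ = gh g ψ • Q'.image h then wgt q J φ else 0)
              (fun Q' _ => hnn ψ Q Q') hQ'
        _ ≤ ∑ Q ∈ (V \ U).powerset, ∑ Q' ∈ Uᶜ.powerset, (if Rel h J b Γ gh g ψ Q Q' ∧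
          (∀ x, ψ x ≤ φ x) ∧ dif φ ψ = gh g ψ • Q'.image h then wgt q J φ else 0) :=
            Finset.single_le_sum (f := fun Q => ∑ Q' ∈ Uᶜ.powerset,
              if Rel h J b Γ gh g ψ Q Q' ∧
              (∀ x, ψ x ≤ φ x) ∧ dif φ ψ = gh g ψ • Q'.image h then wgt q J φ else 0)
              (fun Q _ => Finset.sum_nonneg (fun Q' _ => hnn ψ Q Q')) hQ
        _ ≤ _ :=
            Finset.single_le_sum (f := fun ψ => ∑ Q ∈ (V \ U).powerset, ∑ Q' ∈ Uᶜ.powerset,
              if Rel h J b Γ gh g ψ Q Q' ∧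
              (∀ x, ψ x ≤ φ x) ∧ dif φ ψ = gh g ψ • Q'.image h then wgt q J φ else 0)
              (fun ψ _ => Finset.sum_nonneg (fun Q _ => Finset.sum_nonneg
                (fun Q' _ => hnn ψ Q Q'))) hψ
    refine h2.trans ?_
    rw [Finset.sum_comm]
    apply Finset.sum_le_sum
    intro ψ _
    rw [Finset.sum_comm, Finset.mul_sum]
    apply Finset.sum_le_sum
    intro Q _
    rw [Finset.sum_comm, Finset.mul_sum]
    apply Finset.sum_le_sum
    intro Q' _
    by_cases hR : Rel h J b Γ gh g ψ Q Q'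
    · rw [if_pos hR]
      have h3 : ∑ φ ∈ A, (if Rel h J b Γ gh g ψ Q Q' ∧ (∀ x, ψ x ≤ φ x) ∧
          dif φ ψ = gh g ψ • Q'.image h then wgt q J φ else 0)
          = ∑ φ ∈ A.filter (fun φ => Rel h J b Γ gh g ψ Q Q' ∧ (∀ x, ψ x ≤ φ x) ∧
          dif φ ψ = gh g ψ • Q'.image h), wgt q J φ :=
        (Finset.sum_filter (s := A) _ _).symm
      rw [h3]
      have h4 := inner_sum hq hJ ψ (gh g ψ • Q'.image h) (by
        intro x hx
        rw [Finset.mem_smul_finset] at hx
        obtain ⟨y, hy, rfl⟩ := hx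
        rw [mem_image] at hy
        obtain ⟨i, hi, rfl⟩ := hy
        exact (hR.2.2.2 i hi).1)
        (A.filter (fun φ => Rel h J b Γ gh g ψ Q Q' ∧ (∀ x, ψ x ≤ φ x) ∧
          dif φ ψ = gh g ψ • Q'.image h)) (by
        intro φ hφ
        rw [mem_filter, hA, mem_filter, mem_Om] at hφ
        exact ⟨hφ.2.2.1, hφ.1.1, hφ.2.2.2⟩)
      refine h4.trans (le_of_eq ?_)
      rw [prod_smul_image h hinj]
    · rw [if_neg hR, mul_zero]
      apply le_of_eq
      apply Finset.sum_eq_zero
      intro φ _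
      rw [if_neg]
      exact fun hcon => hR hcon.1
  -- sum over g
  refine (Finset.sum_le_sum (fun g _ => h1 g)).trans ?_
  rw [Finset.sum_comm]
  have h5 : ∀ ψ ∈ Om X J, ∑ g : G, wgt q J ψ * (∑ Q ∈ (V \ U).powerset, ∑ Q' ∈ Uᶜ.powerset,
        (if Rel h J b Γ gh g ψ Q Q' then ∏ i ∈ Q', (wl (ψ (gh g ψ • h i)) / q) else 0))
      ≤ wgt q J ψ * (Nat.card G * fl b) := by
    intro ψ _
    rw [← Finset.mul_sum]
    apply mul_le_mul_of_nonneg_left _ (hwn ψ)
    rw [← Finset.sum_fiberwise_of_maps_to (s := (univ : Finset G))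
      (t := (univ : Finset (G ⧸ Γ))) (g := fun g => (g : G ⧸ Γ)) (fun _ _ => mem_univ _)]
    have h6 : ∀ C ∈ (univ : Finset (G ⧸ Γ)),
        ∑ g ∈ univ.filter (fun g : G => (g : G ⧸ Γ) = C), ∑ Q ∈ (V \ U).powerset,
        ∑ Q' ∈ Uᶜ.powerset, (if Rel h J b Γ gh g ψ Q Q' then
          ∏ i ∈ Q', (wl (ψ (gh g ψ • h i)) / q) else 0) ≤ Nat.card Γ * fl b := by
      intro C _
      exact coset_bound h hinj hq J b U V Γ hVc hP gh (fun C ψ => (hgh C ψ).1) ψ C
    refine (Finset.sum_le_sum h6).trans ?_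
    rw [Finset.sum_const, nsmul_eq_mul, Finset.card_univ, ← Nat.card_eq_fintype_card,
      Subgroup.card_eq_card_quotient_mul_card_subgroup Γ]
    push_cast
    apply le_of_eq
    ring
  refine (Finset.sum_le_sum h5).trans ?_
  rw [← Finset.sum_mul, sum_wgt, one_mul]

end Step

end Vale.Agent.P064.Ctx
end
end

section

section

namespace Vale.Agent.P064.Ctx

open Finset

/-! ### M4a -/

theorem sum_geom_weighted (N : ℕ) :
    ∑ n ∈ Finset.Icc 1 N, (n : ℝ) * (1 / 4) ^ (n - 1) =
      16 / 9 - (4 * N / 3 + 16 / 9) * (1 / 4) ^ N := by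
  induction N with
  | zero => norm_num
  | succ N ih =>
    rw [Finset.sum_Icc_succ_top (by omega), ih]
    simp only [Nat.add_sub_cancel]
    rw [pow_succ]
    push_cast
    ring

theorem fl_le (b : ℕ) : fl b ≤ 1 / (9 * 2 ^ b) := by
  unfold fl
  have h2b : (0 : ℝ) < 2 ^ b := by positivity
  have h1 : ∀ n ∈ Finset.Icc (1 : ℕ) (2 ^ (b + 2)), ((n : ℝ) / (16 * 2 ^ b)) ^ n ≤
      1 / (16 * 2 ^ b) * ((n : ℝ) * (1 / 4) ^ (n - 1)) := by
    intro n hn
    rw [Finset.mem_Icc] at hn
    obtain ⟨m, rfl⟩ : ∃ m, n = m + 1 := ⟨n - 1, by omega⟩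
    simp only [Nat.add_sub_cancel]
    have h3 : ((m + 1 : ℕ) : ℝ) ≤ 4 * 2 ^ b := by
      have : m + 1 ≤ 4 * 2 ^ b := by
        have := hn.2
        rw [pow_add] at this
        omega
      exact_mod_cast this
    have h4 : ((m + 1 : ℕ) : ℝ) / (16 * 2 ^ b) ≤ 1 / 4 := by
      rw [div_le_iff₀ (by positivity)]
      linarith
    have h5 : 0 ≤ ((m + 1 : ℕ) : ℝ) / (16 * 2 ^ b) := by positivity
    rw [pow_succ]
    calc (((m + 1 : ℕ) : ℝ) / (16 * 2 ^ b)) ^ m * (((m + 1 : ℕ) : ℝ) / (16 * 2 ^ b))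
        ≤ (1 / 4) ^ m * (((m + 1 : ℕ) : ℝ) / (16 * 2 ^ b)) :=
          mul_le_mul_of_nonneg_right (pow_le_pow_left₀ h5 h4 m) h5
      _ = 1 / (16 * 2 ^ b) * (((m + 1 : ℕ) : ℝ) * (1 / 4) ^ m) := by ring
  refine (Finset.sum_le_sum h1).trans ?_
  rw [← Finset.mul_sum, sum_geom_weighted]
  have h6 : 16 / 9 - (4 * ((2 ^ (b + 2) : ℕ) : ℝ) / 3 + 16 / 9) * (1 / 4) ^ (2 ^ (b + 2)) ≤
      (16 : ℝ) / 9 := by
    have : 0 ≤ (4 * ((2 ^ (b + 2) : ℕ) : ℝ) / 3 + 16 / 9) * (1 / 4) ^ (2 ^ (b + 2)) := by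
      positivity
    linarith
  calc 1 / (16 * 2 ^ b) * (16 / 9 - (4 * ((2 ^ (b + 2) : ℕ) : ℝ) / 3 + 16 / 9) *
        (1 / 4) ^ (2 ^ (b + 2)))
      ≤ 1 / (16 * 2 ^ b) * (16 / 9) := mul_le_mul_of_nonneg_left h6 (by positivity)
    _ = 1 / (9 * 2 ^ b) := by field_simp

theorem sum_inv_two_pow (k : ℕ) :
    ∑ b ∈ range (k + 1), (1 : ℝ) / (9 * 2 ^ b) = 2 / 9 - 1 / (9 * 2 ^ k) := by
  induction k with
  | zero => norm_num
  | succ k ih =>
    rw [Finset.sum_range_succ, ih, pow_succ]
    field_simp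
    ring

/-- M4a -/
theorem sum_fl_le (k : ℕ) : ∑ b ∈ range (k + 1), fl b ≤ 1 / 4 := by
  refine (Finset.sum_le_sum fun b _ => fl_le b).trans ?_
  rw [sum_inv_two_pow]
  have : (0 : ℝ) < 1 / (9 * 2 ^ k) := by positivity
  linarith

/-! ### M4b -/

/-- grouping by the binary logarithm -/
theorem sum_log_le (B : ℕ) (g : ℕ → ℝ) (hg : ∀ l, 0 ≤ g l) :
    ∑ m ∈ Finset.Icc (1 : ℕ) (2 ^ B), g (Nat.log 2 m) ≤ ∑ l ∈ range (B + 1), 2 ^ l * g l := by
  classical
  have hmaps : ∀ m ∈ Finset.Icc (1 : ℕ) (2 ^ B), Nat.log 2 m ∈ range (B + 1) := by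
    intro m hm
    rw [Finset.mem_Icc] at hm
    rw [Finset.mem_range]
    have := Nat.log_mono_right (b := 2) hm.2
    rw [Nat.log_pow (by norm_num)] at this
    omega
  rw [← Finset.sum_fiberwise_of_maps_to hmaps]
  refine Finset.sum_le_sum fun l _ => ?_
  have h1 : ∑ m ∈ (Finset.Icc (1 : ℕ) (2 ^ B)).filter (fun m => Nat.log 2 m = l),
      g (Nat.log 2 m) = (((Finset.Icc (1 : ℕ) (2 ^ B)).filter
        (fun m => Nat.log 2 m = l)).card : ℝ) * g l := by
    rw [Finset.sum_congr rfl (g := fun _ => g l) (fun m hm => by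
      rw [(Finset.mem_filter.1 hm).2]), Finset.sum_const, nsmul_eq_mul]
  rw [h1]
  refine mul_le_mul_of_nonneg_right ?_ (hg l)
  have h2 : (Finset.Icc (1 : ℕ) (2 ^ B)).filter (fun m => Nat.log 2 m = l) ⊆
      Finset.Ico (2 ^ l) (2 ^ (l + 1)) := by
    intro m hm
    rw [Finset.mem_filter, Finset.mem_Icc] at hm
    obtain ⟨⟨h3, -⟩, h4⟩ := hm
    rw [Finset.mem_Ico, ← h4]
    exact ⟨Nat.pow_log_le_self 2 (by omega), Nat.lt_pow_succ_log_self (by norm_num) m⟩
  have h3 := Finset.card_le_card h2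
  rw [Nat.card_Ico, pow_succ] at h3
  have h4 : ((Finset.Icc (1 : ℕ) (2 ^ B)).filter (fun m => Nat.log 2 m = l)).card ≤ 2 ^ l := by
    omega
  exact_mod_cast h4

theorem sum_two_pow (n : ℕ) : ∑ l ∈ range n, (2 : ℝ) ^ l = 2 ^ n - 1 := by
  induction n with
  | zero => norm_num
  | succ n ih => rw [Finset.sum_range_succ, ih, pow_succ]; ring

/-- the double sum over `(b,l)` grouped by `c = (b+l)/2` -/
theorem sum_half_le (k : ℕ) (F : ℕ → ℝ) (hF : ∀ c, 0 ≤ F c) :
    ∑ b ∈ range (k + 1), ∑ l ∈ range (b + 3), 2 ^ l * F ((b + l) / 2) ≤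
      8 * ∑ c ∈ range (k + 2), 2 ^ c * F c := by
  classical
  rw [Finset.sum_sigma']
  have hmaps : ∀ x ∈ (range (k + 1)).sigma (fun b => range (b + 3)),
      (x.1 + x.2) / 2 ∈ range (k + 2) := by
    rintro ⟨b, l⟩ hx
    simp only [Finset.mem_sigma, Finset.mem_range] at hx ⊢
    omega
  rw [← Finset.sum_fiberwise_of_maps_to hmaps, Finset.mul_sum]
  refine Finset.sum_le_sum fun c _ => ?_
  set P := ((range (k + 1)).sigma (fun b => range (b + 3))).filter
    (fun x => (x.1 + x.2) / 2 = c) with hP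
  have h1 : ∑ x ∈ P, 2 ^ x.2 * F ((x.1 + x.2) / 2) = (∑ x ∈ P, (2 : ℝ) ^ x.2) * F c := by
    rw [Finset.sum_mul]
    refine Finset.sum_congr rfl fun x hx => ?_
    rw [(Finset.mem_filter.1 hx).2]
  rw [h1]
  have h2 : ∑ x ∈ P, (2 : ℝ) ^ x.2 ≤ 8 * 2 ^ c := by
    have hinj : Set.InjOn (fun x : (_ : ℕ) × ℕ => (x.2, (x.1 + x.2) % 2)) (P : Set _) := by
      rintro ⟨b, l⟩ hx ⟨b', l'⟩ hx' h
      have hx1 := (Finset.mem_filter.1 (Finset.mem_coe.1 hx)).2
      have hx1' := (Finset.mem_filter.1 (Finset.mem_coe.1 hx')).2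
      simp only [Prod.mk.injEq] at h hx1 hx1'
      obtain ⟨rfl, h3⟩ := h
      have : b = b' := by omega
      rw [this]
    have h3 : ∑ x ∈ P, (2 : ℝ) ^ x.2 =
        ∑ y ∈ P.image (fun x : (_ : ℕ) × ℕ => (x.2, (x.1 + x.2) % 2)), (2 : ℝ) ^ y.1 := by
      rw [Finset.sum_image hinj]
    rw [h3]
    have hsub : P.image (fun x : (_ : ℕ) × ℕ => (x.2, (x.1 + x.2) % 2)) ⊆
        range (c + 2) ×ˢ range 2 := by
      intro y hy
      rw [Finset.mem_image] at hy
      obtain ⟨⟨b, l⟩, hx, rfl⟩ := hy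
      have hx2 := Finset.mem_filter.1 hx
      have h4 := hx2.1
      simp only [Finset.mem_sigma, Finset.mem_range] at h4
      have h5 := hx2.2
      simp only at h5
      simp only [Finset.mem_product, Finset.mem_range]
      omega
    refine (Finset.sum_le_sum_of_subset_of_nonneg hsub (fun _ _ _ => by positivity)).trans ?_
    rw [Finset.sum_product]
    simp only [Finset.sum_const, card_range, nsmul_eq_mul]
    rw [← Finset.mul_sum, sum_two_pow, pow_add]
    have : (0 : ℝ) < 2 ^ c := by positivity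
    push_cast
    linarith
  calc (∑ x ∈ P, (2 : ℝ) ^ x.2) * F c ≤ 8 * 2 ^ c * F c :=
        mul_le_mul_of_nonneg_right h2 (hF c)
    _ = 8 * (2 ^ c * F c) := by ring

/-- Cauchy condensation -/
theorem condensed_le (lam : ℕ → ℝ) (hanti : Antitone lam) (M : ℕ) :
    ∑ a ∈ range M, (2 : ℝ) ^ (a + 1) * lam (2 ^ (a + 1)) ≤ 2 * ∑ i ∈ Finset.Ico 1 (2 ^ M), lam i := by
  induction M with
  | zero => simp
  | succ M ih =>
    rw [Finset.sum_range_succ]
    have h1 : ∑ i ∈ Finset.Ico 1 (2 ^ (M + 1)), lam i =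
        ∑ i ∈ Finset.Ico 1 (2 ^ M), lam i + ∑ i ∈ Finset.Ico (2 ^ M) (2 ^ (M + 1)), lam i := by
      rw [Finset.sum_Ico_consecutive _ Nat.one_le_two_pow
        (Nat.pow_le_pow_right (by norm_num) (by omega))]
    have h2 : (2 : ℝ) ^ M * lam (2 ^ (M + 1)) ≤ ∑ i ∈ Finset.Ico (2 ^ M) (2 ^ (M + 1)), lam i := by
      have h3 : ∑ i ∈ Finset.Ico (2 ^ M) (2 ^ (M + 1)), lam (2 ^ (M + 1)) ≤
          ∑ i ∈ Finset.Ico (2 ^ M) (2 ^ (M + 1)), lam i := by
        refine Finset.sum_le_sum fun i hi => ?_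
        rw [Finset.mem_Ico] at hi
        exact hanti hi.2.le
      rw [Finset.sum_const, Nat.card_Ico, nsmul_eq_mul] at h3
      have h4 : ((2 ^ (M + 1) - 2 ^ M : ℕ) : ℝ) = 2 ^ M := by
        have : 2 ^ (M + 1) - 2 ^ M = 2 ^ M := by rw [pow_succ]; omega
        rw [this]; push_cast; ring
      rw [h4] at h3
      exact h3
    rw [h1]
    have h5 : (2 : ℝ) ^ (M + 1) = 2 * 2 ^ M := by rw [pow_succ]; ring
    rw [h5]
    linarith

theorem sum_lam_le (lam : ℕ → ℝ) (h0 : ∀ i, 0 ≤ lam i) (N : ℕ)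
    (hN : ∀ i, N ≤ i → lam i = 0) (s : Finset ℕ) : ∑ i ∈ s, lam i ≤ ∑ i ∈ range N, lam i := by
  classical
  have h1 : ∑ i ∈ s, lam i = ∑ i ∈ s.filter (fun i => i < N), lam i := by
    rw [Finset.sum_filter]
    refine Finset.sum_congr rfl fun i _ => ?_
    split_ifs with h
    · rfl
    · exact hN i (by omega)
  rw [h1]
  apply Finset.sum_le_sum_of_subset_of_nonneg
  · intro i hi
    rw [Finset.mem_filter] at hi
    exact Finset.mem_range.2 hi.2
  · intro i _ _
    exact h0 i

/-- M4b -/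
theorem sum_eps_le (lam : ℕ → ℝ) (h0 : ∀ i, 0 ≤ lam i) (hanti : Antitone lam) (N : ℕ)
    (hN : ∀ i, N ≤ i → lam i = 0) (hsum : ∑ i ∈ range N, lam i ≤ 1) (J k : ℕ) :
    ∑ b ∈ range (k + 1), eps lam J b ≤ 1 / 2 := by
  set M := k + J + 8 with hM
  set T := ∑ a ∈ range M, (2 : ℝ) ^ (a + 1) * lam (2 ^ (a + 1)) with hT
  have hT2 : T ≤ 2 := by
    refine (condensed_le lam hanti M).trans ?_
    have := (sum_lam_le lam h0 N hN (Finset.Ico 1 (2 ^ M))).trans hsum
    linarith
  have hT0 : 0 ≤ T := Finset.sum_nonneg fun a _ => mul_nonneg (by positivity) (h0 _)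
  have hstep1 : ∀ b, eps lam J b ≤ ∑ j ∈ range J, ∑ l ∈ range (b + 3),
      2 ^ l * lam (2 ^ ((b + l) / 2 + (j + 6))) := by
    intro b
    unfold eps
    refine Finset.sum_le_sum fun j _ => ?_
    have := sum_log_le (b + 2) (fun l => lam (2 ^ ((b + l) / 2 + (j + 6)))) (fun l => h0 _)
    refine le_trans (le_of_eq ?_) this
    refine Finset.sum_congr rfl fun m _ => ?_
    unfold al
    rw [add_assoc ((b + Nat.log 2 m) / 2)]
  have hstep2 : ∑ b ∈ range (k + 1), eps lam J b ≤ ∑ j ∈ range J,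
      8 * ∑ c ∈ range (k + 2), 2 ^ c * lam (2 ^ (c + (j + 6))) := by
    refine (Finset.sum_le_sum fun b _ => hstep1 b).trans ?_
    rw [Finset.sum_comm]
    refine Finset.sum_le_sum fun j _ => ?_
    exact sum_half_le k (fun c => lam (2 ^ (c + (j + 6)))) (fun c => h0 _)
  have hstep3 : ∀ j ∈ range J, 8 * ∑ c ∈ range (k + 2), 2 ^ c * lam (2 ^ (c + (j + 6))) ≤
      (1 / 2) ^ j * (T / 8) := by
    intro j hj
    rw [Finset.mem_range] at hj
    have h1 : ∑ c ∈ range (k + 2), (2 : ℝ) ^ c * lam (2 ^ (c + (j + 6))) =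
        (1 / 2) ^ (j + 6) * ∑ c ∈ range (k + 2), (2 : ℝ) ^ (c + (j + 6)) *
          lam (2 ^ (c + (j + 6))) := by
      rw [Finset.mul_sum]
      refine Finset.sum_congr rfl fun c _ => ?_
      have e1 : (1 / 2 : ℝ) ^ (j + 6) * 2 ^ (c + (j + 6)) = 2 ^ c := by
        rw [pow_add 2 c (j + 6), mul_left_comm, ← mul_pow]
        norm_num
      rw [← mul_assoc, e1]
    have h2 : ∑ c ∈ range (k + 2), (2 : ℝ) ^ (c + (j + 6)) * lam (2 ^ (c + (j + 6))) ≤ T := by
      have hinj : Set.InjOn (fun c : ℕ => c + (j + 5)) (range (k + 2) : Set ℕ) := by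
        intro a _ b _ h
        simp only at h
        omega
      have h3 : ∑ c ∈ range (k + 2), (2 : ℝ) ^ (c + (j + 6)) * lam (2 ^ (c + (j + 6))) =
          ∑ a ∈ (range (k + 2)).image (fun c : ℕ => c + (j + 5)),
            (2 : ℝ) ^ (a + 1) * lam (2 ^ (a + 1)) := by
        rw [Finset.sum_image hinj]
        rfl
      rw [h3, hT]
      apply Finset.sum_le_sum_of_subset_of_nonneg
      · intro a ha
        rw [Finset.mem_image] at ha
        obtain ⟨c, hc, rfl⟩ := ha
        rw [Finset.mem_range] at hc ⊢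
        omega
      · intro a _ _
        exact mul_nonneg (by positivity) (h0 _)
    rw [h1]
    have h4 : (0 : ℝ) < (1 / 2) ^ j := by positivity
    calc 8 * ((1 / 2) ^ (j + 6) * ∑ c ∈ range (k + 2), (2 : ℝ) ^ (c + (j + 6)) *
          lam (2 ^ (c + (j + 6)))) ≤ 8 * ((1 / 2) ^ (j + 6) * T) := by
          refine mul_le_mul_of_nonneg_left ?_ (by norm_num)
          exact mul_le_mul_of_nonneg_left h2 (by positivity)
      _ = (1 / 2) ^ j * (T / 8) := by rw [pow_add]; ring
  refine hstep2.trans ((Finset.sum_le_sum hstep3).trans ?_)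
  rw [← Finset.sum_mul]
  have h5 : ∑ j ∈ range J, (1 / 2 : ℝ) ^ j ≤ 2 := by
    have h6 : ∀ n : ℕ, ∑ j ∈ range n, (1 / 2 : ℝ) ^ j = 2 - 2 * (1 / 2) ^ n := by
      intro n
      induction n with
      | zero => norm_num
      | succ n ih => rw [Finset.sum_range_succ, ih, pow_succ]; ring
    rw [h6]
    have : (0 : ℝ) < (1 / 2) ^ J := by positivity
    linarith
  calc (∑ j ∈ range J, (1 / 2 : ℝ) ^ j) * (T / 8) ≤ 2 * (2 / 8) :=
        mul_le_mul h5 (by linarith) (by positivity) (by norm_num)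
    _ = 1 / 2 := by norm_num

/-! ### M4c -/

/-- M4c -/
theorem exists_J (q : ℝ) (hq : 0 < q) :
    ∃ J : ℕ, ∑ i ∈ range J, 2 ^ 47 * 128 ^ i * q ≤ 1 ∧ 1 / 2 ≤ 2 ^ 47 * 128 ^ J * q := by
  classical
  have hex : ∃ J : ℕ, 1 / 2 ≤ 2 ^ 47 * 128 ^ J * q := by
    obtain ⟨J, hJ⟩ := pow_unbounded_of_one_lt (1 / q) (show (1 : ℝ) < 128 by norm_num)
    refine ⟨J, ?_⟩
    rw [div_lt_iff₀ hq] at hJ
    have : (1 : ℝ) ≤ 2 ^ 47 := by norm_num
    nlinarith
  refine ⟨Nat.find hex, ?_, Nat.find_spec hex⟩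
  have hsum : ∀ n : ℕ, ∑ i ∈ range n, (2 ^ 47 * 128 ^ i * q : ℝ) * 127 =
      2 ^ 47 * 128 ^ n * q - 2 ^ 47 * q := by
    intro n
    induction n with
    | zero => simp
    | succ n ih => rw [Finset.sum_range_succ, ih, pow_succ]; ring
  rcases Nat.eq_zero_or_pos (Nat.find hex) with h | h
  · rw [h]; simp
  · obtain ⟨m, hm⟩ : ∃ m, Nat.find hex = m + 1 := ⟨Nat.find hex - 1, by omega⟩
    have h1 : ¬ (1 / 2 ≤ 2 ^ 47 * 128 ^ m * q) := Nat.find_min hex (by omega)
    push Not at h1
    rw [hm]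
    have h2 := hsum (m + 1)
    rw [← Finset.sum_mul, pow_succ (128 : ℝ) m] at h2
    have h3 : (0 : ℝ) < 2 ^ 47 * q := by positivity
    linarith

end Vale.Agent.P064.Ctx
end
end

section

section

namespace Vale.Agent.P064.Ctx

open Finset
open scoped Pointwise

variable {X G : Type*} [Fintype X] [DecidableEq X] [Group G] [Fintype G] [MulAction G X]

namespace C1

theorem lv_nonneg1 (q : ℝ) (hq : 0 ≤ q) (J : ℕ)
    (hJ : ∑ i ∈ range J, 2 ^ 47 * 128 ^ i * q ≤ 1) (j : ℕ) : 0 ≤ lv q J j := by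
  unfold lv
  split_ifs
  · positivity
  · linarith

theorem sum_lv1 (q : ℝ) (J : ℕ) : ∑ j ∈ range (J + 1), lv q J j = 1 := by
  rw [Finset.sum_range_succ]
  have h1 : ∑ j ∈ range J, lv q J j = ∑ i ∈ range J, 2 ^ 47 * 128 ^ i * q := by
    apply Finset.sum_congr rfl
    intro j hj
    rw [mem_range] at hj
    simp [lv, hj]
  rw [h1]
  simp [lv]

omit [DecidableEq X] in
theorem wgt_nonneg1 (q : ℝ) (hq : 0 ≤ q) (J : ℕ)
    (hJ : ∑ i ∈ range J, 2 ^ 47 * 128 ^ i * q ≤ 1) (φ : X → ℕ) : 0 ≤ wgt q J φ :=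
  Finset.prod_nonneg (fun _ _ => lv_nonneg1 q hq J hJ _)

theorem wgt_total1 (q : ℝ) (J : ℕ) : ∑ φ ∈ Om X J, wgt q J φ = 1 := by
  unfold Om wgt
  rw [← Finset.prod_univ_sum (fun _ : X => range (J + 1)) (fun _ j => lv q J j)]
  simp [sum_lv1]

/-- a chain of implications from the top to the bottom breaks somewhere -/
theorem exists_break (k : ℕ) (P : ℕ → Prop) (htop : P (k + 1)) (hbot : ¬ P 0) :
    ∃ b ≤ k, P (b + 1) ∧ ¬ P b := by
  by_contra hno
  push Not at hno
  have h : ∀ j ≤ k + 1, P (k + 1 - j) := by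
    intro j
    induction j with
    | zero => intro _; simpa using htop
    | succ j ih =>
      intro hj
      have h1 := ih (by omega)
      have h2 : k + 1 - j = (k - j) + 1 := by omega
      rw [h2] at h1
      have h3 := hno (k - j) (by omega) h1
      have h4 : k + 1 - (j + 1) = k - j := by omega
      rw [h4]
      exact h3
  have := h (k + 1) le_rfl
  simp at this
  exact hbot this

theorem bad_le_sum {Ω : Type*} (S : Finset Ω) (w : Ω → ℝ) (hw : ∀ φ, 0 ≤ w φ) (k : ℕ)
    (B : Ω → Prop) [DecidablePred B] (P : ℕ → Ω → Prop) [∀ b, DecidablePred (P b)] (hB : ∀ φ ∈ S, B φ → ∃ b ≤ k, P b φ) :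
    ∑ φ ∈ S.filter B, w φ ≤ ∑ b ∈ range (k + 1), ∑ φ ∈ S.filter (P b), w φ := by
  have h1 : ∑ b ∈ range (k + 1), ∑ φ ∈ S.filter (P b), w φ =
      ∑ φ ∈ S, ∑ b ∈ range (k + 1), if P b φ then w φ else 0 := by
    rw [Finset.sum_comm]
    apply Finset.sum_congr rfl
    intro b _
    rw [Finset.sum_filter]
  rw [h1, Finset.sum_filter]
  apply Finset.sum_le_sum
  intro φ hφ
  have hnn : ∀ b ∈ range (k + 1), 0 ≤ (if P b φ then w φ else 0) := by
    intro b _
    split_ifs
    · exact hw φ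
    · exact le_rfl
  by_cases hb : B φ
  · rw [if_pos hb]
    obtain ⟨b, hbk, hP⟩ := hB φ hφ hb
    have h2 := Finset.single_le_sum hnn (mem_range.mpr (Nat.lt_succ_of_le hbk))
    rw [if_pos hP] at h2
    exact h2
  · rw [if_neg hb]
    exact Finset.sum_nonneg hnn

end C1

open C1

open Classical in
/-- M5, from M2, M3, M4 -/
theorem good_prob {N : ℕ} (h : Fin N → X) (hinj : Function.Injective h) (q : ℝ) (hq : 0 < q)
    (star : ∀ Q : Finset (Fin N), (Nat.card (MulAction.stabilizer G (Q.image h)) : ℝ) ≤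
      Nat.card G * q ^ Q.card)
    (J : ℕ) (hJ : ∑ i ∈ range J, 2 ^ 47 * 128 ^ i * q ≤ 1) (lam : ℕ → ℝ) (h0 : ∀ i, 0 ≤ lam i)
    (hanti : Antitone lam) (hN : ∀ i, N ≤ i → lam i = 0) (hsum : ∑ i ∈ range N, lam i ≤ 1) :
    ∑ φ ∈ (Om X J).filter (fun φ => ¬ ∃ g : G, ∑ i : Fin N, lam i * φ (g • h i) ≤ 1 / 2),
      wgt q J φ ≤ 1 / 4 := by
  obtain ⟨k, hk⟩ : ∃ k, N ≤ 2 ^ k := ⟨N, Nat.lt_two_pow_self.le⟩
  obtain ⟨U, Γ, hU0, hΓ0, hUk, hch⟩ := chain N k hk h hinj q hq star
  obtain ⟨τ, hτ⟩ : ∃ τ : ℕ → ℝ, ∀ b, τ b = ∑ b' ∈ Finset.Ico b (k + 1), eps lam J b' :=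
    ⟨_, fun _ => rfl⟩
  have hτk : τ (k + 1) = 0 := by rw [hτ]; simp
  have hτ0 : τ 0 ≤ 1 / 2 := by
    rw [hτ, ← Finset.range_eq_Ico]
    exact sum_eps_le lam h0 hanti N hN hsum J k
  have hτs : ∀ b ≤ k, τ b = τ (b + 1) + eps lam J b := by
    intro b hb
    rw [hτ, hτ, Finset.sum_eq_sum_Ico_succ_bot (by omega)]
    ring
  have hG : (0 : ℝ) < Nat.card G := by
    have : 0 < Nat.card G := Nat.card_pos
    exact_mod_cast this
  have key : ∀ g : G,
      ∑ φ ∈ (Om X J).filter (fun φ => ¬ ∃ g : G, ∑ i : Fin N, lam i * φ (g • h i) ≤ 1 / 2),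
        wgt q J φ ≤ ∑ b ∈ range (k + 1), ∑ φ ∈ (Om X J).filter (fun φ =>
          Ev h lam (U (b + 1)) (Γ (b + 1)) (τ (b + 1)) φ g ∧
          ¬ Ev h lam (U b) (Γ b) (τ (b + 1) + eps lam J b) φ g), wgt q J φ := by
    intro g
    refine bad_le_sum (Om X J) (wgt q J) (wgt_nonneg1 q hq.le J hJ) k _
      (fun b φ => Ev h lam (U (b + 1)) (Γ (b + 1)) (τ (b + 1)) φ g ∧
          ¬ Ev h lam (U b) (Γ b) (τ (b + 1) + eps lam J b) φ g) ?_
    intro φ _ hbad
    obtain ⟨b, hb, hb1, hb2⟩ := exists_break k (fun b => Ev h lam (U b) (Γ b) (τ b) φ g)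
      (by
        refine ⟨1, Subgroup.one_mem _, ?_⟩
        rw [hUk, hτk]
        simp)
      (by
        rintro ⟨γ, _, hγ⟩
        apply hbad
        refine ⟨g * γ, ?_⟩
        rw [hU0] at hγ
        simp only [Finset.compl_empty] at hγ
        exact hγ.trans hτ0)
    refine ⟨b, hb, hb1, ?_⟩
    rw [← hτs b hb]
    exact hb2
  have h1 : (Nat.card G : ℝ) *
      ∑ φ ∈ (Om X J).filter (fun φ => ¬ ∃ g : G, ∑ i : Fin N, lam i * φ (g • h i) ≤ 1 / 2),
        wgt q J φ ≤ Nat.card G * (1 / 4) := by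
    calc (Nat.card G : ℝ) *
        ∑ φ ∈ (Om X J).filter (fun φ => ¬ ∃ g : G, ∑ i : Fin N, lam i * φ (g • h i) ≤ 1 / 2),
          wgt q J φ
        = ∑ _g : G,
          ∑ φ ∈ (Om X J).filter (fun φ => ¬ ∃ g : G, ∑ i : Fin N, lam i * φ (g • h i) ≤ 1 / 2),
            wgt q J φ := by
          rw [Finset.sum_const, nsmul_eq_mul, Finset.card_univ, Nat.card_eq_fintype_card]
      _ ≤ ∑ g : G, ∑ b ∈ range (k + 1), ∑ φ ∈ (Om X J).filter (fun φ =>
          Ev h lam (U (b + 1)) (Γ (b + 1)) (τ (b + 1)) φ g ∧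
          ¬ Ev h lam (U b) (Γ b) (τ (b + 1) + eps lam J b) φ g), wgt q J φ :=
          Finset.sum_le_sum (fun g _ => key g)
      _ = ∑ b ∈ range (k + 1), ∑ g : G, ∑ φ ∈ (Om X J).filter (fun φ =>
          Ev h lam (U (b + 1)) (Γ (b + 1)) (τ (b + 1)) φ g ∧
          ¬ Ev h lam (U b) (Γ b) (τ (b + 1) + eps lam J b) φ g), wgt q J φ :=
          Finset.sum_comm
      _ ≤ ∑ b ∈ range (k + 1), Nat.card G * fl b := by
          apply Finset.sum_le_sum
          intro b hb
          have hbk : b ≤ k := by rw [mem_range] at hb; omega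
          obtain ⟨c1, c2, c3, c4, c5, c6⟩ := hch b hbk
          exact step h hinj q hq J hJ lam h0 hanti b (U b) (U (b + 1)) (Γ b) (Γ (b + 1)) c1 c2
            c3 c4 c5 c6 (τ (b + 1))
      _ = Nat.card G * ∑ b ∈ range (k + 1), fl b := by rw [Finset.mul_sum]
      _ ≤ Nat.card G * (1 / 4) := mul_le_mul_of_nonneg_left (sum_fl_le k) hG.le
  exact le_of_mul_le_mul_left h1 hG

namespace C1

omit [Fintype X] [DecidableEq X] in
theorem prod_bound1 (φ : X → ℕ) (S : Finset X) :
    1 - (∑ x ∈ S, (φ x : ℝ)) / S.card ≤ ∏ x ∈ S, (256 * (1 / 256 : ℝ) ^ φ x) := by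
  rw [Finset.prod_mul_distrib, Finset.prod_const, Finset.prod_pow_eq_pow_sum]
  obtain ⟨s, hs⟩ : ∃ s, s = ∑ x ∈ S, φ x := ⟨_, rfl⟩
  have hcast : (∑ x ∈ S, (φ x : ℝ)) = (s : ℝ) := by rw [hs]; push_cast; rfl
  rw [hcast, ← hs]
  rcases Nat.lt_or_ge S.card s with h | h
  · have h1 : (1 : ℝ) ≤ (s : ℝ) / S.card ∨ S.card = 0 := by
      rcases Nat.eq_zero_or_pos S.card with h0 | h0
      · right; exact h0
      · left
        rw [le_div_iff₀ (by exact_mod_cast h0), one_mul]
        exact_mod_cast h.le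
    rcases h1 with h1 | h1
    · have : (0 : ℝ) ≤ 256 ^ S.card * (1 / 256) ^ s := by positivity
      linarith
    · rw [Finset.card_eq_zero] at h1
      rw [hs, h1] at h
      simp at h
  · have h1 : (1 : ℝ) ≤ 256 ^ S.card * (1 / 256) ^ s := by
      have : (256 : ℝ) ^ S.card = 256 ^ (S.card - s) * 256 ^ s := by
        rw [← pow_add]; congr 1; omega
      rw [this, mul_assoc, ← mul_pow]
      norm_num
      exact one_le_pow₀ (by norm_num)
    have h2 : (0 : ℝ) ≤ (s : ℝ) / S.card := by positivity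
    linarith

theorem exp_bound1 (q : ℝ) (hq : 0 < q) (J : ℕ)
    (hJ2 : 1 / 2 ≤ 2 ^ 47 * 128 ^ J * q) :
    ∑ j ∈ range (J + 1), lv q J j * (1 / 256 : ℝ) ^ j ≤ 2 ^ 49 * q := by
  rw [Finset.sum_range_succ]
  have h1 : ∑ j ∈ range J, lv q J j * (1 / 256 : ℝ) ^ j ≤ 2 ^ 48 * q := by
    have h2 : ∀ j ∈ range J, lv q J j * (1 / 256 : ℝ) ^ j = 2 ^ 47 * q * (1 / (2 : ℝ)) ^ j := by
      intro j hj
      rw [mem_range] at hj
      unfold lv
      rw [if_pos hj]
      have : (128 : ℝ) ^ j * (1 / 256) ^ j = (1 / 2) ^ j := by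
        rw [← mul_pow]; norm_num
      calc 2 ^ 47 * 128 ^ j * q * (1 / 256 : ℝ) ^ j = 2 ^ 47 * q * (128 ^ j * (1 / 256) ^ j) := by
            ring
        _ = _ := by rw [this]
    rw [Finset.sum_congr rfl h2, ← Finset.mul_sum]
    have h3 := sum_geometric_two_le J
    have h4 : (0 : ℝ) ≤ 2 ^ 47 * q := by positivity
    calc 2 ^ 47 * q * ∑ i ∈ range J, (1 / (2 : ℝ)) ^ i ≤ 2 ^ 47 * q * 2 :=
          mul_le_mul_of_nonneg_left h3 h4
      _ = 2 ^ 48 * q := by ring
  have h3 : lv q J J ≤ 1 := by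
    unfold lv
    rw [if_neg (lt_irrefl J)]
    have : 0 ≤ ∑ i ∈ range J, 2 ^ 47 * 128 ^ i * q := by
      apply Finset.sum_nonneg
      intro i _
      positivity
    linarith
  have h4 : (1 / 256 : ℝ) ^ J ≤ 2 ^ 48 * q := by
    have h5 : (1 / 256 : ℝ) ^ J ≤ (1 / 128) ^ J :=
      pow_le_pow_left₀ (by norm_num) (by norm_num) J
    have h6 : (1 / 128 : ℝ) ^ J * 128 ^ J = 1 := by
      rw [← mul_pow]; norm_num
    have h7 : (0 : ℝ) < (1 / 128) ^ J := by positivity
    have h8 : (1 / 128 : ℝ) ^ J * (1 / 2) ≤ (1 / 128) ^ J * (2 ^ 47 * 128 ^ J * q) :=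
      mul_le_mul_of_nonneg_left hJ2 h7.le
    have h9 : (1 / 128 : ℝ) ^ J * (2 ^ 47 * 128 ^ J * q) = 2 ^ 47 * q := by
      calc (1 / 128 : ℝ) ^ J * (2 ^ 47 * 128 ^ J * q) =
            2 ^ 47 * q * ((1 / 128 : ℝ) ^ J * 128 ^ J) := by ring
        _ = _ := by rw [h6]; ring
    have h10 : (2 : ℝ) ^ 48 * q = 2 * (2 ^ 47 * q) := by ring
    linarith
  have h10 : lv q J J * (1 / 256 : ℝ) ^ J ≤ 1 * (1 / 256) ^ J :=
    mul_le_mul_of_nonneg_right h3 (by positivity)
  have h11 : (2 : ℝ) ^ 49 * q = 2 ^ 48 * q + 2 ^ 48 * q := by ring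
  linarith

theorem exp_prod1 (q : ℝ) (J : ℕ) (S : Finset X) :
    ∑ φ ∈ Om X J, wgt q J φ * ∏ x ∈ S, (256 * (1 / 256 : ℝ) ^ φ x) =
      (256 * ∑ j ∈ range (J + 1), lv q J j * (1 / 256 : ℝ) ^ j) ^ S.card := by
  have h0 : ∀ φ : X → ℕ, wgt q J φ * ∏ x ∈ S, (256 * (1 / 256 : ℝ) ^ φ x) =
      ∏ x, (lv q J (φ x) * if x ∈ S then (256 * (1 / 256 : ℝ) ^ φ x) else 1) := by
    intro φ
    unfold wgt
    have h1 : ∏ x, (lv q J (φ x) * if x ∈ S then (256 * (1 / 256 : ℝ) ^ φ x) else 1) =
        (∏ x, lv q J (φ x)) * ∏ x, if x ∈ S then (256 * (1 / 256 : ℝ) ^ φ x) else 1 :=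
      Finset.prod_mul_distrib
    rw [h1, Finset.prod_ite_mem, Finset.univ_inter]
  rw [Finset.sum_congr rfl (fun φ _ => h0 φ)]
  unfold Om
  rw [← Finset.prod_univ_sum (fun _ : X => range (J + 1))
    (fun x j => lv q J j * if x ∈ S then (256 * (1 / 256 : ℝ) ^ j) else 1)]
  have h1 : ∀ x, ∑ j ∈ range (J + 1),
      (lv q J j * if x ∈ S then (256 * (1 / 256 : ℝ) ^ j) else 1)
      = if x ∈ S then (256 * ∑ j ∈ range (J + 1), lv q J j * (1 / 256 : ℝ) ^ j) else 1 := by
    intro x
    split_ifs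
    · rw [Finset.mul_sum]
      apply Finset.sum_congr rfl
      intro j _
      ring
    · simp [sum_lv1]
  rw [Finset.prod_congr rfl (fun x _ => h1 x), Finset.prod_ite_mem]
  simp

omit [Fintype X] [Fintype G] in
theorem sum_smul1 (F : Finset X) (g : G) (f : X → ℝ) :
    ∑ y ∈ g • F, f y = ∑ z ∈ F, f (g • z) := by
  rw [Finset.smul_finset_def, Finset.sum_image]
  intro a _ b _ hab
  exact MulAction.injective g hab

omit [Fintype X] in
theorem double1 (H F : Finset X) (f : X → ℝ) :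
    ∑ y ∈ H, ((univ.filter fun g : G => g • F ⊆ H ∧ y ∈ g • F).card : ℝ) * f y =
      ∑ g ∈ univ.filter (fun g : G => g • F ⊆ H), ∑ z ∈ F, f (g • z) := by
  have h1 : ∀ g ∈ univ.filter (fun g : G => g • F ⊆ H), ∑ z ∈ F, f (g • z) =
      ∑ y ∈ H, if y ∈ g • F then f y else 0 := by
    intro g hg
    rw [mem_filter] at hg
    rw [← sum_smul1, ← Finset.sum_filter]
    congr 1
    ext y
    rw [mem_filter]
    constructor
    · intro hy; exact ⟨hg.2 hy, hy⟩
    · intro hy; exact hy.2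
  rw [Finset.sum_congr rfl h1, Finset.sum_comm]
  apply Finset.sum_congr rfl
  intro y _
  rw [← Finset.sum_filter, Finset.sum_const, nsmul_eq_mul, Finset.filter_filter]

omit [Fintype X] in
/-- A good assignment sees many copies. -/
theorem good_bound1 (H F : Finset X) (hF : F.Nonempty) (φ : X → ℕ) (g0 : G)
    (hgood : ∑ y ∈ H, ((univ.filter fun g : G => g • F ⊆ H ∧ y ∈ g • F).card : ℝ) /
      (F.card * (univ.filter fun g : G => g • F ⊆ H).card) * φ (g0 • y) ≤ 1 / 2) :
    ((univ.filter fun g : G => g • F ⊆ H).card : ℝ) / 2 ≤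
      ∑ g : G, ∏ x ∈ g • F, (256 * (1 / 256 : ℝ) ^ φ x) := by
  obtain ⟨M, hM⟩ : ∃ M : ℝ, M = ((univ.filter fun g : G => g • F ⊆ H).card : ℝ) := ⟨_, rfl⟩
  have hn : (0 : ℝ) < F.card := by exact_mod_cast hF.card_pos
  have hprodnn : ∀ g : G, 0 ≤ ∏ x ∈ g • F, (256 * (1 / 256 : ℝ) ^ φ x) := by
    intro g
    exact Finset.prod_nonneg (fun x _ => by positivity)
  rw [← hM] at hgood ⊢
  have hM0 : 0 ≤ M := by rw [hM]; positivity
  rcases hM0.eq_or_lt with h0 | hMpos
  · rw [← h0, zero_div]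
    exact Finset.sum_nonneg (fun g _ => hprodnn g)
  have h1 : ∑ g ∈ univ.filter (fun g : G => g • F ⊆ H), ∑ z ∈ F, (φ (g0 • g • z) : ℝ) ≤
      M / 2 * F.card := by
    rw [← double1 H F (fun y => (φ (g0 • y) : ℝ))]
    have h2 : ∑ y ∈ H, ((univ.filter fun g : G => g • F ⊆ H ∧ y ∈ g • F).card : ℝ) /
      (F.card * M) * φ (g0 • y) =
      (∑ y ∈ H, ((univ.filter fun g : G => g • F ⊆ H ∧ y ∈ g • F).card : ℝ) * φ (g0 • y)) /
        (F.card * M) := by
      rw [Finset.sum_div]
      apply Finset.sum_congr rfl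
      intro y _
      ring
    rw [h2, div_le_iff₀ (by positivity)] at hgood
    linarith
  have h2 : ∑ g ∈ univ.filter (fun g : G => g • F ⊆ H),
      (1 - (∑ z ∈ F, (φ (g0 • g • z) : ℝ)) / F.card) ≤
      ∑ g ∈ univ.filter (fun g : G => g • F ⊆ H),
        ∏ x ∈ (g0 * g) • F, (256 * (1 / 256 : ℝ) ^ φ x) := by
    apply Finset.sum_le_sum
    intro g _
    have h3 := prod_bound1 φ ((g0 * g) • F)
    rw [sum_smul1 F (g0 * g) (fun x => (φ x : ℝ)), Finset.card_smul_finset] at h3
    refine le_trans (le_of_eq ?_) h3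
    simp only [mul_smul]
  have h3 : ∑ g ∈ univ.filter (fun g : G => g • F ⊆ H),
      (1 - (∑ z ∈ F, (φ (g0 • g • z) : ℝ)) / F.card) =
      M - (∑ g ∈ univ.filter (fun g : G => g • F ⊆ H), ∑ z ∈ F, (φ (g0 • g • z) : ℝ)) /
        F.card := by
    rw [Finset.sum_sub_distrib, Finset.sum_const, nsmul_eq_mul, mul_one, ← hM, Finset.sum_div]
  have h4 : (∑ g ∈ univ.filter (fun g : G => g • F ⊆ H), ∑ z ∈ F, (φ (g0 • g • z) : ℝ)) /
        F.card ≤ M / 2 := by
    rw [div_le_iff₀ hn]
    exact h1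
  have h5 : ∑ g ∈ univ.filter (fun g : G => g • F ⊆ H),
        ∏ x ∈ (g0 * g) • F, (256 * (1 / 256 : ℝ) ^ φ x) ≤
      ∑ g : G, ∏ x ∈ (g0 * g) • F, (256 * (1 / 256 : ℝ) ^ φ x) :=
    Finset.sum_le_sum_of_subset_of_nonneg (Finset.filter_subset _ _)
      (fun g _ _ => hprodnn (g0 * g))
  have h6 : ∑ g : G, ∏ x ∈ (g0 * g) • F, (256 * (1 / 256 : ℝ) ^ φ x) =
      ∑ g : G, ∏ x ∈ g • F, (256 * (1 / 256 : ℝ) ^ φ x) :=
    Fintype.sum_equiv (Equiv.mulLeft g0) _ _ (fun g => rfl)
  linarith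

omit [Fintype X] [Fintype G] in
theorem sorted1 (H : Finset X) (l : X → ℝ) :
    ∃ h : Fin H.card → X, Function.Injective h ∧ univ.image h = H ∧
      ∀ i j, i ≤ j → l (h j) ≤ l (h i) := by
  obtain ⟨e⟩ : Nonempty (Fin H.card ≃ H) := ⟨H.equivFin.symm⟩
  obtain ⟨f, hf⟩ : ∃ f : Fin H.card → ℝ, f = fun i => - l (e i) := ⟨_, rfl⟩
  have hm := Tuple.monotone_sort f
  refine ⟨fun i => (e (Tuple.sort f i) : X), ?_, ?_, ?_⟩
  · intro a b hab
    have h1 : e (Tuple.sort f a) = e (Tuple.sort f b) := Subtype.ext hab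
    exact (Tuple.sort f).injective (e.injective h1)
  · ext y
    simp only [mem_image, mem_univ, true_and]
    constructor
    · rintro ⟨i, rfl⟩
      exact (e (Tuple.sort f i)).2
    · intro hy
      refine ⟨(Tuple.sort f).symm (e.symm ⟨y, hy⟩), ?_⟩
      simp
  · intro i j hij
    have h1 := hm hij
    rw [hf] at h1
    simp only [Function.comp_apply] at h1
    rw [← hf] at h1
    linarith

/-- The levelling computation: if the bad assignments have weight at most `1/4`, the number of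
copies is bounded. -/
theorem level1 (H F : Finset X) (hF : F.Nonempty) (q : ℝ) (hq : 0 < q) (J : ℕ)
    (hJ : ∑ i ∈ range J, 2 ^ 47 * 128 ^ i * q ≤ 1) (hJ2 : 1 / 2 ≤ 2 ^ 47 * 128 ^ J * q)
    (B : (X → ℕ) → Prop) [DecidablePred B]
    (hB : ∀ φ : X → ℕ, ¬ B φ → ((univ.filter fun g : G => g • F ⊆ H).card : ℝ) / 2 ≤
      ∑ g : G, ∏ x ∈ g • F, (256 * (1 / 256 : ℝ) ^ φ x))
    (hbad : ∑ φ ∈ (Om X J).filter B, wgt q J φ ≤ 1 / 4) :
    ((univ.filter fun g : G => g • F ⊆ H).card : ℝ) ≤
      Fintype.card G * (2 ^ 59 * q) ^ F.card := by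
  obtain ⟨M, hM⟩ : ∃ M : ℝ, M = ((univ.filter fun g : G => g • F ⊆ H).card : ℝ) := ⟨_, rfl⟩
  rw [← hM] at hB ⊢
  have hM0 : 0 ≤ M := by rw [hM]; positivity
  have hw := wgt_nonneg1 (X := X) q hq.le J hJ
  have hgood : 3 / 4 ≤ ∑ φ ∈ (Om X J).filter (fun φ => ¬ B φ), wgt q J φ := by
    have h1 := Finset.sum_filter_add_sum_filter_not (Om X J) B (fun φ => wgt q J φ)
    rw [wgt_total1] at h1
    linarith
  have hprodnn : ∀ (φ : X → ℕ) (g : G), 0 ≤ ∏ x ∈ g • F, (256 * (1 / 256 : ℝ) ^ φ x) := by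
    intro φ g
    exact Finset.prod_nonneg (fun x _ => by positivity)
  have hE1 : 3 / 4 * (M / 2) ≤ ∑ φ ∈ Om X J, wgt q J φ *
      ∑ g : G, ∏ x ∈ g • F, (256 * (1 / 256 : ℝ) ^ φ x) := by
    calc 3 / 4 * (M / 2) ≤
          (∑ φ ∈ (Om X J).filter (fun φ => ¬ B φ), wgt q J φ) * (M / 2) :=
          mul_le_mul_of_nonneg_right hgood (by positivity)
      _ ≤ ∑ φ ∈ (Om X J).filter (fun φ => ¬ B φ), wgt q J φ *
          ∑ g : G, ∏ x ∈ g • F, (256 * (1 / 256 : ℝ) ^ φ x) := by
          rw [Finset.sum_mul]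
          apply Finset.sum_le_sum
          intro φ hφ
          rw [mem_filter] at hφ
          exact mul_le_mul_of_nonneg_left (hB φ hφ.2) (hw φ)
      _ ≤ _ := by
          apply Finset.sum_le_sum_of_subset_of_nonneg (Finset.filter_subset _ _)
          intro φ _ _
          exact mul_nonneg (hw φ) (Finset.sum_nonneg (fun g _ => hprodnn φ g))
  have hE2 : ∑ φ ∈ Om X J, wgt q J φ *
      ∑ g : G, ∏ x ∈ g • F, (256 * (1 / 256 : ℝ) ^ φ x) =
      Fintype.card G * (256 * ∑ j ∈ range (J + 1), lv q J j * (1 / 256 : ℝ) ^ j) ^ F.card := by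
    have h1 : ∑ φ ∈ Om X J, wgt q J φ *
      ∑ g : G, ∏ x ∈ g • F, (256 * (1 / 256 : ℝ) ^ φ x) =
      ∑ g : G, ∑ φ ∈ Om X J, wgt q J φ * ∏ x ∈ g • F, (256 * (1 / 256 : ℝ) ^ φ x) := by
      rw [Finset.sum_comm]
      apply Finset.sum_congr rfl
      intro φ _
      rw [Finset.mul_sum]
    rw [h1]
    have h2 : ∀ g : G, ∑ φ ∈ Om X J, wgt q J φ *
        ∏ x ∈ g • F, (256 * (1 / 256 : ℝ) ^ φ x) =
        (256 * ∑ j ∈ range (J + 1), lv q J j * (1 / 256 : ℝ) ^ j) ^ F.card := by
      intro g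
      rw [exp_prod1, Finset.card_smul_finset]
    rw [Finset.sum_congr rfl (fun g _ => h2 g), Finset.sum_const, nsmul_eq_mul,
      Finset.card_univ]
  have hnn : 0 ≤ ∑ j ∈ range (J + 1), lv q J j * (1 / 256 : ℝ) ^ j := by
    apply Finset.sum_nonneg
    intro j _
    exact mul_nonneg (lv_nonneg1 q hq.le J hJ j) (by positivity)
  have hE3 : (256 * ∑ j ∈ range (J + 1), lv q J j * (1 / 256 : ℝ) ^ j) ^ F.card ≤
      (2 ^ 57 * q) ^ F.card := by
    apply pow_le_pow_left₀ (by positivity)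
    have h1 := exp_bound1 q hq J hJ2
    have h2 : (2 : ℝ) ^ 57 * q = 256 * (2 ^ 49 * q) := by ring
    rw [h2]
    exact mul_le_mul_of_nonneg_left h1 (by norm_num)
  have hcG : (0 : ℝ) ≤ Fintype.card G := by positivity
  have hE4 : M ≤ 4 * (Fintype.card G * (2 ^ 57 * q) ^ F.card) := by
    have h1 : (Fintype.card G : ℝ) *
        (256 * ∑ j ∈ range (J + 1), lv q J j * (1 / 256 : ℝ) ^ j) ^ F.card ≤
        Fintype.card G * (2 ^ 57 * q) ^ F.card := mul_le_mul_of_nonneg_left hE3 hcG
    have h2 : (0 : ℝ) ≤ Fintype.card G * (2 ^ 57 * q) ^ F.card := by positivity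
    have h3 := hE1.trans (hE2.le.trans h1)
    revert h2 h3
    generalize (Fintype.card G : ℝ) * (2 ^ 57 * q) ^ F.card = W
    intro h2 h3
    linarith
  have hE5 : (4 : ℝ) * (2 ^ 57 * q) ^ F.card ≤ (2 ^ 59 * q) ^ F.card := by
    have h1 : (2 : ℝ) ^ 59 * q = 4 * (2 ^ 57 * q) := by ring
    have h2 : (4 : ℝ) ≤ 4 ^ F.card := by
      calc (4 : ℝ) = 4 ^ 1 := by norm_num
        _ ≤ 4 ^ F.card := pow_le_pow_right₀ (by norm_num) hF.card_pos
    rw [h1, mul_pow 4]
    exact mul_le_mul_of_nonneg_right h2 (by positivity)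
  calc M ≤ 4 * (Fintype.card G * (2 ^ 57 * q) ^ F.card) := hE4
    _ = Fintype.card G * (4 * (2 ^ 57 * q) ^ F.card) := by ring
    _ ≤ _ := mul_le_mul_of_nonneg_left hE5 hcG

omit [Fintype X] in
theorem stab_card1 (A : Finset X) :
    Nat.card (MulAction.stabilizer G A) = (univ.filter fun g : G => g • A = A).card := by
  exact Nat.subtype_card _ (by simp [MulAction.mem_stabilizer_iff])

omit [Fintype X] in
theorem sum_l1 (H F : Finset X) :
    ∑ y ∈ H, ((univ.filter fun g : G => g • F ⊆ H ∧ y ∈ g • F).card : ℝ) /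
      (F.card * (univ.filter fun g : G => g • F ⊆ H).card) ≤ 1 := by
  have h1 := double1 (G := G) H F (fun _ => (1 : ℝ))
  simp only [mul_one, Finset.sum_const, nsmul_eq_mul] at h1
  rw [← Finset.sum_div, h1, mul_comm]
  exact div_self_le_one _

end C1

/-- M1, from good_prob: the spread constant is bounded. -/
theorem spread_const (H : Finset X) (q : ℝ) (hq : 0 < q)
    (star : ∀ F ⊆ H, F.Nonempty → ((univ.filter fun g : G => g • F = F).card : ℝ) ≤
      Fintype.card G * q ^ F.card) (F : Finset X) :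
    ((univ.filter fun g : G => g • F ⊆ H).card : ℝ) ≤
      Fintype.card G * (2 ^ 59 * q) ^ F.card := by
  rcases F.eq_empty_or_nonempty with hF | hF
  · rw [hF, Finset.card_empty, pow_zero, mul_one]
    exact_mod_cast Finset.card_filter_le _ _
  obtain ⟨J, hJ, hJ2⟩ := exists_J q hq
  obtain ⟨l, hl⟩ : ∃ l : X → ℝ, ∀ y, l y =
      ((univ.filter fun g : G => g • F ⊆ H ∧ y ∈ g • F).card : ℝ) /
        (F.card * (univ.filter fun g : G => g • F ⊆ H).card) := ⟨_, fun _ => rfl⟩
  have hl0 : ∀ y, 0 ≤ l y := by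
    intro y
    rw [hl]
    positivity
  obtain ⟨h, hinj, him, hmono⟩ := sorted1 H l
  obtain ⟨lam, hlam⟩ : ∃ lam : ℕ → ℝ, ∀ i, lam i =
      if hi : i < H.card then l (h ⟨i, hi⟩) else 0 := ⟨_, fun _ => rfl⟩
  have hlamF : ∀ i : Fin H.card, lam i = l (h i) := by
    intro i
    rw [hlam, dif_pos i.2]
  have hlam0 : ∀ i, 0 ≤ lam i := by
    intro i
    rw [hlam]
    split_ifs
    · exact hl0 _
    · exact le_rfl
  have hlamN : ∀ i, H.card ≤ i → lam i = 0 := by
    intro i hi
    rw [hlam, dif_neg (by omega)]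
  have hanti : Antitone lam := by
    intro i j hij
    by_cases hj : j < H.card
    · have hi : i < H.card := by omega
      rw [hlam i, hlam j, dif_pos hi, dif_pos hj]
      exact hmono ⟨i, hi⟩ ⟨j, hj⟩ hij
    · rw [hlamN j (by omega)]
      exact hlam0 i
  have hsumf : ∀ f : X → ℝ, ∑ i : Fin H.card, lam i * f (h i) = ∑ y ∈ H, l y * f y := by
    intro f
    conv_rhs => rw [← him]
    rw [Finset.sum_image (fun a _ b _ hab => hinj hab)]
    exact Finset.sum_congr rfl (fun i _ => by rw [hlamF])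
  have hsum : ∑ i ∈ range H.card, lam i ≤ 1 := by
    rw [Finset.sum_range]
    have h1 := hsumf (fun _ => 1)
    simp only [mul_one] at h1
    rw [h1, Finset.sum_congr rfl (fun y _ => hl y)]
    exact sum_l1 H F
  have star' : ∀ Q : Finset (Fin H.card),
      (Nat.card (MulAction.stabilizer G (Q.image h)) : ℝ) ≤ Nat.card G * q ^ Q.card := by
    intro Q
    rcases Q.eq_empty_or_nonempty with hQ | hQ
    · rw [hQ, Finset.card_empty, pow_zero, mul_one]
      exact_mod_cast Subgroup.card_le_card_group _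
    · rw [stab_card1, Nat.card_eq_fintype_card]
      have h1 : Q.image h ⊆ H :=
        (Finset.image_subset_image (Finset.subset_univ Q)).trans him.subset
      have h2 := star (Q.image h) h1 (hQ.image h)
      rw [Finset.card_image_of_injective Q hinj] at h2
      exact h2
  have hg := good_prob (G := G) h hinj q hq star' J hJ lam hlam0 hanti hlamN hsum
  refine level1 H F hF q hq J hJ hJ2 _ ?_ hg
  intro φ hφ
  rw [not_not] at hφ
  obtain ⟨g0, hg0⟩ := hφ
  apply good_bound1 H F hF φ g0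
  rw [hsumf (fun y => (φ (g0 • y) : ℝ))] at hg0
  refine le_trans (le_of_eq ?_) hg0
  exact Finset.sum_congr rfl (fun y _ => by rw [hl])

end Vale.Agent.P064.Ctx
end
end

section

section

namespace Vale.Agent.P064

open SimpleGraph MeasureTheory Finset

/-- The pairs of distinct elements of `Fin n`. -/
abbrev Pair (n : ℕ) : Type := {e : Sym2 (Fin n) // ¬ e.IsDiag}

theorem card_Pair (n : ℕ) : Fintype.card (Pair n) = n.choose 2 := by
  have := Sym2.card_subtype_not_diag (α := Fin n)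
  rw [Fintype.card_fin] at this
  rw [← this]

theorem Pair_map {n : ℕ} (g : Equiv.Perm (Fin n)) (e : Pair n) : ¬ (e.1.map g).IsDiag := by
  obtain ⟨e, he⟩ := e
  induction e with
  | _ a b => simpa using he

instance (n : ℕ) : MulAction (Equiv.Perm (Fin n)) (Pair n) where
  smul g e := ⟨e.1.map g, Pair_map g e⟩
  one_smul e := by
    apply Subtype.ext
    exact congrFun Sym2.map_id e.1
  mul_smul g h e := by
    apply Subtype.ext
    change Sym2.map (g * h) e.1 = Sym2.map g (Sym2.map h e.1)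
    rw [Sym2.map_map]
    rfl

theorem smul_val {n : ℕ} (g : Equiv.Perm (Fin n)) (e : Pair n) : (g • e).1 = e.1.map g := rfl

/-- The pair `{a, b}`. -/
def mkPair {n : ℕ} (a b : Fin n) (h : a ≠ b) : Pair n := ⟨s(a, b), by simpa using h⟩

/-- The graph on `Fin n` whose edges are the pairs in `W`. -/
def toG {n : ℕ} (W : Finset (Pair n)) : SimpleGraph (Fin n) where
  Adj a b := ∃ h : a ≠ b, mkPair a b h ∈ W
  symm := by
    constructor
    rintro a b ⟨h, hW⟩
    refine ⟨h.symm, ?_⟩
    have : mkPair b a h.symm = mkPair a b h := Subtype.ext Sym2.eq_swap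
    rwa [this]
  loopless := by
    constructor
    rintro a ⟨h, _⟩
    exact h rfl

theorem toG_edge {n : ℕ} (W : Finset (Pair n)) (e : Pair n) : e.1 ∈ (toG W).edgeSet ↔ e ∈ W := by
  obtain ⟨e, he⟩ := e
  induction e with
  | _ a b =>
    have hab : a ≠ b := by simpa using he
    change (∃ h : a ≠ b, mkPair a b h ∈ W) ↔ _
    constructor
    · rintro ⟨_, h⟩
      exact h
    · intro h
      exact ⟨hab, h⟩

/-- The set of edges of a graph. -/
noncomputable def ofG {n : ℕ} (G : SimpleGraph (Fin n)) : Finset (Pair n) := by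
  classical exact univ.filter (fun e => e.1 ∈ G.edgeSet)

theorem mem_ofG {n : ℕ} (G : SimpleGraph (Fin n)) (e : Pair n) : e ∈ ofG G ↔ e.1 ∈ G.edgeSet := by
  classical
  unfold ofG
  simp

theorem ofG_toG {n : ℕ} (W : Finset (Pair n)) : ofG (toG W) = W := by
  ext e
  rw [mem_ofG, toG_edge]

theorem toG_ofG {n : ℕ} (G : SimpleGraph (Fin n)) : toG (ofG G) = G := by
  ext a b
  change (∃ h : a ≠ b, mkPair a b h ∈ ofG G) ↔ _
  constructor
  · rintro ⟨h, h'⟩
    rw [mem_ofG] at h'
    exact h'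
  · intro h
    refine ⟨h.ne, ?_⟩
    rw [mem_ofG]
    exact h

/-- Graphs on `Fin n` are sets of pairs. -/
noncomputable def gEquiv (n : ℕ) : Finset (Pair n) ≃ SimpleGraph (Fin n) where
  toFun := toG
  invFun := ofG
  left_inv := ofG_toG
  right_inv := toG_ofG

theorem ncard_toG {n : ℕ} (W : Finset (Pair n)) : (toG W).edgeSet.ncard = W.card := by
  have : (toG W).edgeSet = Subtype.val '' (W : Set (Pair n)) := by
    ext e
    constructor
    · intro he
      have hd : ¬ e.IsDiag := (toG W).not_isDiag_of_mem_edgeSet he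
      exact ⟨⟨e, hd⟩, mem_coe.2 ((toG_edge W ⟨e, hd⟩).1 he), rfl⟩
    · rintro ⟨e, he, rfl⟩
      exact (toG_edge W e).2 (mem_coe.1 he)
  rw [this, Set.ncard_image_of_injective _ Subtype.val_injective, Set.ncard_coe_finset]

theorem real_singleton {n : ℕ} (p : unitInterval) (W : Finset (Pair n)) :
    (binomialRandom (Fin n) p).real {toG W} = wtS (p : ℝ) univ W := by
  have h1 : wtS (p : ℝ) univ W = (p : ℝ) ^ W.card * (1 - (p : ℝ)) ^ (n.choose 2 - W.card) := by
    unfold wtS
    rw [Finset.prod_ite]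
    simp only [Finset.prod_const]
    congr 2
    · congr 1
      ext; simp
    · have : (univ.filter (fun x => ¬ x ∈ W)) = Wᶜ := by ext; simp
      rw [this, Finset.card_compl, card_Pair]
  rw [h1, Measure.real, binomialRandom_singleton, ncard_toG]
  simp [unitInterval.symm]


instance (n : ℕ) : MeasurableSingletonClass (SimpleGraph (Fin n)) where
  measurableSet_singleton G := by
    have h : ({G} : Set (SimpleGraph (Fin n))) = edgeSet ⁻¹' {G.edgeSet} := by
      ext K
      simp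
    rw [h]
    apply measurable_edgeSet
    exact measurableSet_singleton _

theorem integral_eq_ES {n : ℕ} (p : unitInterval) (f : SimpleGraph (Fin n) → ℝ) :
    ∫ G, f G ∂(binomialRandom (Fin n) p) = ES (p : ℝ) univ (fun W : Finset (Pair n) => f (toG W)) := by
  rw [MeasureTheory.integral_fintype Integrable.of_finite]
  unfold ES
  rw [Finset.powerset_univ, ← (gEquiv n).sum_comp]
  apply Finset.sum_congr rfl
  intro W _
  change (binomialRandom (Fin n) p).real {toG W} • f (toG W) = _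
  rw [real_singleton, smul_eq_mul]

open Classical in
theorem probCopy_eq {W : Type*} (n : ℕ) (H : SimpleGraph W) (p : unitInterval) :
    probCopy n H p =
      ES (p : ℝ) univ (fun Z : Finset (Pair n) => if 0 < (toG Z).copyCount H then 1 else 0) := by
  have h := integral_eq_ES (n := n) p (fun G => if 0 < G.copyCount H then (1 : ℝ) else 0)
  rw [← h]
  unfold probCopy
  have hm : MeasurableSet {G : SimpleGraph (Fin n) | 0 < G.copyCount H} :=
    Set.Finite.measurableSet (Set.toFinite _)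
  rw [← MeasureTheory.integral_indicator_one hm]
  apply integral_congr_ae
  filter_upwards with G
  simp [Set.indicator_apply]

theorem expCopy_eq {W : Type*} (n : ℕ) (F : SimpleGraph W) (p : unitInterval) :
    expCopy n F p = ES (p : ℝ) univ (fun Z : Finset (Pair n) => ((toG Z).copyCount F : ℝ)) :=
  integral_eq_ES p _

theorem toSubgraph_adj {V U : Type*} {A : SimpleGraph V} {B : SimpleGraph U} (f : Copy A B)
    (a b : V) : f.toSubgraph.Adj (f a) (f b) ↔ A.Adj a b := by
  change (Subgraph.map f.toHom ⊤).Adj (f a) (f b) ↔ A.Adj a b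
  rw [Subgraph.map_adj, Relation.map_apply]
  constructor
  · rintro ⟨c, d, h, hc, hd⟩
    have hc' := f.injective hc
    have hd' := f.injective hd
    subst hc' hd'
    exact h
  · intro h
    exact ⟨a, b, h, rfl, rfl⟩

theorem mem_toSubgraph {V U : Type*} {A : SimpleGraph V} {B : SimpleGraph U} (f : Copy A B)
    (x : U) : x ∈ f.toSubgraph.verts ↔ ∃ a, f a = x := by
  change x ∈ (Subgraph.map f.toHom ⊤).verts ↔ _
  rw [Subgraph.map_verts]
  simp

theorem fiber_card {V U : Type*} [Fintype V] [Fintype U] (A : SimpleGraph V) (B : SimpleGraph U)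
    (f₀ : Copy A B) :
    Nat.card {f : Copy A B // f.toSubgraph = f₀.toSubgraph} = Nat.card (A ≃g A) := by
  symm
  apply Nat.card_congr
  refine Equiv.ofBijective (fun α : A ≃g A => ⟨f₀.comp α.toCopy, ?_⟩) ⟨?_, ?_⟩
  · apply Subgraph.ext
    · ext x
      rw [mem_toSubgraph, mem_toSubgraph]
      constructor
      · rintro ⟨a, rfl⟩
        exact ⟨α a, rfl⟩
      · rintro ⟨a, rfl⟩
        refine ⟨α.symm a, ?_⟩
        change f₀ (α (α.symm a)) = f₀ a
        rw [RelIso.apply_symm_apply]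
    · ext x y
      have hx : ∀ (f : Copy A B), f.toSubgraph.Adj x y ↔ ∃ a b, A.Adj a b ∧ f a = x ∧ f b = y := by
        intro f
        change (Subgraph.map f.toHom ⊤).Adj x y ↔ _
        rw [Subgraph.map_adj, Relation.map_apply]
        rfl
      rw [hx, hx]
      constructor
      · rintro ⟨a, b, h, rfl, rfl⟩
        exact ⟨α a, α b, α.map_rel_iff.2 h, rfl, rfl⟩
      · rintro ⟨a, b, h, rfl, rfl⟩
        refine ⟨α.symm a, α.symm b, α.symm.map_rel_iff.2 h, ?_, ?_⟩
        · change f₀ (α (α.symm a)) = f₀ a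
          rw [RelIso.apply_symm_apply]
        · change f₀ (α (α.symm b)) = f₀ b
          rw [RelIso.apply_symm_apply]
  · intro α β h
    have h1 := congrArg Subtype.val h
    ext a
    have h2 : f₀ (α a) = f₀ (β a) := DFunLike.congr_fun h1 a
    exact f₀.injective h2
  · rintro ⟨f, hf⟩
    have hr : ∀ a, ∃ b, f₀ b = f a := by
      intro a
      rw [← mem_toSubgraph, ← hf, mem_toSubgraph]
      exact ⟨a, rfl⟩
    choose g hg using hr
    have hinj : Function.Injective g := by
      intro a b hab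
      apply f.injective
      change f a = f b
      rw [← hg a, ← hg b, hab]
    have hbij : Function.Bijective g := Finite.injective_iff_bijective.1 hinj
    refine ⟨⟨Equiv.ofBijective g hbij, ?_⟩, ?_⟩
    · intro a b
      change A.Adj (g a) (g b) ↔ A.Adj a b
      rw [← toSubgraph_adj f₀, ← toSubgraph_adj f, hg, hg, hf]
    · apply Subtype.ext
      ext a
      exact hg a

theorem labelled_eq {V U : Type*} [Fintype V] [Fintype U] (A : SimpleGraph V)
    (B : SimpleGraph U) :
    B.labelledCopyCount A = B.copyCount A * Nat.card (A ≃g A) := by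
  classical
  rw [copyCount_eq_card_image_copyToSubgraph, labelledCopyCount]
  rw [← Finset.card_univ]
  rw [Finset.card_eq_sum_card_image (fun f : Copy A B => f.toSubgraph)]
  rw [← smul_eq_mul, ← Finset.sum_const]
  apply Finset.sum_congr rfl
  intro S hS
  obtain ⟨f₀, _, rfl⟩ := Finset.mem_image.1 hS
  rw [← fiber_card A B f₀, Nat.card_eq_fintype_card, Fintype.card_subtype]


theorem ES_congrB {X : Type*} [DecidableEq X] (p : ℝ) (S : Finset X) {f g : Finset X → ℝ}
    (h : ∀ W, W ⊆ S → f W = g W) : ES p S f = ES p S g := by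
  unfold ES
  apply Finset.sum_congr rfl
  intro W hW
  rw [h W (mem_powerset.1 hW)]

/-- The probability that a fixed set `T` lies in the `p`-random subset of `S`. -/
theorem ES_subsetB {X : Type*} [DecidableEq X] (p : ℝ) (S : Finset X) : ∀ T : Finset X, T ⊆ S →
    ES p S (fun Z => if T ⊆ Z then (1 : ℝ) else 0) = p ^ T.card := by
  induction S using Finset.induction_on with
  | empty =>
    intro T hT
    rw [Finset.subset_empty.1 hT]
    simp [ES, wtS]
  | insert a S ha ih =>
    intro T hT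
    rw [ES_insert p ha]
    by_cases haT : a ∈ T
    · have h1 : ES p S (fun Z => if T ⊆ Z then (1 : ℝ) else 0) = ES p S (fun _ => 0) := by
        apply ES_congrB
        intro W hW
        rw [if_neg]
        intro h
        exact ha (hW (h haT))
      have h2 : ES p S (fun Z => if T ⊆ insert a Z then (1 : ℝ) else 0)
          = ES p S (fun Z => if T.erase a ⊆ Z then (1 : ℝ) else 0) := by
        apply ES_congrB
        intro W hW
        simp only [Finset.subset_insert_iff]
      rw [h1, h2, ES_const, ih (T.erase a) (by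
        intro x hx
        rw [mem_erase] at hx
        exact (mem_insert.1 (hT hx.2)).resolve_left hx.1)]
      rw [mul_zero, zero_add, ← pow_succ', Finset.card_erase_add_one haT]
    · have hTS : T ⊆ S := by
        intro x hx
        refine (mem_insert.1 (hT hx)).resolve_left ?_
        rintro rfl
        exact haT hx
      have h2 : ES p S (fun Z => if T ⊆ insert a Z then (1 : ℝ) else 0)
          = ES p S (fun Z => if T ⊆ Z then (1 : ℝ) else 0) := by
        apply ES_congrB
        intro W hW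
        simp only [Finset.subset_insert_iff, Finset.erase_eq_of_notMem haT]
      rw [h2, ih T hTS]
      ring

theorem ES_sumB {X ι : Type*} [DecidableEq X] (p : ℝ) (S : Finset X) (I : Finset ι)
    (f : ι → Finset X → ℝ) : ES p S (fun W => ∑ i ∈ I, f i W) = ∑ i ∈ I, ES p S (f i) := by
  unfold ES
  rw [Finset.sum_comm]
  apply Finset.sum_congr rfl
  intro W _
  rw [Finset.mul_sum]

/-- Edges of the image of the graph `A` under `f`. -/
noncomputable def img {V : Type*} {n : ℕ} (A : SimpleGraph V) (f : V ↪ Fin n) : Finset (Pair n) :=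
  ofG (A.map f)

theorem mem_img {V : Type*} {n : ℕ} (A : SimpleGraph V) (f : V ↪ Fin n) (e : Pair n) :
    e ∈ img A f ↔ ∃ a b, A.Adj a b ∧ s(f a, f b) = e.1 := by
  unfold img
  rw [mem_ofG, edgeSet_map]
  constructor
  · rintro ⟨d, hd, h⟩
    induction d with
    | _ a b =>
      exact ⟨a, b, hd, by rw [← h]; rfl⟩
  · rintro ⟨a, b, h, he⟩
    exact ⟨s(a, b), h, by rw [← he]; rfl⟩

theorem img_subset {V : Type*} {n : ℕ} (A : SimpleGraph V) (f : V ↪ Fin n) (Z : Finset (Pair n)) :
    img A f ⊆ Z ↔ ∀ a b, A.Adj a b → (toG Z).Adj (f a) (f b) := by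
  constructor
  · intro h a b hab
    have hne : f a ≠ f b := fun h' => hab.ne (f.injective h')
    exact ⟨hne, h ((mem_img A f _).2 ⟨a, b, hab, rfl⟩)⟩
  · intro h e he
    obtain ⟨a, b, hab, hs⟩ := (mem_img A f e).1 he
    obtain ⟨hne, hz⟩ := h a b hab
    have : e = mkPair (f a) (f b) hne := Subtype.ext hs.symm
    rwa [this]

theorem card_img {V : Type*} {n : ℕ} (A : SimpleGraph V) (f : V ↪ Fin n) :
    (img A f).card = A.edgeSet.ncard := by
  have h := ncard_toG (img A f)
  rw [← h]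
  unfold img
  rw [toG_ofG, edgeSet_map, Set.ncard_image_of_injective _ f.sym2Map.injective]

/-- Copies of `A` in `toG Z` are the embeddings whose image lies in `Z`. -/
def copyEquiv {V : Type*} {n : ℕ} (A : SimpleGraph V) (Z : Finset (Pair n)) :
    Copy A (toG Z) ≃ {f : V ↪ Fin n // img A f ⊆ Z} where
  toFun f := ⟨f.toEmbedding, (img_subset A _ Z).2 (fun _ _ h => f.toHom.map_adj h)⟩
  invFun f := ⟨⟨f.1, fun {a b} h => (img_subset A f.1 Z).1 f.2 a b h⟩, f.1.injective⟩
  left_inv _ := rfl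
  right_inv _ := rfl

open Classical in
theorem labelled_toG {V : Type*} [Fintype V] {n : ℕ} (A : SimpleGraph V) (Z : Finset (Pair n)) :
    ((toG Z).labelledCopyCount A : ℝ) = ∑ f : V ↪ Fin n, if img A f ⊆ Z then 1 else 0 := by
  have h : (toG Z).labelledCopyCount A = Nat.card (Copy A (toG Z)) := by
    unfold labelledCopyCount
    exact Fintype.card_eq_nat_card
  rw [h, Nat.card_congr (copyEquiv A Z), Nat.card_eq_fintype_card, Fintype.card_subtype,
    Finset.card_filter]
  push_cast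
  rfl

/-- Expected number of copies times the number of automorphisms. -/
theorem expCopy_mul {V : Type*} [Fintype V] (n : ℕ) (A : SimpleGraph V) (p : unitInterval) :
    expCopy n A p * Nat.card (A ≃g A) =
      Fintype.card (V ↪ Fin n) * (p : ℝ) ^ A.edgeSet.ncard := by
  classical
  rw [expCopy_eq, mul_comm, ← ES_mul]
  have h : ∀ Z : Finset (Pair n), (Nat.card (A ≃g A) : ℝ) * ((toG Z).copyCount A : ℝ)
      = ∑ f : V ↪ Fin n, if img A f ⊆ Z then (1 : ℝ) else 0 := by
    intro Z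
    rw [← labelled_toG, labelled_eq]
    push_cast
    ring
  simp only [h]
  rw [ES_sumB]
  have h2 : ∀ f : V ↪ Fin n, ES (p : ℝ) univ (fun Z => if img A f ⊆ Z then (1 : ℝ) else 0)
      = (p : ℝ) ^ A.edgeSet.ncard := by
    intro f
    rw [ES_subsetB _ _ _ (subset_univ _), card_img]
  simp only [h2, Finset.sum_const, Finset.card_univ, nsmul_eq_mul]

open scoped Pointwise

theorem smul_img {V : Type*} {n : ℕ} (A : SimpleGraph V) (j : V ↪ Fin n)
    (g : Equiv.Perm (Fin n)) : g • img A j = img A (j.trans g.toEmbedding) := by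
  ext e
  rw [Finset.mem_smul_finset, mem_img]
  constructor
  · rintro ⟨d, hd, rfl⟩
    obtain ⟨a, b, hab, hs⟩ := (mem_img A j d).1 hd
    refine ⟨a, b, hab, ?_⟩
    rw [smul_val, ← hs]
    rfl
  · rintro ⟨a, b, hab, hs⟩
    refine ⟨mkPair (j a) (j b) (fun h => hab.ne (j.injective h)), (mem_img A j _).2
      ⟨a, b, hab, rfl⟩, ?_⟩
    apply Subtype.ext
    rw [← hs]
    rfl

/-- The number of permutations fixing every point of the image of `j`. -/
noncomputable def fixc {V : Type*} {n : ℕ} (j : V ↪ Fin n) : ℕ := by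
  classical exact (univ.filter (fun g : Equiv.Perm (Fin n) => ∀ a, g (j a) = j a)).card

theorem fixc_pos {V : Type*} {n : ℕ} (j : V ↪ Fin n) : 0 < fixc j := by
  classical
  unfold fixc
  rw [Finset.card_pos]
  exact ⟨1, by simp⟩

open Classical in
theorem card_ext {V : Type*} [Fintype V] {n : ℕ} (j f : V ↪ Fin n) :
    (univ.filter (fun g : Equiv.Perm (Fin n) => ∀ a, g (j a) = f a)).card = fixc j := by
  obtain ⟨σ, hσ⟩ := Equiv.Perm.exists_extending_pair j f j.injective f.injective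
  unfold fixc
  refine Finset.card_nbij' (fun g => σ⁻¹ * g) (fun g => σ * g) ?_ ?_ ?_ ?_
  · intro g hg
    simp only [coe_filter, mem_univ, true_and, Set.mem_ofPred_eq] at hg ⊢
    intro a
    rw [Equiv.Perm.mul_apply, hg a, ← hσ a]
    simp
  · intro g hg
    simp only [coe_filter, mem_univ, true_and, Set.mem_ofPred_eq] at hg ⊢
    intro a
    rw [Equiv.Perm.mul_apply, hg a, hσ a]
  · intro g _
    simp
  · intro g _
    simp

open Classical in
theorem count_perm {V : Type*} [Fintype V] {n : ℕ} (A : SimpleGraph V) (j : V ↪ Fin n)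
    (Z : Finset (Pair n)) :
    (univ.filter (fun g : Equiv.Perm (Fin n) => g • img A j ⊆ Z)).card
      = fixc j * (toG Z).labelledCopyCount A := by
  have h1 : (((univ.filter (fun g : Equiv.Perm (Fin n) => g • img A j ⊆ Z)).card : ℕ) : ℝ)
      = fixc j * ((toG Z).labelledCopyCount A : ℝ) := by
    rw [labelled_toG, Finset.mul_sum]
    rw [Finset.card_eq_sum_card_fiberwise (f := fun g : Equiv.Perm (Fin n) =>
      j.trans g.toEmbedding) (t := univ) (fun _ _ => mem_coe.2 (mem_univ _))]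
    push_cast
    apply Finset.sum_congr rfl
    intro f _
    rw [Finset.filter_filter]
    split_ifs with h
    · rw [mul_one, ← card_ext j f]
      congr 2
      ext g
      simp only [mem_filter, mem_univ, true_and]
      constructor
      · rintro ⟨_, hg⟩ a
        rw [← hg]
        rfl
      · intro hg
        have : j.trans g.toEmbedding = f := by
          ext a
          exact congrArg Fin.val (hg a)
        exact ⟨by rw [smul_img, this]; exact h, this⟩
    · rw [mul_zero, Nat.cast_eq_zero, Finset.card_eq_zero, Finset.filter_eq_empty_iff]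
      rintro g _ ⟨h1, h2⟩
      rw [smul_img, h2] at h1
      exact h h1
  exact_mod_cast h1

theorem card_perm {V : Type*} [Fintype V] {n : ℕ} (j : V ↪ Fin n) :
    Fintype.card (Equiv.Perm (Fin n)) = fixc j * Fintype.card (V ↪ Fin n) := by
  classical
  have h := count_perm (⊥ : SimpleGraph V) j univ
  have h2 := labelled_toG (⊥ : SimpleGraph V) (univ : Finset (Pair n))
  simp only [subset_univ, if_true, Finset.sum_const, Finset.card_univ, nsmul_eq_mul, mul_one,
    Finset.filter_true] at h h2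
  rw [h]
  congr 1
  exact_mod_cast h2

theorem adj_toSubgraph {V U : Type*} {A : SimpleGraph V} {B : SimpleGraph U} (f : Copy A B)
    (x y : U) : f.toSubgraph.Adj x y ↔ ∃ a b, A.Adj a b ∧ f a = x ∧ f b = y := by
  change (Subgraph.map f.toHom ⊤).Adj x y ↔ _
  rw [Subgraph.map_adj, Relation.map_apply]
  rfl

/-- The subgraph of `H` without isolated vertices spanned by the edges in `F`. -/
def spanned {W : Type*} {n : ℕ} (H : SimpleGraph W) (j : W ↪ Fin n) (F : Finset (Pair n))
    (hF : F ⊆ img H j) : H.Subgraph where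
  verts := {w | ∃ x, (toG F).Adj (j w) (j x)}
  Adj a b := (toG F).Adj (j a) (j b)
  adj_sub := by
    rintro a b ⟨hne, h⟩
    obtain ⟨c, d, hcd, hs⟩ := (mem_img H j _).1 (hF h)
    have hs' : s(j c, j d) = s(j a, j b) := hs
    rw [Sym2.eq_iff] at hs'
    rcases hs' with ⟨h1, h2⟩ | ⟨h1, h2⟩
    · rw [← j.injective h1, ← j.injective h2]
      exact hcd
    · rw [← j.injective h1, ← j.injective h2]
      exact hcd.symm
  edge_vert := by
    intro a b h
    exact ⟨b, h⟩
  symm := ⟨fun _ _ h => h.symm⟩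

theorem img_spanned {W : Type*} {n : ℕ} (H : SimpleGraph W) (j : W ↪ Fin n)
    (F : Finset (Pair n)) (hF : F ⊆ img H j) :
    img (spanned H j F hF).coe ((Function.Embedding.subtype _).trans j) = F := by
  ext e
  rw [mem_img]
  constructor
  · rintro ⟨a, b, hab, hs⟩
    obtain ⟨hne, h⟩ : (toG F).Adj (j a.1) (j b.1) := hab
    have : e = mkPair (j a.1) (j b.1) hne := Subtype.ext hs.symm
    rwa [this]
  · intro he
    obtain ⟨a, b, hab, hs⟩ := (mem_img H j _).1 (hF he)
    have hne : j a ≠ j b := fun h => hab.ne (j.injective h)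
    have hadj : (toG F).Adj (j a) (j b) := by
      refine ⟨hne, ?_⟩
      have : e = mkPair (j a) (j b) hne := Subtype.ext hs.symm
      rwa [← this]
    exact ⟨⟨a, b, hadj⟩, ⟨b, a, hadj.symm⟩, hadj, hs⟩

theorem copyCount_spanned {W : Type*} [Fintype W] {n : ℕ} (H : SimpleGraph W) (j : W ↪ Fin n)
    (F : Finset (Pair n)) (hF : F ⊆ img H j) :
    (toG F).copyCount (spanned H j F hF).coe ≤ 1 := by
  classical
  have : Fintype (spanned H j F hF).verts := Fintype.ofFinite _
  have hcard : F.card = (spanned H j F hF).coe.edgeSet.ncard := by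
    rw [← card_img (spanned H j F hF).coe ((Function.Embedding.subtype _).trans j), img_spanned]
  have key : ∀ f : Copy (spanned H j F hF).coe (toG F),
      (∀ x y, f.toSubgraph.Adj x y ↔ (toG F).Adj x y) ∧
      (∀ x, x ∈ f.toSubgraph.verts ↔ ∃ y, (toG F).Adj x y) := by
    intro f
    have himg : img (spanned H j F hF).coe f.toEmbedding = F := by
      apply Finset.eq_of_subset_of_card_le (copyEquiv _ F f).2
      rw [card_img, hcard]
    have hadj : ∀ x y, f.toSubgraph.Adj x y ↔ (toG F).Adj x y := by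
      intro x y
      rw [adj_toSubgraph]
      constructor
      · rintro ⟨a, b, hab, rfl, rfl⟩
        exact f.toHom.map_adj hab
      · rintro ⟨hne, h⟩
        rw [← himg] at h
        obtain ⟨a, b, hab, hs⟩ := (mem_img _ _ _).1 h
        have hs' : s(f a, f b) = s(x, y) := hs
        rw [Sym2.eq_iff] at hs'
        rcases hs' with ⟨h1, h2⟩ | ⟨h1, h2⟩
        · exact ⟨a, b, hab, h1, h2⟩
        · exact ⟨b, a, hab.symm, h2, h1⟩
    refine ⟨hadj, ?_⟩
    intro x
    rw [mem_toSubgraph]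
    constructor
    · rintro ⟨⟨a, b, hab⟩, rfl⟩
      refine ⟨f ⟨b, a, hab.symm⟩, ?_⟩
      apply f.toHom.map_adj
      exact hab
    · rintro ⟨y, hxy⟩
      rw [← hadj, adj_toSubgraph] at hxy
      obtain ⟨a, b, _, ha, _⟩ := hxy
      exact ⟨a, ha⟩
  rw [copyCount_eq_card_image_copyToSubgraph, Finset.card_le_one]
  intro S hS T hT
  obtain ⟨f, _, rfl⟩ := Finset.mem_image.1 hS
  obtain ⟨f', _, rfl⟩ := Finset.mem_image.1 hT
  apply Subgraph.ext
  · ext x
    rw [(key f).2, (key f').2]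
  · ext x y
    rw [(key f).1, (key f').1]

open Classical in
/-- If every subgraph of `H` has expected count at least one half in `G(n,p)`, then stabilizers
of subsets of the edge set of (a copy of) `H` are small. -/
theorem stab_bound {W : Type*} [Fintype W] {n : ℕ} (H : SimpleGraph W) (j : W ↪ Fin n)
    (p : unitInterval) (hp : ∀ F : H.Subgraph, 1 / 2 ≤ expCopy n F.coe p)
    (F : Finset (Pair n)) (hF : F ⊆ img H j) :
    ((univ.filter (fun g : Equiv.Perm (Fin n) => g • F = F)).card : ℝ)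
      ≤ 2 * (Fintype.card (Equiv.Perm (Fin n)) * (p : ℝ) ^ F.card) := by
  have : Fintype (spanned H j F hF).verts := Fintype.ofFinite _
  set A := (spanned H j F hF).coe with hA
  set i : (spanned H j F hF).verts ↪ Fin n := (Function.Embedding.subtype _).trans j with hi
  have himg : img A i = F := img_spanned H j F hF
  have h1 := expCopy_mul n A p
  have h2 := card_perm i
  have h3 := count_perm A i F
  rw [himg, labelled_eq] at h3
  have h4 : (toG F).copyCount A ≤ 1 := copyCount_spanned H j F hF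
  have h5 : 1 / 2 ≤ expCopy n A p := hp _
  have h6 : A.edgeSet.ncard = F.card := by rw [← card_img A i, himg]
  have h7 : (univ.filter (fun g : Equiv.Perm (Fin n) => g • F = F)).card
      ≤ fixc i * Nat.card (A ≃g A) := by
    calc (univ.filter (fun g : Equiv.Perm (Fin n) => g • F = F)).card
        ≤ (univ.filter (fun g : Equiv.Perm (Fin n) => g • F ⊆ F)).card := by
          apply Finset.card_le_card
          intro g hg
          simp only [mem_filter, mem_univ, true_and] at hg ⊢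
          rw [hg]
      _ = fixc i * ((toG F).copyCount A * Nat.card (A ≃g A)) := h3
      _ ≤ fixc i * (1 * Nat.card (A ≃g A)) := by gcongr
      _ = fixc i * Nat.card (A ≃g A) := by rw [one_mul]
  have h8 : ((univ.filter (fun g : Equiv.Perm (Fin n) => g • F = F)).card : ℝ)
      ≤ fixc i * Nat.card (A ≃g A) := by exact_mod_cast h7
  rw [h6] at h1
  have h9 : (fixc i : ℝ) * (expCopy n A p * Nat.card (A ≃g A))
      = Fintype.card (Equiv.Perm (Fin n)) * (p : ℝ) ^ F.card := by
    rw [h1, h2]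
    push_cast
    ring
  have h10 : (0 : ℝ) ≤ fixc i * Nat.card (A ≃g A) := by positivity
  nlinarith

/-- If some copy of `H` lies in the random set with probability at least one half, then the
threshold is at most `p`. -/
theorem pc_le_of_hit {W : Type*} {n : ℕ} (H : SimpleGraph W) (j : W ↪ Fin n) (p : unitInterval)
    (h : 1 / 2 ≤ ES (p : ℝ) univ (hit (univ : Finset (Equiv.Perm (Fin n)))
      (fun g => g • img H j))) : pc n H ≤ p := by
  classical
  unfold pc
  apply csInf_le
  · refine ⟨0, ?_⟩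
    rintro x ⟨p, rfl, _⟩
    exact p.2.1
  · refine ⟨p, rfl, h.trans ?_⟩
    rw [probCopy_eq]
    apply ES_mono p.2.1 p.2.2
    intro Z _
    unfold hit
    split_ifs with h1 h2 h2
    · exact le_rfl
    · exfalso
      apply h2
      obtain ⟨g, _, hg⟩ := h1
      change g • img H j ⊆ Z at hg
      rw [smul_img] at hg
      rw [copyCount_pos]
      exact ⟨(copyEquiv H Z).symm ⟨_, hg⟩⟩
    · exact zero_le_one
    · exact le_rfl

theorem labelled_mono {V W : Type*} [Fintype V] [Fintype W] {n : ℕ} (A : SimpleGraph V)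
    (H : SimpleGraph W) (j : W ↪ Fin n) :
    H.labelledCopyCount A ≤ (toG (img H j)).labelledCopyCount A := by
  have h1 : H.labelledCopyCount A = Nat.card (Copy A H) := by
    unfold labelledCopyCount
    exact Fintype.card_eq_nat_card
  have h2 : (toG (img H j)).labelledCopyCount A = Nat.card (Copy A (toG (img H j))) := by
    unfold labelledCopyCount
    exact Fintype.card_eq_nat_card
  rw [h1, h2]
  have : Finite (Copy A (toG (img H j))) := Finite.of_injective
    (fun f => (f : V → Fin n)) DFunLike.coe_injective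
  apply Nat.card_le_card_of_injective
    (fun f : Copy A H => ((copyEquiv H (img H j)).symm ⟨j, Finset.Subset.refl _⟩).comp f)
  intro f f' hff
  ext a
  exact j.injective (DFunLike.congr_fun hff a)

open Classical in
/-- Spread of the copies of `H` bounds the larger parameter. -/
theorem pEt_le {W : Type*} [Fintype W] {n : ℕ} (H : SimpleGraph W) (j : W ↪ Fin n)
    (r : unitInterval)
    (h : ∀ F, F ⊆ img H j → ((univ.filter (fun g : Equiv.Perm (Fin n) =>
      g • F ⊆ img H j)).card : ℝ) ≤ Fintype.card (Equiv.Perm (Fin n)) * (r : ℝ) ^ F.card) :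
    pEt n H ≤ r := by
  unfold pEt
  apply csInf_le
  · refine ⟨0, ?_⟩
    rintro x ⟨p, rfl, _⟩
    exact p.2.1
  · refine ⟨r, rfl, ?_⟩
    intro F
    have : Fintype F.verts := Fintype.ofFinite _
    set A := F.coe with hA
    set i : F.verts ↪ Fin n := (Function.Embedding.subtype _).trans j with hi
    have hsub : img A i ⊆ img H j := by
      intro e he
      obtain ⟨a, b, hab, hs⟩ := (mem_img A i e).1 he
      exact (mem_img H j e).2 ⟨a.1, b.1, F.adj_sub hab, hs⟩
    have h1 := expCopy_mul n A r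
    have h2 := card_perm i
    have h3 := count_perm A i (img H j)
    have h4 := h _ hsub
    rw [h3, card_img] at h4
    have h5 : H.labelledCopyCount A ≤ (toG (img H j)).labelledCopyCount A := labelled_mono A H j
    have h6 : (H.copyCount A : ℝ) * Nat.card (A ≃g A)
        ≤ expCopy n A r * Nat.card (A ≃g A) := by
      have e1 : (H.copyCount A : ℝ) * Nat.card (A ≃g A) = (H.labelledCopyCount A : ℝ) := by
        rw [labelled_eq]; push_cast; ring
      rw [e1, h1]
      have e2 : (H.labelledCopyCount A : ℝ) ≤ ((toG (img H j)).labelledCopyCount A : ℝ) := by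
        exact_mod_cast h5
      refine e2.trans ?_
      have hc : (0 : ℝ) < fixc i := by exact_mod_cast fixc_pos i
      rw [h2] at h4
      push_cast at h4
      rw [mul_assoc] at h4
      exact le_of_mul_le_mul_left h4 hc
    have haut : (0 : ℝ) < Nat.card (A ≃g A) := by
      have : 0 < Nat.card (A ≃g A) := by
        have : Finite (A ≃g A) := Finite.of_injective (fun f => (f : F.verts → F.verts))
          DFunLike.coe_injective
        have : Nonempty (A ≃g A) := ⟨RelIso.refl _⟩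
        exact Nat.card_pos
      exact_mod_cast this
    have h7 : (H.copyCount A : ℝ) ≤ expCopy n A r := le_of_mul_le_mul_right h6 haut
    have h8 : (0 : ℝ) ≤ (H.copyCount A : ℝ) := by positivity
    linarith

theorem expCopy_one {V : Type*} [Fintype V] {n : ℕ} (A : SimpleGraph V) (i : V ↪ Fin n) :
    1 ≤ expCopy n A 1 := by
  classical
  have h1 := expCopy_mul n A 1
  have h2 := labelled_toG A (univ : Finset (Pair n))
  have h3 := labelled_eq A (toG (univ : Finset (Pair n)))
  simp only [subset_univ, if_true, Finset.sum_const, Finset.card_univ, nsmul_eq_mul, mul_one]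
    at h2
  have h4 : 0 < (toG (univ : Finset (Pair n))).copyCount A := by
    rw [copyCount_pos]
    exact ⟨(copyEquiv A univ).symm ⟨i, subset_univ _⟩⟩
  have haut : (0 : ℝ) < Nat.card (A ≃g A) := by
    have : 0 < Nat.card (A ≃g A) := by
      have : Finite (A ≃g A) := Finite.of_injective (fun f => (f : V → V))
        DFunLike.coe_injective
      have : Nonempty (A ≃g A) := ⟨RelIso.refl _⟩
      exact Nat.card_pos
    exact_mod_cast this
  have h5 : (1 : ℝ) ≤ ((toG (univ : Finset (Pair n))).copyCount A : ℝ) := by exact_mod_cast h4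
  have h6 : (expCopy n A 1) * Nat.card (A ≃g A)
      = ((toG (univ : Finset (Pair n))).copyCount A : ℝ) * Nat.card (A ≃g A) := by
    rw [h1, ← h2, h3]
    push_cast
    simp
  rw [mul_right_cancel₀ haut.ne' h6]
  exact h5

theorem pE_set_nonempty {W : Type*} [Fintype W] {n : ℕ} (H : SimpleGraph W) (j : W ↪ Fin n) :
    {x : ℝ | ∃ p : unitInterval, (p : ℝ) = x ∧
      ∀ F : H.Subgraph, 1 / 2 ≤ expCopy n F.coe p}.Nonempty := by
  refine ⟨1, 1, rfl, ?_⟩
  intro F
  have : Fintype F.verts := Fintype.ofFinite _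
  have := expCopy_one F.coe ((Function.Embedding.subtype _).trans j)
  linarith

theorem hit_oneB {W : Type*} {n : ℕ} (H : SimpleGraph W) (j : W ↪ Fin n) :
    1 / 2 ≤ ES (1 : ℝ) univ (hit (univ : Finset (Equiv.Perm (Fin n)))
      (fun g => g • img H j)) := by
  classical
  have h := ES_subsetB (1 : ℝ) univ (img H j) (subset_univ _)
  rw [one_pow] at h
  have h2 : ES (1 : ℝ) univ (fun Z => if img H j ⊆ Z then (1 : ℝ) else 0)
      ≤ ES (1 : ℝ) univ (hit (univ : Finset (Equiv.Perm (Fin n))) (fun g => g • img H j)) := by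
    apply ES_mono zero_le_one le_rfl
    intro Z _
    unfold hit
    split_ifs with h1 h2 h2
    · exact le_rfl
    · exfalso
      apply h2
      refine ⟨1, mem_univ _, ?_⟩
      simpa using h1
    · exact zero_le_one
    · exact le_rfl
  linarith

theorem pc_le_one {W : Type*} {n : ℕ} (H : SimpleGraph W) (j : W ↪ Fin n) : pc n H ≤ 1 := by
  have := pc_le_of_hit H j 1 (by simpa using hit_oneB H j)
  simpa using this

theorem continuous_ES {X : Type*} [DecidableEq X] (S : Finset X) (f : Finset X → ℝ) :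
    Continuous (fun p : ℝ => ES p S f) := by
  unfold ES wtS
  apply continuous_finsetSum
  intro W _
  apply Continuous.mul _ continuous_const
  apply continuous_finsetProd
  intro x _
  split_ifs
  · exact continuous_id
  · exact continuous_const.sub continuous_id

theorem continuous_expCopy {W : Type*} (n : ℕ) (F : SimpleGraph W) :
    Continuous (fun p : unitInterval => expCopy n F p) := by
  simp only [expCopy_eq]
  exact (continuous_ES _ _).comp continuous_subtype_val

theorem continuous_probCopy {W : Type*} (n : ℕ) (F : SimpleGraph W) :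
    Continuous (fun p : unitInterval => probCopy n F p) := by
  simp only [probCopy_eq]
  exact (continuous_ES _ _).comp continuous_subtype_val

theorem isLeast_of_closed (S : Set unitInterval) (hS : IsClosed S) (hne : S.Nonempty) :
    IsLeast {x : ℝ | ∃ p : unitInterval, (p : ℝ) = x ∧ p ∈ S}
      (sInf {x : ℝ | ∃ p : unitInterval, (p : ℝ) = x ∧ p ∈ S}) := by
  have h : {x : ℝ | ∃ p : unitInterval, (p : ℝ) = x ∧ p ∈ S} = Subtype.val '' S := by
    ext x
    constructor
    · rintro ⟨p, rfl, hp⟩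
      exact ⟨p, hp, rfl⟩
    · rintro ⟨p, hp, rfl⟩
      exact ⟨p, rfl, hp⟩
  rw [h]
  exact (hS.isCompact.image continuous_subtype_val).isLeast_sInf (hne.image _)

/-- The minimum defining `p_c(n,H)` is attained. -/
theorem pc_isLeast {W : Type*} {n : ℕ} (H : SimpleGraph W) (j : W ↪ Fin n) :
    IsLeast {x : ℝ | ∃ p : unitInterval, (p : ℝ) = x ∧ 1 / 2 ≤ probCopy n H p} (pc n H) := by
  apply isLeast_of_closed {p : unitInterval | 1 / 2 ≤ probCopy n H p}
  · exact isClosed_le continuous_const (continuous_probCopy n H)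
  · classical
    refine ⟨1, ?_⟩
    change 1 / 2 ≤ probCopy n H 1
    refine (hit_oneB H j).trans ?_
    rw [probCopy_eq]
    apply ES_mono (by simp) (by simp)
    intro Z _
    unfold hit
    split_ifs with h1 h2 h2
    · exact le_rfl
    · exfalso
      apply h2
      obtain ⟨g, _, hg⟩ := h1
      change g • img H j ⊆ Z at hg
      rw [smul_img] at hg
      rw [copyCount_pos]
      exact ⟨(copyEquiv H Z).symm ⟨_, hg⟩⟩
    · exact zero_le_one
    · exact le_rfl

/-- The minimum defining `p_E(n,H)` is attained. -/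
theorem pE_isLeast {W : Type*} [Fintype W] {n : ℕ} (H : SimpleGraph W) (j : W ↪ Fin n) :
    IsLeast {x : ℝ | ∃ p : unitInterval, (p : ℝ) = x ∧
      ∀ F : H.Subgraph, 1 / 2 ≤ expCopy n F.coe p} (pE n H) := by
  apply isLeast_of_closed {p : unitInterval | ∀ F : H.Subgraph, 1 / 2 ≤ expCopy n F.coe p}
  · have : {p : unitInterval | ∀ F : H.Subgraph, 1 / 2 ≤ expCopy n F.coe p}
        = ⋂ F : H.Subgraph, {p : unitInterval | 1 / 2 ≤ expCopy n F.coe p} := by
      ext p
      simp
    rw [this]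
    apply isClosed_iInter
    intro F
    exact isClosed_le continuous_const (continuous_expCopy n _)
  · obtain ⟨x, p, _, hp⟩ := pE_set_nonempty H j
    exact ⟨p, hp⟩

end Vale.Agent.P064
end
end

section

section

namespace Vale.Agent.P064

open SimpleGraph MeasureTheory Finset
open scoped Pointwise

theorem clog_le {n : ℕ} (hn : 2 ≤ n) : (Nat.clog 2 n : ℝ) ≤ 3 * Real.log n := by
  have h1 : 2 ^ (Nat.clog 2 n).pred < n := Nat.pow_pred_clog_lt_self (by norm_num) (by omega)
  have hpos : 0 < Nat.clog 2 n := Nat.clog_pos (by norm_num) hn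
  have h2 : ((Nat.clog 2 n).pred : ℝ) * Real.log 2 ≤ Real.log n := by
    rw [← Real.log_pow]
    apply Real.log_le_log (by positivity)
    exact_mod_cast h1.le
  have h3 : ((Nat.clog 2 n).pred : ℝ) = (Nat.clog 2 n : ℝ) - 1 := by
    rw [Nat.pred_eq_sub_one, Nat.cast_sub (by omega)]
    simp
  rw [h3] at h2
  have h4 : (0.6931471803 : ℝ) < Real.log 2 := Real.log_two_gt_d9
  have h5 : Real.log 2 ≤ Real.log n := Real.log_le_log (by norm_num) (by exact_mod_cast hn)
  have h6 : (1 : ℝ) ≤ Nat.clog 2 n := by exact_mod_cast hpos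
  nlinarith

/-- The final bound from an abstract threshold theorem for the action of the permutations. -/
theorem pc_le_of_abs {W : Type*} [Fintype W] {n : ℕ} (hn : 2 ≤ n) (H : SimpleGraph W)
    (hH : H ≠ ⊥) (j : W ↪ Fin n) (C : ℝ) (hC : 0 < C)
    (habs : ∀ q : ℝ, 0 < q → (∀ F, F ⊆ img H j → F.Nonempty →
      ((univ.filter (fun g : Equiv.Perm (Fin n) => g • F = F)).card : ℝ)
        ≤ Fintype.card (Equiv.Perm (Fin n)) * q ^ F.card) →
      ∀ r : ℕ, (img H j).card < 2 ^ r → ∀ p : ℝ, C * r * q ≤ p → p ≤ 1 →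
      1 / 2 ≤ ES p univ (hit (univ : Finset (Equiv.Perm (Fin n))) (fun g => g • img H j))) :
    pc n H ≤ 12 * C * pE n H * Real.log n := by
  classical
  obtain ⟨⟨p, hpE, hp⟩, _⟩ := pE_isLeast H j
  rw [← hpE]
  have hp0 : (0 : ℝ) ≤ p := p.2.1
  have hstab := stab_bound H j p hp
  have hlog : 0 < Real.log n := Real.log_pos (by exact_mod_cast (by omega : 1 < n))
  have hcardP : (0 : ℝ) < Fintype.card (Equiv.Perm (Fin n)) := by
    exact_mod_cast Fintype.card_pos
  -- positivity of `p`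
  have hppos : (0 : ℝ) < p := by
    rcases hp0.eq_or_lt with h0 | h0
    · exfalso
      obtain ⟨a, b, hab⟩ : ∃ a b, H.Adj a b := by
        by_contra hcon
        push Not at hcon
        apply hH
        ext a b
        simp [hcon a b]
      have hne : j a ≠ j b := fun h => hab.ne (j.injective h)
      have hsub : ({mkPair (j a) (j b) hne} : Finset (Pair n)) ⊆ img H j := by
        rw [Finset.singleton_subset_iff, mem_img]
        exact ⟨a, b, hab, rfl⟩
      have h1 := hstab _ hsub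
      rw [← h0, Finset.card_singleton, pow_one, mul_zero, mul_zero] at h1
      have h2 : 0 < (univ.filter (fun g : Equiv.Perm (Fin n) =>
          g • ({mkPair (j a) (j b) hne} : Finset (Pair n)) = {mkPair (j a) (j b) hne})).card := by
        rw [Finset.card_pos]
        exact ⟨1, by simp⟩
      have h3 : (0 : ℝ) < ((univ.filter (fun g : Equiv.Perm (Fin n) =>
          g • ({mkPair (j a) (j b) hne} : Finset (Pair n)) = {mkPair (j a) (j b) hne})).card : ℝ) := by
        exact_mod_cast h2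
      linarith
    · exact h0
  have hq : ∀ F, F ⊆ img H j → F.Nonempty →
      ((univ.filter (fun g : Equiv.Perm (Fin n) => g • F = F)).card : ℝ)
        ≤ Fintype.card (Equiv.Perm (Fin n)) * (2 * (p : ℝ)) ^ F.card := by
    intro F hF hne
    refine (hstab F hF).trans ?_
    rw [mul_pow]
    have h1 : (2 : ℝ) ≤ 2 ^ F.card := by
      calc (2 : ℝ) = 2 ^ 1 := by norm_num
        _ ≤ 2 ^ F.card := pow_le_pow_right₀ (by norm_num) (Finset.card_pos.2 hne)
    have h2 : (0 : ℝ) ≤ Fintype.card (Equiv.Perm (Fin n)) * (p : ℝ) ^ F.card := by positivity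
    nlinarith
  set r : ℕ := 2 * Nat.clog 2 n with hr
  have hcard : (img H j).card < 2 ^ r := by
    have h1 : (img H j).card ≤ n.choose 2 := by
      rw [← card_Pair]
      exact Finset.card_le_univ _
    have h2 : n.choose 2 < n ^ 2 := by
      rw [Nat.choose_two_right]
      have : n * (n - 1) < n * n := Nat.mul_lt_mul_of_pos_left (by omega) (by omega)
      have h3 : n * (n - 1) / 2 ≤ n * (n - 1) := Nat.div_le_self _ _
      rw [pow_two]
      omega
    have h3 : n ^ 2 ≤ 2 ^ r := by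
      rw [hr, mul_comm, pow_mul]
      exact Nat.pow_le_pow_left (Nat.le_pow_clog (by norm_num) n) 2
    omega
  have hr6 : (r : ℝ) ≤ 6 * Real.log n := by
    have := clog_le hn
    rw [hr]
    push_cast
    linarith
  have hbound : C * r * (2 * (p : ℝ)) ≤ 12 * C * p * Real.log n := by
    have h1 : 0 ≤ 2 * C * (p : ℝ) := by positivity
    nlinarith
  by_cases hle : 12 * C * (p : ℝ) * Real.log n ≤ 1
  · have hnn : 0 ≤ 12 * C * (p : ℝ) * Real.log n := by positivity
    exact pc_le_of_hit H j ⟨_, hnn, hle⟩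
      (habs (2 * (p : ℝ)) (by positivity) hq r hcard _ hbound hle)
  · exact (pc_le_one H j).trans (le_of_lt (not_le.1 hle))

end Vale.Agent.P064
end
end

section

section

/-!
The second Kahn-Kalai bound.
-/

namespace Vale.Agent.P064

open Finset
open scoped Pointwise

/-- The abstract threshold theorem for group actions. -/
theorem abs_threshold {X G : Type*} [Fintype X] [DecidableEq X] [Group G] [Fintype G]
    [MulAction G X] (H : Finset X) (q : ℝ) (hq0 : 0 < q)
    (hq : ∀ F ⊆ H, F.Nonempty → ((univ.filter fun g : G => g • F = F).card : ℝ) ≤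
      Fintype.card G * q ^ F.card)
    (r : ℕ) (hr : H.card < 2 ^ r) (p : ℝ) (hp : 48 * 2 ^ 72 * r * q ≤ p) (hp1 : p ≤ 1) :
    1 / 2 ≤ ES p univ (hit (univ : Finset G) (fun g => g • H)) := by
  rcases Finset.eq_empty_or_nonempty H with h0 | h0
  · have : ES p univ (hit (univ : Finset G) (fun g => g • H)) =
        ES p (univ : Finset X) (fun _ => (1 : ℝ)) := by
      apply Multi.ES_congr
      intro W _
      unfold hit
      rw [if_pos]
      exact ⟨1, mem_univ _, by rw [h0]; simp⟩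
    rw [this, ES_const]
    norm_num
  · obtain ⟨F, hF0, hF, hker⟩ := chain_kernel (G := G) H q hq0 8 (by norm_num) hq
    have hlog : Nat.log 2 H.card + 1 ≤ r := by
      have := (Nat.log_lt_iff_lt_pow (by norm_num) (Finset.card_pos.2 h0).ne').2 hr
      omega
    have hP : 2 * ((Nat.log 2 H.card + 1 : ℕ) : ℝ) * (2 ^ 72 * (3 * (8 : ℕ) * q)) ≤ p := by
      refine le_trans ?_ hp
      have h1 : ((Nat.log 2 H.card + 1 : ℕ) : ℝ) ≤ (r : ℝ) := by exact_mod_cast hlog
      have h2 : 0 ≤ 48 * 2 ^ 72 * q := by positivity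
      calc 2 * ((Nat.log 2 H.card + 1 : ℕ) : ℝ) * (2 ^ 72 * (3 * (8 : ℕ) * q))
          = (48 * 2 ^ 72 * q) * ((Nat.log 2 H.card + 1 : ℕ) : ℝ) := by push_cast; ring
        _ ≤ (48 * 2 ^ 72 * q) * r := mul_le_mul_of_nonneg_left h1 h2
        _ = 48 * 2 ^ 72 * r * q := by ring
    have hmain := Multi.from_chain (G := G) H (3 * (8 : ℕ) * q) p (by positivity) F hF0 hF
      hker hP hp1
    refine hmain.trans (le_of_eq ?_)
    apply Multi.ES_congr
    intro W _
    unfold hit
    by_cases hW : ∃ g : G, g • H ⊆ W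
    · have hW2 : ∃ g ∈ (univ : Finset G), g • H ⊆ W := by
        obtain ⟨g, hg⟩ := hW
        exact ⟨g, mem_univ g, hg⟩
      rw [if_pos hW, if_pos hW2]
    · have hW2 : ¬ ∃ g ∈ (univ : Finset G), g • H ⊆ W := by
        rintro ⟨g, _, hg⟩
        exact hW ⟨g, hg⟩
      rw [if_neg hW, if_neg hW2]

/-- **Second Kahn-Kalai bound**: `p_c(n,H) ≤ C p_E(n,H) log n` with a universal constant. -/
theorem second_kahn_kalai {W : Type*} [Fintype W] {n : ℕ} (hn : 2 ≤ n) (H : SimpleGraph W)
    (hH : H ≠ ⊥) (j : W ↪ Fin n) :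
    pc n H ≤ (12 * (48 * 2 ^ 72)) * pE n H * Real.log n := by
  apply pc_le_of_abs hn H hH j (48 * 2 ^ 72) (by positivity)
  intro q hq0 hq r hr p hp hp1
  exact abs_threshold (G := Equiv.Perm (Fin n)) (img H j) q hq0 hq r hr p hp hp1

end Vale.Agent.P064
end
end

section

section

/-!
The two expectation thresholds of a graph are of the same order.
-/

namespace Vale.Agent.P064

open SimpleGraph MeasureTheory Finset
open scoped Pointwise

open Classical in
theorem pEt_le_one {W : Type*} [Fintype W] {n : ℕ} (H : SimpleGraph W) (j : W ↪ Fin n) :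
    pEt n H ≤ 1 := by
  have h := pEt_le H j 1 (by
    intro F _
    have h1 : (univ.filter (fun g : Equiv.Perm (Fin n) => g • F ⊆ img H j)).card ≤
        Fintype.card (Equiv.Perm (Fin n)) := by
      rw [← Finset.card_univ]
      exact Finset.card_le_card (Finset.filter_subset _ _)
    have h2 : ((univ.filter (fun g : Equiv.Perm (Fin n) => g • F ⊆ img H j)).card : ℝ) ≤
        Fintype.card (Equiv.Perm (Fin n)) := by exact_mod_cast h1
    simpa using h2)
  simpa using h

/-- `p̃_E(n,H) ≤ 2^60 p_E(n,H)` for every graph `H` with at least one edge. -/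
theorem pEt_le_pE {W : Type*} [Fintype W] {n : ℕ} (H : SimpleGraph W) (hH : H ≠ ⊥)
    (j : W ↪ Fin n) : pEt n H ≤ 2 ^ 60 * pE n H := by
  classical
  obtain ⟨⟨p, hpE, hp⟩, _⟩ := pE_isLeast H j
  rw [← hpE]
  have hp0 : (0 : ℝ) ≤ p := p.2.1
  have hstab := stab_bound H j p hp
  have hcardP : (0 : ℝ) < Fintype.card (Equiv.Perm (Fin n)) := by
    exact_mod_cast Fintype.card_pos
  -- positivity of `p`
  have hppos : (0 : ℝ) < p := by
    rcases hp0.eq_or_lt with h0 | h0
    · exfalso
      obtain ⟨a, b, hab⟩ : ∃ a b, H.Adj a b := by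
        by_contra hcon
        push Not at hcon
        apply hH
        ext a b
        simp [hcon a b]
      have hne : j a ≠ j b := fun h => hab.ne (j.injective h)
      have hsub : ({mkPair (j a) (j b) hne} : Finset (Pair n)) ⊆ img H j := by
        rw [Finset.singleton_subset_iff, mem_img]
        exact ⟨a, b, hab, rfl⟩
      have h1 := hstab _ hsub
      rw [← h0, Finset.card_singleton, pow_one, mul_zero, mul_zero] at h1
      have h2 : 0 < (univ.filter (fun g : Equiv.Perm (Fin n) =>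
          g • ({mkPair (j a) (j b) hne} : Finset (Pair n)) = {mkPair (j a) (j b) hne})).card := by
        rw [Finset.card_pos]
        exact ⟨1, by simp⟩
      have h3 : (0 : ℝ) < ((univ.filter (fun g : Equiv.Perm (Fin n) =>
          g • ({mkPair (j a) (j b) hne} : Finset (Pair n)) = {mkPair (j a) (j b) hne})).card : ℝ) := by
        exact_mod_cast h2
      linarith
    · exact h0
  have hq : ∀ F, F ⊆ img H j → F.Nonempty →
      ((univ.filter (fun g : Equiv.Perm (Fin n) => g • F = F)).card : ℝ)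
        ≤ Fintype.card (Equiv.Perm (Fin n)) * (2 * (p : ℝ)) ^ F.card := by
    intro F hF hne
    refine (hstab F hF).trans ?_
    rw [mul_pow]
    have h1 : (2 : ℝ) ≤ 2 ^ F.card := by
      calc (2 : ℝ) = 2 ^ 1 := by norm_num
        _ ≤ 2 ^ F.card := pow_le_pow_right₀ (by norm_num) (Finset.card_pos.2 hne)
    have h2 : (0 : ℝ) ≤ Fintype.card (Equiv.Perm (Fin n)) * (p : ℝ) ^ F.card := by positivity
    nlinarith
  by_cases hle : 2 ^ 60 * (p : ℝ) ≤ 1
  · have hnn : 0 ≤ 2 ^ 60 * (p : ℝ) := by positivity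
    refine pEt_le H j ⟨_, hnn, hle⟩ ?_
    intro F _
    have h := Ctx.spread_const (G := Equiv.Perm (Fin n)) (img H j) (2 * (p : ℝ)) (by positivity)
      hq F
    have e : (2 : ℝ) ^ 59 * (2 * (p : ℝ)) = 2 ^ 60 * (p : ℝ) := by ring
    rw [e] at h
    exact h
  · exact (pEt_le_one H j).trans (le_of_lt (not_le.1 hle))

end Vale.Agent.P064
end
end

section

section

/-!
Near-perfect matchings: the expectation threshold is at most `9 / n`.
-/

namespace Vale.Agent.P064

open SimpleGraph MeasureTheory Finset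
open scoped Pointwise

/-- The near-perfect matching on `n` vertices. -/
def nmat (n : ℕ) : SimpleGraph (Fin n) where
  Adj a b := a ≠ b ∧ a.val / 2 = b.val / 2
  symm := ⟨fun _ _ h => ⟨h.1.symm, h.2.symm⟩⟩
  loopless := ⟨fun _ h => h.1 rfl⟩

theorem nmat_adj {n : ℕ} (a b : Fin n) : (nmat n).Adj a b ↔ a ≠ b ∧ a.val / 2 = b.val / 2 :=
  Iff.rfl

theorem nmat_unique {n : ℕ} {a b c : Fin n} (h : (nmat n).Adj a b) (h' : (nmat n).Adj a c) :
    b = c := by
  rw [nmat_adj] at h h'
  have h1 : a.val ≠ b.val := fun e => h.1 (Fin.ext e)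
  have h2 : a.val ≠ c.val := fun e => h'.1 (Fin.ext e)
  apply Fin.ext
  omega

theorem pow_le_desc : ∀ (j n : ℕ), j ≤ n → (n : ℝ) ^ j ≤ 3 ^ j * (n.descFactorial j : ℝ) := by
  intro j
  induction j with
  | zero => intro n _; simp
  | succ j ih =>
    intro n hn
    obtain ⟨n, rfl⟩ : ∃ k, n = k + 1 := ⟨n - 1, by omega⟩
    have h1 := ih n (by omega)
    rw [Nat.succ_descFactorial_succ]
    rcases Nat.eq_zero_or_pos j with h0 | h0
    · subst h0
      simp
      linarith
    · have hn0 : (0 : ℝ) < n := by exact_mod_cast (by omega : 0 < n)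
      have h2 : (1 + 1 / (n : ℝ)) ^ j ≤ 3 := by
        have h3 : 1 + 1 / (n : ℝ) ≤ Real.exp (1 / n) := by
          have := Real.add_one_le_exp (1 / (n : ℝ))
          linarith
        calc (1 + 1 / (n : ℝ)) ^ j ≤ (Real.exp (1 / n)) ^ j :=
              pow_le_pow_left₀ (by positivity) h3 j
          _ = Real.exp (j * (1 / n)) := (Real.exp_nat_mul _ _).symm
          _ ≤ Real.exp 1 := by
              apply Real.exp_le_exp.2
              rw [mul_one_div, div_le_one hn0]
              exact_mod_cast (by omega : j ≤ n)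
          _ ≤ 3 := by
              have := Real.exp_one_lt_d9
              linarith
      have h4 : ((n + 1 : ℕ) : ℝ) ^ j = (n : ℝ) ^ j * (1 + 1 / (n : ℝ)) ^ j := by
        rw [← mul_pow]
        congr 1
        push_cast
        field_simp
      have h5 : ((n + 1 : ℕ) : ℝ) ^ j ≤ 3 * (3 ^ j * (n.descFactorial j : ℝ)) := by
        rw [h4]
        calc (n : ℝ) ^ j * (1 + 1 / (n : ℝ)) ^ j ≤ (3 ^ j * (n.descFactorial j : ℝ)) * 3 := by
              apply mul_le_mul h1 h2 (by positivity) (by positivity)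
          _ = _ := by ring
      calc ((n + 1 : ℕ) : ℝ) ^ (j + 1) = (n + 1 : ℕ) * ((n + 1 : ℕ) : ℝ) ^ j := by ring
        _ ≤ (n + 1 : ℕ) * (3 * (3 ^ j * (n.descFactorial j : ℝ))) :=
            mul_le_mul_of_nonneg_left h5 (by positivity)
        _ = _ := by push_cast; ring

/-- lower end of the pair `x` -/
def lo {n : ℕ} (x : Fin (n / 2)) : Fin n := ⟨2 * x.val, by omega⟩

/-- upper end of the pair `x` -/
def hi {n : ℕ} (x : Fin (n / 2)) : Fin n := ⟨2 * x.val + 1, by omega⟩

/-- The vertices of the pairs in `S`. -/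
def jS {n : ℕ} (S : Finset (Fin (n / 2))) : (S × Bool) ↪ Fin n where
  toFun a := if a.2 then hi a.1.1 else lo a.1.1
  inj' := by
    rintro ⟨⟨x, hx⟩, b⟩ ⟨⟨y, hy⟩, c⟩ h
    have h' := congrArg Fin.val h
    cases b <;> cases c <;> simp [lo, hi] at h' ⊢ <;> omega

open Classical in
theorem count_T {n : ℕ} (S : Finset (Fin (n / 2))) :
    (univ.filter (fun g : Equiv.Perm (Fin n) => ∀ x ∈ S, (nmat n).Adj (g (lo x)) (g (hi x)))).card
      ≤ n ^ S.card * fixc (jS S) := by
  set T := univ.filter (fun g : Equiv.Perm (Fin n) =>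
    ∀ x ∈ S, (nmat n).Adj (g (lo x)) (g (hi x))) with hT
  rw [Finset.card_eq_sum_card_fiberwise (f := fun g : Equiv.Perm (Fin n) =>
    (fun x : S => g (lo x.1))) (t := univ) (fun _ _ => mem_coe.2 (mem_univ _))]
  have h1 : ∀ f ∈ (univ : Finset (S → Fin n)),
      (T.filter (fun g => (fun x : S => g (lo x.1)) = f)).card ≤ fixc (jS S) := by
    intro f _
    rcases Finset.eq_empty_or_nonempty (T.filter (fun g => (fun x : S => g (lo x.1)) = f))
      with h0 | ⟨g0, hg0⟩
    · rw [h0]; simp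
    · rw [← card_ext (jS S) ((jS S).trans g0.toEmbedding)]
      apply Finset.card_le_card
      intro g hg
      rw [mem_filter, hT, mem_filter] at hg hg0
      rw [mem_filter]
      refine ⟨mem_univ _, ?_⟩
      rintro ⟨x, b⟩
      have e1 : g (lo x.1) = g0 (lo x.1) := by
        have a1 := congrFun hg.2 x
        have a2 := congrFun hg0.2 x
        exact a1.trans a2.symm
      cases b
      · change g (if false = true then hi x.1 else lo x.1) = g0 (if false = true then hi x.1 else lo x.1)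
        simpa using e1
      · change g (if true = true then hi x.1 else lo x.1) = g0 (if true = true then hi x.1 else lo x.1)
        simp only [if_true]
        have a1 := hg.1.2 x.1 x.2
        have a2 := hg0.1.2 x.1 x.2
        rw [e1] at a1
        exact nmat_unique a1 a2
  refine (Finset.sum_le_sum h1).trans ?_
  rw [Finset.sum_const, smul_eq_mul, Finset.card_univ, Fintype.card_fun, Fintype.card_fin,
    Fintype.card_coe]

open Classical in
theorem count_T' {n : ℕ} (hn : 0 < n) (S : Finset (Fin (n / 2))) :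
    ((univ.filter (fun g : Equiv.Perm (Fin n) =>
      ∀ x ∈ S, (nmat n).Adj (g (lo x)) (g (hi x)))).card : ℝ)
      ≤ Fintype.card (Equiv.Perm (Fin n)) * (9 / n : ℝ) ^ S.card := by
  have h1 : ((univ.filter (fun g : Equiv.Perm (Fin n) =>
      ∀ x ∈ S, (nmat n).Adj (g (lo x)) (g (hi x)))).card : ℝ) ≤ (n : ℝ) ^ S.card * fixc (jS S) := by
    exact_mod_cast count_T S
  have h2 := card_perm (jS S)
  rw [Fintype.card_embedding_eq, Fintype.card_prod, Fintype.card_coe, Fintype.card_bool,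
    Fintype.card_fin] at h2
  have hk : S.card ≤ n / 2 := by
    have := Finset.card_le_univ S
    rwa [Fintype.card_fin] at this
  have h3 := pow_le_desc (S.card * 2) n (by omega)
  have hn0 : (0 : ℝ) < n := by exact_mod_cast hn
  refine h1.trans ?_
  have h4 : (Fintype.card (Equiv.Perm (Fin n)) : ℝ)
      = fixc (jS S) * (n.descFactorial (S.card * 2) : ℝ) := by exact_mod_cast h2
  rw [h4]
  have h5 : (n : ℝ) ^ S.card ≤ (n.descFactorial (S.card * 2) : ℝ) * (9 / n : ℝ) ^ S.card := by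
    rw [div_pow, mul_div_assoc', le_div_iff₀ (by positivity)]
    calc (n : ℝ) ^ S.card * (n : ℝ) ^ S.card = (n : ℝ) ^ (S.card * 2) := by
          rw [← pow_add]; congr 1; ring
      _ ≤ 3 ^ (S.card * 2) * (n.descFactorial (S.card * 2) : ℝ) := h3
      _ = (n.descFactorial (S.card * 2) : ℝ) * 9 ^ S.card := by
          rw [mul_comm S.card 2, pow_mul]; norm_num; ring
  calc (n : ℝ) ^ S.card * fixc (jS S)
      ≤ ((n.descFactorial (S.card * 2) : ℝ) * (9 / n : ℝ) ^ S.card) * fixc (jS S) :=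
        mul_le_mul_of_nonneg_right h5 (by positivity)
    _ = _ := by ring

theorem lo_ne_hi {n : ℕ} (x : Fin (n / 2)) : (lo x : Fin n) ≠ hi x := by
  intro h
  have := congrArg Fin.val h
  simp [lo, hi] at this

theorem mem_img_nmat {n : ℕ} (e : Pair n) (he : e ∈ img (nmat n) (Function.Embedding.refl _)) :
    ∃ x : Fin (n / 2), e = mkPair (lo x) (hi x) (lo_ne_hi x) := by
  obtain ⟨a, b, hab, hs⟩ := (mem_img _ _ _).1 he
  rw [nmat_adj] at hab
  have h1 : a.val ≠ b.val := fun e => hab.1 (Fin.ext e)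
  have ha := a.2
  have hb := b.2
  have h2 := hab.2
  refine ⟨⟨a.val / 2, by omega⟩, ?_⟩
  apply Subtype.ext
  rw [← hs]
  change s(a, b) = s(_, _)
  rw [Sym2.eq_iff]
  by_cases hlt : a.val < b.val
  · left
    constructor
    · apply Fin.ext; simp only [lo]; omega
    · apply Fin.ext; simp only [hi]; omega
  · right
    constructor
    · apply Fin.ext; simp only [hi]; omega
    · apply Fin.ext; simp only [lo]; omega

open Classical in
theorem nmat_spread {n : ℕ} (hn : 0 < n) (F : Finset (Pair n))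
    (hF : F ⊆ img (nmat n) (Function.Embedding.refl _)) :
    ((univ.filter (fun g : Equiv.Perm (Fin n) =>
      g • F ⊆ img (nmat n) (Function.Embedding.refl _))).card : ℝ)
      ≤ Fintype.card (Equiv.Perm (Fin n)) * (9 / n : ℝ) ^ F.card := by
  set S : Finset (Fin (n / 2)) := univ.filter (fun x => mkPair (lo x) (hi x) (lo_ne_hi x) ∈ F)
    with hS
  have h1 : F = S.image (fun x => mkPair (lo x) (hi x) (lo_ne_hi x)) := by
    ext e
    rw [mem_image]
    constructor
    · intro he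
      obtain ⟨x, rfl⟩ := mem_img_nmat e (hF he)
      exact ⟨x, by rw [hS, mem_filter]; exact ⟨mem_univ _, he⟩, rfl⟩
    · rintro ⟨x, hx, rfl⟩
      rw [hS, mem_filter] at hx
      exact hx.2
  have h2 : F.card = S.card := by
    rw [h1, Finset.card_image_of_injective]
    intro x y hxy
    have hv := congrArg Subtype.val hxy
    change s(lo x, hi x) = s(lo y, hi y) at hv
    rw [Sym2.eq_iff] at hv
    rcases hv with ⟨hv, _⟩ | ⟨hv, _⟩
    · have := congrArg Fin.val hv
      simp only [lo] at this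
      apply Fin.ext
      omega
    · have := congrArg Fin.val hv
      simp only [lo, hi] at this
      omega
  rw [h2]
  refine le_trans ?_ (count_T' hn S)
  have h3 : (univ.filter (fun g : Equiv.Perm (Fin n) =>
      g • F ⊆ img (nmat n) (Function.Embedding.refl _))).card ≤
      (univ.filter (fun g : Equiv.Perm (Fin n) =>
      ∀ x ∈ S, (nmat n).Adj (g (lo x)) (g (hi x)))).card := by
    apply Finset.card_le_card
    intro g hg
    rw [mem_filter] at hg ⊢
    refine ⟨mem_univ _, ?_⟩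
    intro x hx
    have hx' : mkPair (lo x) (hi x) (lo_ne_hi x) ∈ F := by
      rw [hS, mem_filter] at hx
      exact hx.2
    have h4 : g • mkPair (lo x) (hi x) (lo_ne_hi x) ∈ img (nmat n) (Function.Embedding.refl _) :=
      hg.2 (Finset.smul_mem_smul_finset hx')
    obtain ⟨a, b, hab, hs⟩ := (mem_img _ _ _).1 h4
    have hs' : s(a, b) = s(g (lo x), g (hi x)) := hs
    rw [Sym2.eq_iff] at hs'
    rcases hs' with ⟨rfl, rfl⟩ | ⟨rfl, rfl⟩
    · exact hab
    · exact hab.symm
  exact_mod_cast h3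

open Classical in
/-- Spread of the copies of `H` bounds the numbers of copies in `H` by the expected numbers. -/
theorem copyCount_le_exp {W : Type*} [Fintype W] {n : ℕ} (H : SimpleGraph W) (j : W ↪ Fin n)
    (r : unitInterval)
    (h : ∀ F, F ⊆ img H j → ((univ.filter (fun g : Equiv.Perm (Fin n) =>
      g • F ⊆ img H j)).card : ℝ) ≤ Fintype.card (Equiv.Perm (Fin n)) * (r : ℝ) ^ F.card)
    (F : H.Subgraph) : (H.copyCount F.coe : ℝ) ≤ expCopy n F.coe r := by
  have : Fintype F.verts := Fintype.ofFinite _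
  set A := F.coe with hA
  set i : F.verts ↪ Fin n := (Function.Embedding.subtype _).trans j with hi
  have hsub : img A i ⊆ img H j := by
    intro e he
    obtain ⟨a, b, hab, hs⟩ := (mem_img A i e).1 he
    exact (mem_img H j e).2 ⟨a.1, b.1, F.adj_sub hab, hs⟩
  have h1 := expCopy_mul n A r
  have h2 := card_perm i
  have h3 := count_perm A i (img H j)
  have h4 := h _ hsub
  rw [h3, card_img] at h4
  have h5 : H.labelledCopyCount A ≤ (toG (img H j)).labelledCopyCount A := labelled_mono A H j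
  have h6 : (H.copyCount A : ℝ) * Nat.card (A ≃g A)
      ≤ expCopy n A r * Nat.card (A ≃g A) := by
    have e1 : (H.copyCount A : ℝ) * Nat.card (A ≃g A) = (H.labelledCopyCount A : ℝ) := by
      rw [labelled_eq]; push_cast; ring
    rw [e1, h1]
    have e2 : (H.labelledCopyCount A : ℝ) ≤ ((toG (img H j)).labelledCopyCount A : ℝ) := by
      exact_mod_cast h5
    refine e2.trans ?_
    have hc : (0 : ℝ) < fixc i := by exact_mod_cast fixc_pos i
    rw [h2] at h4
    push_cast at h4
    rw [mul_assoc] at h4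
    exact le_of_mul_le_mul_left h4 hc
  have haut : (0 : ℝ) < Nat.card (A ≃g A) := by
    have : 0 < Nat.card (A ≃g A) := by
      have : Finite (A ≃g A) := Finite.of_injective (fun f => (f : F.verts → F.verts))
        DFunLike.coe_injective
      have : Nonempty (A ≃g A) := ⟨RelIso.refl _⟩
      exact Nat.card_pos
    exact_mod_cast this
  exact le_of_mul_le_mul_right h6 haut

theorem one_le_copyCount {W : Type*} [Fintype W] (H : SimpleGraph W) (F : H.Subgraph) :
    1 ≤ H.copyCount F.coe := by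
  rw [Nat.one_le_iff_ne_zero, ← Nat.pos_iff_ne_zero, copyCount_pos]
  exact ⟨F.coeCopy⟩

theorem pE_nmat_le {n : ℕ} (hn : 9 ≤ n) : pE n (nmat n) ≤ 9 / n := by
  classical
  have hn0 : (0 : ℝ) < n := by exact_mod_cast (by omega : 0 < n)
  have h9 : (9 / n : ℝ) ≤ 1 := by
    rw [div_le_one hn0]
    exact_mod_cast hn
  unfold pE
  apply csInf_le
  · refine ⟨0, ?_⟩
    rintro x ⟨p, rfl, _⟩
    exact p.2.1
  · refine ⟨⟨9 / n, by positivity, h9⟩, rfl, ?_⟩
    intro F
    have h1 := copyCount_le_exp (nmat n) (Function.Embedding.refl _) ⟨9 / n, by positivity, h9⟩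
      (fun F hF => nmat_spread (by omega) F hF) F
    have h2 : (1 : ℝ) ≤ ((nmat n).copyCount F.coe : ℝ) := by
      exact_mod_cast one_le_copyCount (nmat n) F
    linarith

end Vale.Agent.P064
end
end

section

section

/-!
Near-perfect matchings: the threshold is at least `log n / (4 n)` (second moment method for
isolated vertices).
-/

namespace Vale.Agent.P064

open SimpleGraph MeasureTheory Finset

/-- The probability that the `p`-random subset of `S` misses a fixed set `T`. -/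
theorem ES_miss {X : Type*} [DecidableEq X] (p : ℝ) (S : Finset X) : ∀ T : Finset X, T ⊆ S →
    ES p S (fun Z => if Disjoint T Z then (1 : ℝ) else 0) = (1 - p) ^ T.card := by
  induction S using Finset.induction_on with
  | empty =>
    intro T hT
    rw [Finset.subset_empty.1 hT]
    simp [ES, wtS]
  | insert a S ha ih =>
    intro T hT
    rw [ES_insert p ha]
    by_cases haT : a ∈ T
    · have h1 : ES p S (fun Z => if Disjoint T (insert a Z) then (1 : ℝ) else 0)
          = ES p S (fun _ => 0) := by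
        apply ES_congrB
        intro W hW
        rw [if_neg]
        intro h
        exact Finset.disjoint_left.1 h haT (mem_insert_self _ _)
      have h2 : ES p S (fun Z => if Disjoint T Z then (1 : ℝ) else 0)
          = ES p S (fun Z => if Disjoint (T.erase a) Z then (1 : ℝ) else 0) := by
        apply ES_congrB
        intro W hW
        have haW : a ∉ W := fun h => ha (hW h)
        have : Disjoint T W ↔ Disjoint (T.erase a) W := by
          rw [Finset.disjoint_left, Finset.disjoint_left]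
          constructor
          · intro h x hx
            exact h (mem_of_mem_erase hx)
          · intro h x hx
            by_cases hxa : x = a
            · rw [hxa]; exact haW
            · exact h (mem_erase.2 ⟨hxa, hx⟩)
        simp only [this]
      rw [h1, h2, ES_const, ih (T.erase a) (by
        intro x hx
        rw [mem_erase] at hx
        exact (mem_insert.1 (hT hx.2)).resolve_left hx.1)]
      rw [mul_zero, add_zero, ← pow_succ', Finset.card_erase_add_one haT]
    · have hTS : T ⊆ S := by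
        intro x hx
        refine (mem_insert.1 (hT hx)).resolve_left ?_
        rintro rfl
        exact haT hx
      have h2 : ES p S (fun Z => if Disjoint T (insert a Z) then (1 : ℝ) else 0)
          = ES p S (fun Z => if Disjoint T Z then (1 : ℝ) else 0) := by
        apply ES_congrB
        intro W hW
        simp only [Finset.disjoint_insert_right, haT, not_false_eq_true, true_and]
      rw [h2, ih T hTS]
      ring

open Classical in
/-- Pairs containing `v`. -/
noncomputable def star {n : ℕ} (v : Fin n) : Finset (Pair n) := univ.filter (fun e => v ∈ e.1)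

theorem mem_star {n : ℕ} (v : Fin n) (e : Pair n) : e ∈ star v ↔ v ∈ e.1 := by
  unfold star
  simp

theorem card_star {n : ℕ} (v : Fin n) : (star v).card = n - 1 := by
  classical
  have h : star v = (univ.filter (fun w : Fin n => v ≠ w)).attach.image
      (fun w => mkPair v w.1 (mem_filter.1 w.2).2) := by
    ext e
    rw [mem_star, mem_image]
    constructor
    · intro he
      obtain ⟨w, hw⟩ := Sym2.mem_iff_exists.1 he
      have hne : v ≠ w := by
        rintro rfl
        exact e.2 (by rw [hw]; exact Sym2.mk_isDiag_iff.2 rfl)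
      exact ⟨⟨w, mem_filter.2 ⟨mem_univ _, hne⟩⟩, mem_attach _ _, Subtype.ext hw.symm⟩
    · rintro ⟨w, _, rfl⟩
      exact Sym2.mem_mk_left _ _
  rw [h, Finset.card_image_of_injective, Finset.card_attach]
  · have : univ.filter (fun w : Fin n => v ≠ w) = univ.erase v := by
      ext w
      simp [eq_comm]
    rw [this, Finset.card_erase_of_mem (mem_univ _), Finset.card_univ, Fintype.card_fin]
  · rintro ⟨w, hw⟩ ⟨w', hw'⟩ hww
    have h1 : s(v, w) = s(v, w') := congrArg Subtype.val hww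
    have h2 := Sym2.congr_right.1 h1
    exact Subtype.ext h2

theorem card_star_union {n : ℕ} {u v : Fin n} (huv : u ≠ v) :
    2 * n - 3 ≤ (star u ∪ star v).card := by
  classical
  have h1 : (star u ∩ star v).card ≤ 1 := by
    rw [Finset.card_le_one]
    intro e he e' he'
    rw [mem_inter, mem_star, mem_star] at he he'
    apply Subtype.ext
    rw [(Sym2.mem_and_mem_iff huv).1 he, (Sym2.mem_and_mem_iff huv).1 he']
  have h2 := Finset.card_union_add_card_inter (star u) (star v)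
  rw [card_star, card_star] at h2
  omega

/-- Number of isolated vertices. -/
noncomputable def iso {n : ℕ} (Z : Finset (Pair n)) : ℝ :=
  ∑ v : Fin n, if Disjoint (star v) Z then (1 : ℝ) else 0

theorem iso_le {n : ℕ} (Z : Finset (Pair n)) (h : 0 < (toG Z).copyCount (nmat n)) :
    iso Z ≤ 1 := by
  classical
  rw [copyCount_pos] at h
  obtain ⟨f⟩ := h
  have hsurj : Function.Surjective f := Finite.surjective_of_injective f.injective
  unfold iso
  rw [← Finset.sum_filter, Finset.sum_const, nsmul_eq_mul, mul_one]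
  have hc : (univ.filter (fun v : Fin n => Disjoint (star v) Z)).card ≤ 1 := by
    rw [Finset.card_le_one]
    have key : ∀ w : Fin n, Disjoint (star (f w)) Z → w.val + 1 = n := by
      intro w hw
      have hno : ∀ w', ¬ (nmat n).Adj w w' := by
        intro w' hadj
        obtain ⟨hne, hZ⟩ : (toG Z).Adj (f w) (f w') := f.toHom.map_adj hadj
        exact Finset.disjoint_left.1 hw ((mem_star _ _).2 (Sym2.mem_mk_left _ _)) hZ
      have hw2 := w.2
      rcases Nat.even_or_odd' w.val with ⟨c, hc | hc⟩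
      · by_contra hcon
        apply hno ⟨w.val + 1, by omega⟩
        rw [nmat_adj]
        refine ⟨fun e => ?_, ?_⟩
        · have := congrArg Fin.val e
          simp at this
        · simp only
          omega
      · exfalso
        apply hno ⟨w.val - 1, by omega⟩
        rw [nmat_adj]
        refine ⟨fun e => ?_, ?_⟩
        · have := congrArg Fin.val e
          simp only at this
          omega
        · simp only
          omega
    intro u hu v hv
    obtain ⟨a, rfl⟩ := hsurj u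
    obtain ⟨b, rfl⟩ := hsurj v
    have h1 := key a (mem_filter.1 hu).2
    have h2 := key b (mem_filter.1 hv).2
    have : a = b := Fin.ext (by omega)
    rw [this]
  exact_mod_cast hc

theorem ES_iso {n : ℕ} (p : ℝ) :
    ES p univ (fun Z : Finset (Pair n) => iso Z) = n * (1 - p) ^ (n - 1) := by
  classical
  unfold iso
  rw [ES_sumB]
  have h : ∀ v : Fin n, ES p univ (fun Z : Finset (Pair n) =>
      if Disjoint (star v) Z then (1 : ℝ) else 0) = (1 - p) ^ (n - 1) := by
    intro v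
    rw [ES_miss _ _ _ (subset_univ _), card_star]
  simp only [h, Finset.sum_const, Finset.card_univ, Fintype.card_fin, nsmul_eq_mul]

theorem ES_iso_sq {n : ℕ} {p : ℝ} (h0 : 0 ≤ p) (h1 : p ≤ 1) :
    ES p univ (fun Z : Finset (Pair n) => iso Z * iso Z) ≤
      n * (1 - p) ^ (n - 1) + n * n * (1 - p) ^ (2 * n - 3) := by
  classical
  have e1 : ∀ Z : Finset (Pair n), iso Z * iso Z =
      ∑ u : Fin n, ∑ v : Fin n, if Disjoint (star u ∪ star v) Z then (1 : ℝ) else 0 := by
    intro Z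
    unfold iso
    rw [Finset.sum_mul_sum]
    apply Finset.sum_congr rfl
    intro u _
    apply Finset.sum_congr rfl
    intro v _
    simp only [Finset.disjoint_union_left]
    split_ifs <;> simp_all
  simp only [e1]
  rw [ES_sumB]
  have e2 : ∀ u : Fin n, ES p univ (fun Z : Finset (Pair n) => ∑ v : Fin n,
      if Disjoint (star u ∪ star v) Z then (1 : ℝ) else 0) ≤
      (1 - p) ^ (n - 1) + n * (1 - p) ^ (2 * n - 3) := by
    intro u
    rw [ES_sumB]
    have e3 : ∀ v : Fin n, ES p univ (fun Z : Finset (Pair n) =>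
        if Disjoint (star u ∪ star v) Z then (1 : ℝ) else 0) ≤
        (if u = v then (1 - p) ^ (n - 1) else 0) + (1 - p) ^ (2 * n - 3) := by
      intro v
      rw [ES_miss _ _ _ (subset_univ _)]
      have hp : 0 ≤ 1 - p := by linarith
      by_cases huv : u = v
      · subst huv
        rw [if_pos rfl, Finset.union_self, card_star]
        have : 0 ≤ (1 - p) ^ (2 * n - 3) := by positivity
        linarith
      · rw [if_neg huv, zero_add]
        exact pow_le_pow_of_le_one hp (by linarith) (card_star_union huv)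
    refine (Finset.sum_le_sum (fun v _ => e3 v)).trans (le_of_eq ?_)
    rw [Finset.sum_add_distrib, Finset.sum_ite_eq, if_pos (mem_univ _), Finset.sum_const,
      Finset.card_univ, Fintype.card_fin, nsmul_eq_mul]
  refine (Finset.sum_le_sum (fun u _ => e2 u)).trans (le_of_eq ?_)
  rw [Finset.sum_const, Finset.card_univ, Fintype.card_fin, nsmul_eq_mul]
  ring

/-- Chebyshev's inequality for the number of isolated vertices. -/
theorem cheb {n : ℕ} (p : unitInterval) :
    let μ : ℝ := n * (1 - (p : ℝ)) ^ (n - 1)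
    1 ≤ μ → (μ - 1) ^ 2 * probCopy n (nmat n) p ≤
      μ + n * n * (1 - (p : ℝ)) ^ (2 * n - 3) - μ ^ 2 := by
  classical
  intro μ hμ
  rw [probCopy_eq, ← ES_mul]
  have h0 := p.2.1
  have h1 := p.2.2
  have h2 : ES (p : ℝ) univ (fun Z : Finset (Pair n) => (μ - 1) ^ 2 *
      (if 0 < (toG Z).copyCount (nmat n) then (1 : ℝ) else 0)) ≤
      ES (p : ℝ) univ (fun Z : Finset (Pair n) => (iso Z * iso Z + (-(2 * μ)) * iso Z) + μ ^ 2) := by
    apply ES_mono h0 h1
    intro Z _
    have hnn : 0 ≤ (iso Z - μ) ^ 2 := sq_nonneg _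
    split_ifs with h
    · have h3 := iso_le Z h
      nlinarith
    · nlinarith
  refine h2.trans ?_
  rw [ES_add, ES_add, ES_mul, ES_const, ES_iso]
  have h3 := ES_iso_sq (n := n) h0 h1
  change _ + (-(2 * μ)) * μ + μ ^ 2 ≤ _
  change _ ≤ μ + _ at h3
  nlinarith

theorem pc_nmat_ge {n : ℕ} (hn : 100 ≤ n) : Real.log n / (4 * n) ≤ pc n (nmat n) := by
  obtain ⟨⟨p, hpc, hp⟩, _⟩ := pc_isLeast (nmat n) (Function.Embedding.refl (Fin n))
  rw [← hpc]
  by_contra hcon
  push Not at hcon
  have hn100 : (100 : ℝ) ≤ n := by exact_mod_cast hn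
  have hn0 : (0 : ℝ) < n := by linarith
  have hp0 : (0 : ℝ) ≤ p := p.2.1
  set s := Real.sqrt n with hs
  have hs2 : s * s = n := Real.mul_self_sqrt hn0.le
  have hs10 : 10 ≤ s := by
    rw [hs]
    apply Real.le_sqrt_of_sq_le
    linarith
  have hlog : Real.log n ≤ 2 * s := by
    have h1 : Real.log n = 2 * Real.log s := by
      rw [← hs2, Real.log_mul (by linarith) (by linarith)]
      ring
    have h2 := Real.log_le_sub_one_of_pos (by linarith : 0 < s)
    linarith
  have hp20 : (p : ℝ) ≤ 1 / 20 := by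
    have h1 : Real.log n / (4 * n) ≤ 1 / 20 := by
      rw [div_le_div_iff₀ (by positivity) (by norm_num)]
      nlinarith
    linarith
  -- lower bound for the mean
  set μ : ℝ := n * (1 - (p : ℝ)) ^ (n - 1) with hμ
  have hexp : Real.exp (-(2 * (p : ℝ))) ≤ 1 - p := by
    have h1 := Real.add_one_le_exp (2 * (p : ℝ))
    have h2 : 0 < 1 + 2 * (p : ℝ) := by linarith
    have h3 : Real.exp (-(2 * (p : ℝ))) ≤ 1 / (1 + 2 * p) := by
      rw [Real.exp_neg, ← one_div]
      apply one_div_le_one_div_of_le h2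
      linarith
    refine h3.trans ?_
    rw [div_le_iff₀ h2]
    nlinarith
  have hμs : s ≤ μ := by
    have h1 : Real.exp (-(2 * (p : ℝ))) ^ n ≤ (1 - (p : ℝ)) ^ (n - 1) := by
      calc Real.exp (-(2 * (p : ℝ))) ^ n ≤ (1 - (p : ℝ)) ^ n :=
            pow_le_pow_left₀ (Real.exp_pos _).le hexp n
        _ ≤ (1 - (p : ℝ)) ^ (n - 1) :=
            pow_le_pow_of_le_one (by linarith) (by linarith) (Nat.sub_le _ _)
    have h2 : Real.exp (-(2 * (p : ℝ))) ^ n = Real.exp (-(2 * p * n)) := by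
      rw [← Real.exp_nat_mul]
      congr 1
      ring
    have h3 : s⁻¹ ≤ Real.exp (-(2 * p * n)) := by
      have h4 : s⁻¹ = Real.exp (-(Real.log n / 2)) := by
        rw [Real.exp_neg]
        congr 1
        have h1 : Real.log n = 2 * Real.log s := by
          rw [← hs2, Real.log_mul (by linarith) (by linarith)]
          ring
        rw [h1]
        rw [show 2 * Real.log s / 2 = Real.log s by ring, Real.exp_log (by linarith)]
      rw [h4]
      apply Real.exp_le_exp.2
      have h5 : (p : ℝ) * (4 * n) < Real.log n := by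
        rwa [lt_div_iff₀ (by positivity)] at hcon
      linarith
    rw [h2] at h1
    have h6 : s⁻¹ ≤ (1 - (p : ℝ)) ^ (n - 1) := h3.trans h1
    rw [hμ]
    calc s = n * s⁻¹ := by rw [← hs2]; field_simp
      _ ≤ _ := mul_le_mul_of_nonneg_left h6 hn0.le
  have hch := cheb (n := n) p (by linarith)
  change (μ - 1) ^ 2 * _ ≤ μ + _ - μ ^ 2 at hch
  -- the second term
  have hsec : (n : ℝ) * n * (1 - (p : ℝ)) ^ (2 * n - 3) * (1 - p) = μ ^ 2 := by
    rw [hμ, mul_assoc, ← pow_succ, show 2 * n - 3 + 1 = (n - 1) * 2 by omega, pow_mul]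
    ring
  have h10 : 10 ≤ μ := by linarith
  set B : ℝ := (n : ℝ) * n * (1 - (p : ℝ)) ^ (2 * n - 3) with hB
  have hB0 : 0 ≤ B := by
    have : 0 ≤ 1 - (p : ℝ) := by linarith
    positivity
  have hB1 : B * (19 / 20) ≤ μ ^ 2 := by
    rw [← hsec]
    apply mul_le_mul_of_nonneg_left _ hB0
    linarith
  have hhalf : (μ - 1) ^ 2 * (1 / 2) ≤ (μ - 1) ^ 2 * probCopy n (nmat n) p :=
    mul_le_mul_of_nonneg_left hp (sq_nonneg _)
  nlinarith

/-- `p_E ≤ p_c`. -/
theorem pE_le_pc {W : Type*} [Fintype W] {n : ℕ} (H : SimpleGraph W) (j : W ↪ Fin n) :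
    pE n H ≤ pc n H := by
  classical
  obtain ⟨⟨p, hpc, hp⟩, _⟩ := pc_isLeast H j
  rw [← hpc]
  unfold pE
  apply csInf_le
  · refine ⟨0, ?_⟩
    rintro x ⟨p, rfl, _⟩
    exact p.2.1
  · refine ⟨p, rfl, ?_⟩
    intro F
    refine hp.trans ?_
    rw [probCopy_eq, expCopy_eq]
    apply ES_mono p.2.1 p.2.2
    intro Z _
    split_ifs with h
    · rw [copyCount_pos] at h
      have h1 : 0 < (toG Z).copyCount F.coe := by
        rw [copyCount_pos]
        exact (IsContained.trans ⟨F.coeCopy⟩ h)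
      exact_mod_cast h1
    · positivity

/-- The lower bound: for every `n ≥ 2` there is a graph for which the ratio of the threshold and
the expectation threshold is of order `log n`. -/
theorem lower {n : ℕ} (hn : 2 ≤ n) :
    nmat n ≠ ⊥ ∧ 1 / 36 * pE n (nmat n) * Real.log n ≤ pc n (nmat n) := by
  constructor
  · intro h
    have h1 : (nmat n).Adj ⟨0, by omega⟩ ⟨1, by omega⟩ := by
      rw [nmat_adj]
      refine ⟨fun e => ?_, by simp⟩
      have := congrArg Fin.val e
      simp at this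
    rw [h] at h1
    exact h1
  · have hpE0 : 0 ≤ pE n (nmat n) := by
      unfold pE
      apply Real.sInf_nonneg
      rintro x ⟨p, rfl, _⟩
      exact p.2.1
    have hlog0 : 0 ≤ Real.log n := Real.log_natCast_nonneg n
    by_cases h100 : 100 ≤ n
    · have h1 := pc_nmat_ge h100
      have h2 := pE_nmat_le (n := n) (by omega)
      refine le_trans ?_ h1
      have hn0 : (0 : ℝ) < n := by exact_mod_cast (by omega : 0 < n)
      calc 1 / 36 * pE n (nmat n) * Real.log n ≤ 1 / 36 * (9 / n) * Real.log n := by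
            gcongr
        _ = Real.log n / (4 * n) := by field_simp; ring
    · have h1 := pE_le_pc (nmat n) (Function.Embedding.refl (Fin n))
      refine le_trans ?_ h1
      have h2 : Real.log n ≤ 36 := by
        have h3 : Real.log n ≤ Real.log (2 ^ 7 : ℝ) := by
          apply Real.log_le_log
          · exact_mod_cast (by omega : 0 < n)
          · calc (n : ℝ) ≤ 128 := by exact_mod_cast (by omega : n ≤ 128)
              _ = 2 ^ 7 := by norm_num
        rw [Real.log_pow] at h3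
        have := Real.log_two_lt_d9
        push_cast at h3
        linarith
      nlinarith

end Vale.Agent.P064
end
end

section

section

/-!
Auxiliary facts for the full statement.
-/

namespace Vale.Agent.P064

open SimpleGraph MeasureTheory Finset
open scoped Pointwise

theorem pE_nonneg {W : Type*} [Fintype W] {n : ℕ} (H : SimpleGraph W) : 0 ≤ pE n H := by
  unfold pE
  apply Real.sInf_nonneg
  rintro x ⟨p, rfl, _⟩
  exact p.2.1

/-- `p_E(n,H) > 0` if `H` has an edge. -/
theorem pE_pos {W : Type*} [Fintype W] {n : ℕ} (H : SimpleGraph W) (hH : H ≠ ⊥)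
    (j : W ↪ Fin n) : 0 < pE n H := by
  classical
  obtain ⟨⟨p, hpE, hp⟩, _⟩ := pE_isLeast H j
  rw [← hpE]
  have hp0 : (0 : ℝ) ≤ p := p.2.1
  have hstab := stab_bound H j p hp
  rcases hp0.eq_or_lt with h0 | h0
  · exfalso
    obtain ⟨a, b, hab⟩ : ∃ a b, H.Adj a b := by
      by_contra hcon
      push Not at hcon
      apply hH
      ext a b
      simp [hcon a b]
    have hne : j a ≠ j b := fun h => hab.ne (j.injective h)
    have hsub : ({mkPair (j a) (j b) hne} : Finset (Pair n)) ⊆ img H j := by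
      rw [Finset.singleton_subset_iff, mem_img]
      exact ⟨a, b, hab, rfl⟩
    have h1 := hstab _ hsub
    rw [← h0, Finset.card_singleton, pow_one, mul_zero, mul_zero] at h1
    have h2 : 0 < (univ.filter (fun g : Equiv.Perm (Fin n) =>
        g • ({mkPair (j a) (j b) hne} : Finset (Pair n)) = {mkPair (j a) (j b) hne})).card := by
      rw [Finset.card_pos]
      exact ⟨1, by simp⟩
    have h3 : (0 : ℝ) < ((univ.filter (fun g : Equiv.Perm (Fin n) =>
        g • ({mkPair (j a) (j b) hne} : Finset (Pair n)) = {mkPair (j a) (j b) hne})).card : ℝ) := by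
      exact_mod_cast h2
    linarith
  · exact h0

theorem pEt_one_mem {W : Type*} [Fintype W] {n : ℕ} (H : SimpleGraph W) (j : W ↪ Fin n)
    (F : H.Subgraph) : (H.copyCount F.coe : ℝ) / 2 ≤ expCopy n F.coe 1 := by
  classical
  have h := copyCount_le_exp H j 1 (by
    intro F _
    have h1 : (univ.filter (fun g : Equiv.Perm (Fin n) => g • F ⊆ img H j)).card ≤
        Fintype.card (Equiv.Perm (Fin n)) := by
      rw [← Finset.card_univ]
      exact Finset.card_le_card (Finset.filter_subset _ _)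
    have h2 : ((univ.filter (fun g : Equiv.Perm (Fin n) => g • F ⊆ img H j)).card : ℝ) ≤
        Fintype.card (Equiv.Perm (Fin n)) := by exact_mod_cast h1
    simpa using h2) F
  have h0 : (0 : ℝ) ≤ (H.copyCount F.coe : ℝ) := by positivity
  linarith

/-- The minimum defining `p̃_E(n,H)` is attained. -/
theorem pEt_isLeast {W : Type*} [Fintype W] {n : ℕ} (H : SimpleGraph W) (j : W ↪ Fin n) :
    IsLeast {x : ℝ | ∃ p : unitInterval, (p : ℝ) = x ∧
      ∀ F : H.Subgraph, (H.copyCount F.coe : ℝ) / 2 ≤ expCopy n F.coe p} (pEt n H) := by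
  apply isLeast_of_closed {p : unitInterval | ∀ F : H.Subgraph,
    (H.copyCount F.coe : ℝ) / 2 ≤ expCopy n F.coe p}
  · have : {p : unitInterval | ∀ F : H.Subgraph, (H.copyCount F.coe : ℝ) / 2 ≤ expCopy n F.coe p}
        = ⋂ F : H.Subgraph, {p : unitInterval | (H.copyCount F.coe : ℝ) / 2 ≤
          expCopy n F.coe p} := by
      ext p
      simp
    rw [this]
    apply isClosed_iInter
    intro F
    exact isClosed_le continuous_const (continuous_expCopy n _)
  · exact ⟨1, fun F => pEt_one_mem H j F⟩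

/-- `p_E ≤ p̃_E`. -/
theorem pE_le_pEt {W : Type*} [Fintype W] {n : ℕ} (H : SimpleGraph W) (j : W ↪ Fin n) :
    pE n H ≤ pEt n H := by
  obtain ⟨⟨p, hp1, hp⟩, _⟩ := pEt_isLeast H j
  rw [← hp1]
  unfold pE
  apply csInf_le
  · refine ⟨0, ?_⟩
    rintro x ⟨p, rfl, _⟩
    exact p.2.1
  · refine ⟨p, rfl, ?_⟩
    intro F
    refine le_trans ?_ (hp F)
    have h2 : (1 : ℝ) ≤ (H.copyCount F.coe : ℝ) := by
      exact_mod_cast one_le_copyCount H F
    linarith

end Vale.Agent.P064
end
end
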